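import Vale.Agent.P031.Defs

/-! Completely additive and completely multiplicative functions. -/

open Finset

namespace Vale.Agent.P031

theorem ad_one (f : ℕ → ℝ) : ad f 1 = 0 := by simp [ad]

theorem ad_prime (f : ℕ → ℝ) {p : ℕ} (hp : p.Prime) : ad f p = f p := by
  simp [ad, Nat.primeFactorsList_prime hp]

theorem ad_mul (f : ℕ → ℝ) {a b : ℕ} (ha : a ≠ 0) (hb : b ≠ 0) :
    ad f (a * b) = ad f a + ad f b := by
  unfold ad
  rw [((Nat.perm_primeFactorsList_mul ha hb).map f).sum_eq, List.map_append, List.sum_append]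

theorem ad_prod {ι : Type*} (f : ℕ → ℝ) (S : Finset ι) (d : ι → ℕ) (hd : ∀ i ∈ S, d i ≠ 0) :
    ad f (∏ i ∈ S, d i) = ∑ i ∈ S, ad f (d i) := by
  classical
  induction S using Finset.induction_on with
  | empty => simp [ad_one]
  | insert i S hi ih =>
    rw [prod_insert hi, sum_insert hi, ad_mul f (hd i (mem_insert_self _ _))
      (prod_ne_zero_iff.2 fun j hj => hd j (mem_insert_of_mem hj)),
      ih fun j hj => hd j (mem_insert_of_mem hj)]

theorem ad_mono {f g : ℕ → ℝ} {n : ℕ} (h : ∀ p, p.Prime → p ∣ n → f p ≤ g p) :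
    ad f n ≤ ad g n :=
  List.sum_le_sum fun p hp =>
    h p (Nat.prime_of_mem_primeFactorsList hp) (Nat.dvd_of_mem_primeFactorsList hp)

theorem ad_congr {f g : ℕ → ℝ} {n : ℕ} (h : ∀ p, p.Prime → p ∣ n → f p = g p) :
    ad f n = ad g n :=
  le_antisymm (ad_mono fun p hp hd => (h p hp hd).le) (ad_mono fun p hp hd => (h p hp hd).ge)

theorem ad_zero (n : ℕ) : ad (fun _ => 0) n = 0 := by simp [ad]

theorem ad_nonneg {f : ℕ → ℝ} (h : ∀ p, 0 ≤ f p) (n : ℕ) : 0 ≤ ad f n := by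
  rw [← ad_zero n]; exact ad_mono fun p _ _ => h p

theorem ad_add (f g : ℕ → ℝ) (n : ℕ) : ad (fun p => f p + g p) n = ad f n + ad g n := by
  unfold ad; exact List.sum_map_add

theorem ad_smul (c : ℝ) (f : ℕ → ℝ) (n : ℕ) : ad (fun p => c * f p) n = c * ad f n := by
  unfold ad; exact List.sum_map_mul_left _ _ _

theorem ad_sum {ι : Type*} (S : Finset ι) (f : ι → ℕ → ℝ) (n : ℕ) :
    ad (fun p => ∑ i ∈ S, f i p) n = ∑ i ∈ S, ad (f i) n := by
  classical
  induction S using Finset.induction_on with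
  | empty => simp [ad_zero]
  | insert i S hi ih =>
    simp only [sum_insert hi]
    rw [ad_add, ih]

theorem ad_le_of_dvd {f : ℕ → ℝ} (h : ∀ p, 0 ≤ f p) {a b : ℕ} (hab : a ∣ b) (hb : b ≠ 0) :
    ad f a ≤ ad f b := by
  obtain ⟨c, rfl⟩ := hab
  rw [ad_mul f (left_ne_zero_of_mul hb) (right_ne_zero_of_mul hb)]
  linarith [ad_nonneg h c]

theorem mlt_one (g : ℕ → ℝ) : mlt g 1 = 1 := by simp [mlt]

theorem mlt_prime (g : ℕ → ℝ) {p : ℕ} (hp : p.Prime) : mlt g p = g p := by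
  simp [mlt, Nat.primeFactorsList_prime hp]

theorem mlt_mul (g : ℕ → ℝ) {a b : ℕ} (ha : a ≠ 0) (hb : b ≠ 0) :
    mlt g (a * b) = mlt g a * mlt g b := by
  unfold mlt
  rw [((Nat.perm_primeFactorsList_mul ha hb).map g).prod_eq, List.map_append, List.prod_append]

theorem mlt_nonneg {g : ℕ → ℝ} (h : ∀ p, 0 ≤ g p) (n : ℕ) : 0 ≤ mlt g n := by
  unfold mlt
  refine List.prod_nonneg fun x hx => ?_
  obtain ⟨p, -, rfl⟩ := List.mem_map.1 hx
  exact h p

theorem mlt_exp (f : ℕ → ℝ) (n : ℕ) : mlt (fun p => Real.exp (f p)) n = Real.exp (ad f n) := by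
  unfold mlt ad
  rw [Real.exp_list_sum, List.map_map]; rfl

theorem mlt_mul_fun (f g : ℕ → ℝ) (n : ℕ) :
    mlt (fun p => f p * g p) n = mlt f n * mlt g n := by
  unfold mlt; exact List.prod_map_mul

theorem mlt_congr {f g : ℕ → ℝ} {n : ℕ} (h : ∀ p, p.Prime → p ∣ n → f p = g p) :
    mlt f n = mlt g n := by
  unfold mlt
  rw [List.map_congr_left fun p hp =>
    h p (Nat.prime_of_mem_primeFactorsList hp) (Nat.dvd_of_mem_primeFactorsList hp)]

theorem Om_nonneg (n : ℕ) : 0 ≤ Om n := ad_nonneg (fun _ => zero_le_one) n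

theorem Ow_nonneg (w n : ℕ) : 0 ≤ Ow w n :=
  ad_nonneg (fun p => by split_ifs <;> norm_num) n

theorem Ow_le_Om (w n : ℕ) : Ow w n ≤ Om n :=
  ad_mono fun p _ _ => by split_ifs <;> norm_num

theorem Om_eq_length (n : ℕ) : Om n = n.primeFactorsList.length := by
  simp [Om, ad]

/-- A number with small prime factors is bounded in terms of `Ω`. -/
theorem le_pow_length {n y : ℕ} (hn : n ≠ 0) (h : ∀ p, p.Prime → p ∣ n → p ≤ y) :
    n ≤ y ^ n.primeFactorsList.length := by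
  conv_lhs => rw [← Nat.prod_primeFactorsList hn]
  exact List.prod_le_pow_card _ _ fun p hp =>
    h p (Nat.prime_of_mem_primeFactorsList hp) (Nat.dvd_of_mem_primeFactorsList hp)

theorem mu_nonneg (S : Finset ℕ) : 0 ≤ mu S := sum_nonneg fun _ _ => by positivity

theorem mu_mono {S T : Finset ℕ} (h : S ⊆ T) : mu S ≤ mu T :=
  sum_le_sum_of_subset_of_nonneg h fun _ _ _ => by positivity

theorem mu_union_le (S T : Finset ℕ) : mu (S ∪ T) ≤ mu S + mu T := by
  unfold mu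
  rw [← sum_union_inter]
  linarith [mu_nonneg (S ∩ T), show mu (S ∩ T) = ∑ n ∈ S ∩ T, 1 / (n : ℝ) from rfl]

theorem mu_biUnion_le {ι : Type*} (I : Finset ι) (S : ι → Finset ℕ) :
    mu (I.biUnion S) ≤ ∑ i ∈ I, mu (S i) := by
  classical
  induction I using Finset.induction_on with
  | empty => simp [mu]
  | insert i I hi ih =>
    rw [biUnion_insert, sum_insert hi]
    linarith [mu_union_le (S i) (I.biUnion S)]

theorem mu_image_le {ι : Type*} (T : Finset ι) (f : ι → ℕ) :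
    mu (T.image f) ≤ ∑ a ∈ T, 1 / (f a : ℝ) :=
  sum_image_le_of_nonneg fun _ _ => by positivity

/-- The mass of a set of products. -/
theorem mu_le_mul {ι : Type*} (S : Finset ℕ) (A : Finset ι) (d : ι → ℕ) (B : Finset ℕ)
    (h : ∀ v ∈ S, ∃ a ∈ A, ∃ b ∈ B, v = d a * b) :
    mu S ≤ (∑ a ∈ A, 1 / (d a : ℝ)) * mu B := by
  have : S ⊆ (A ×ˢ B).image fun r => d r.1 * r.2 := fun v hv => by
    obtain ⟨a, ha, b, hb, rfl⟩ := h v hv
    exact mem_image.2 ⟨(a, b), mem_product.2 ⟨ha, hb⟩, rfl⟩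
  refine (mu_mono this).trans ((mu_image_le _ _).trans (le_of_eq ?_))
  rw [mu, sum_mul_sum, sum_product]
  refine sum_congr rfl fun a _ => sum_congr rfl fun b _ => ?_
  push_cast
  rw [div_mul_div_comm, one_mul]

theorem card_le_mul_mu {S : Finset ℕ} {X : ℕ} (h : ∀ v ∈ S, v ≠ 0 ∧ v ≤ X) :
    (#S : ℝ) ≤ X * mu S := by
  rw [mu, mul_sum, card_eq_sum_ones]
  push_cast
  refine sum_le_sum fun v hv => ?_
  have h1 : (0 : ℝ) < v := by exact_mod_cast Nat.pos_of_ne_zero (h v hv).1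
  have h2 : (v : ℝ) ≤ X := by exact_mod_cast (h v hv).2
  rw [mul_one_div, le_div_iff₀ h1, one_mul]; exact h2

end Vale.Agent.P031
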