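import Vale.Agent.P031.Comb

/-! Brun's pure sieve in abstract form. -/

open Finset

namespace Vale.Agent.P031

/-- Truncated inclusion-exclusion. -/
noncomputable def BB {ι : Type*} (a : ι → ℝ) (P : Finset ι) (k : ℕ) : ℝ :=
  ∑ T ∈ P.powerset with #T ≤ k, (-1) ^ #T * ∏ i ∈ T, a i

theorem BB_zero {ι : Type*} (a : ι → ℝ) (P : Finset ι) : BB a P 0 = 1 := by
  have : P.powerset.filter (fun T => #T ≤ 0) = {∅} := by
    ext T
    simp only [mem_filter, mem_powerset, Nat.le_zero, card_eq_zero, mem_singleton]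
    exact ⟨fun h => h.2, fun h => ⟨h ▸ empty_subset _, h⟩⟩
  rw [BB, this]; simp

theorem BB_insert {ι : Type*} [DecidableEq ι] (a : ι → ℝ) {P : Finset ι} {i : ι} (hi : i ∉ P)
    (k : ℕ) : BB a (insert i P) (k + 1) = BB a P (k + 1) - a i * BB a P k := by
  simp only [BB, sum_filter]
  rw [sum_powerset_insert hi, mul_sum, sub_eq_add_neg, ← sum_neg_distrib]
  congr 1
  refine sum_congr rfl fun T hT => ?_
  have hiT : i ∉ T := fun h => hi (mem_powerset.1 hT h)
  rw [card_insert_of_notMem hiT, prod_insert hiT]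
  simp only [Nat.add_le_add_iff_right]
  split_ifs <;> ring

theorem bonferroni {ι : Type*} (a : ι → ℝ) (P : Finset ι) (ha : ∀ i ∈ P, 0 ≤ a i ∧ a i ≤ 1) :
    ∀ k, 0 ≤ (-1) ^ k * (BB a P k - ∏ i ∈ P, (1 - a i)) := by
  classical
  induction P using Finset.induction_on with
  | empty => intro k; simp [BB, filter_singleton]
  | insert i P hi ih =>
    intro k
    rcases k with _ | k
    · rw [BB_zero, pow_zero, one_mul, sub_nonneg]
      exact prod_le_one (fun j hj => sub_nonneg.2 (ha j hj).2) fun j hj => by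
        linarith [(ha j hj).1]
    · have ih' := ih fun j hj => ha j (mem_insert_of_mem hj)
      have h1 := ih' (k + 1)
      have h2 := mul_nonneg (ha i (mem_insert_self _ _)).1 (ih' k)
      rw [BB_insert a hi, prod_insert hi]
      rw [pow_succ] at h1 ⊢
      nlinarith

theorem BB_succ {ι : Type*} (a : ι → ℝ) (P : Finset ι) (k : ℕ) :
    BB a P (k + 1) = BB a P k +
      (-1) ^ (k + 1) * ∑ T ∈ P.powerset with #T = k + 1, ∏ i ∈ T, a i := by
  simp only [BB, sum_filter]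
  rw [mul_sum, ← sum_add_distrib]
  refine sum_congr rfl fun T _ => ?_
  by_cases h1 : #T ≤ k
  · rw [if_pos (by omega), if_pos h1, if_neg (by omega)]; ring
  · by_cases h2 : #T = k + 1
    · rw [if_pos (by omega), if_neg h1, if_pos h2, h2]; ring
    · rw [if_neg (by omega), if_neg h1, if_neg h2]; ring

theorem sum_range_periodic {f : ℕ → ℝ} {d : ℕ} (hf : Function.Periodic f d) (q r : ℕ) :
    ∑ n ∈ range (q * d + r), f n = q * ∑ n ∈ range d, f n + ∑ n ∈ range r, f n := by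
  induction q with
  | zero => simp
  | succ q ih =>
    rw [show (q + 1) * d + r = d + (q * d + r) by ring, sum_range_add]
    have : ∀ x, f (d + x) = f x := fun x => by rw [add_comm]; exact hf x
    simp only [this]
    rw [ih]; push_cast; ring

theorem sum_range_coprime {f g : ℕ → ℝ} {a b : ℕ} (hab : a.Coprime b) (ha : a ≠ 0) (hb : b ≠ 0)
    (hf : Function.Periodic f a) (hg : Function.Periodic g b) :
    ∑ n ∈ range (a * b), f n * g n = (∑ n ∈ range a, f n) * ∑ n ∈ range b, g n := by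
  rw [sum_mul_sum, ← sum_product']
  refine sum_bij (fun n _ => (n % a, n % b)) (fun n _ => ?_) (fun n hn m hm h => ?_)
    (fun r hr => ?_) fun n _ => ?_
  · simp [Nat.mod_lt _ (Nat.pos_of_ne_zero ha), Nat.mod_lt _ (Nat.pos_of_ne_zero hb)]
  · rw [Prod.mk.injEq] at h
    exact ((Nat.modEq_and_modEq_iff_modEq_mul hab).1 h).eq_of_lt_of_lt (mem_range.1 hn)
      (mem_range.1 hm)
  · rw [mem_product, mem_range, mem_range] at hr
    refine ⟨Nat.chineseRemainder hab r.1 r.2,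
      mem_range.2 (Nat.chineseRemainder_lt_mul hab _ _ ha hb), ?_⟩
    have h := (Nat.chineseRemainder hab r.1 r.2).2
    exact Prod.ext (Eq.trans h.1 (Nat.mod_eq_of_lt hr.1)) (Eq.trans h.2 (Nat.mod_eq_of_lt hr.2))
  · rw [hf.map_mod_nat, hg.map_mod_nat]

theorem sum_range_prod (χ : ℕ → ℕ → ℝ) (T : Finset ℕ) (hT : ∀ p ∈ T, p.Prime)
    (hχ : ∀ p, Function.Periodic (χ p) p) :
    Function.Periodic (fun n => ∏ p ∈ T, χ p n) (∏ p ∈ T, p) ∧
    ∑ n ∈ range (∏ p ∈ T, p), ∏ p ∈ T, χ p n = ∏ p ∈ T, ∑ n ∈ range p, χ p n := by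
  constructor
  · intro n
    refine prod_congr rfl fun p hp => ?_
    obtain ⟨c, hc⟩ := dvd_prod_of_mem (fun p => p) hp
    rw [hc, mul_comm]
    exact (hχ p).nat_mul c n
  induction T using Finset.induction_on with
  | empty => simp
  | insert i T hi ih =>
    have hT' : ∀ p ∈ T, p.Prime := fun p hp => hT p (mem_insert_of_mem hp)
    have hi' := hT i (mem_insert_self _ _)
    simp only [prod_insert hi]
    rw [← ih hT']
    refine sum_range_coprime (g := fun n => ∏ p ∈ T, χ p n)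
      (Nat.Coprime.prod_right fun p hp => (Nat.coprime_primes hi' (hT' p hp)).2
        fun h => hi (h ▸ hp)) hi'.ne_zero (prod_ne_zero_iff.2 fun p hp => (hT' p hp).ne_zero)
      (hχ i) fun n => prod_congr rfl fun p hp => ?_
    obtain ⟨c, hc⟩ := dvd_prod_of_mem (fun p => p) hp
    rw [hc, mul_comm]
    exact (hχ p).nat_mul c n

theorem sum_range_approx {f : ℕ → ℝ} {d : ℕ} (hd : d ≠ 0) (hf : Function.Periodic f d)
    (h01 : ∀ n, 0 ≤ f n ∧ f n ≤ 1) (N : ℕ) :
    |∑ n ∈ range N, f n - N * ((∑ n ∈ range d, f n) / d)| ≤ d := by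
  have hd0 : (0 : ℝ) < d := by exact_mod_cast Nat.pos_of_ne_zero hd
  have hb : ∀ m, 0 ≤ ∑ n ∈ range m, f n ∧ ∑ n ∈ range m, f n ≤ m := fun m =>
    ⟨sum_nonneg fun n _ => (h01 n).1, by
      simpa using sum_le_card_nsmul (range m) f 1 fun n _ => (h01 n).2⟩
  have hr : ((N % d : ℕ) : ℝ) ≤ d := by exact_mod_cast (Nat.mod_lt N (Nat.pos_of_ne_zero hd)).le
  have hr0 : (0 : ℝ) ≤ (N % d : ℕ) := Nat.cast_nonneg _
  have hN : (N : ℝ) = (N / d : ℕ) * d + (N % d : ℕ) := by
    exact_mod_cast (Nat.div_add_mod' N d).symm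
  have h1 := sum_range_periodic hf (N / d) (N % d)
  rw [Nat.div_add_mod'] at h1
  obtain ⟨h2, h3⟩ := hb d
  obtain ⟨h4, h5⟩ := hb (N % d)
  set c := (∑ n ∈ range d, f n) / d with hc
  have hc0 : 0 ≤ c := by positivity
  have hc1 : c ≤ 1 := (div_le_one hd0).2 h3
  have hc2 : ∑ n ∈ range d, f n = c * d := by rw [hc]; field_simp
  rw [h1, hN, hc2, abs_le]
  constructor <;> nlinarith

/-- Brun's pure sieve. -/
theorem brun (P : Finset ℕ) (hP : ∀ p ∈ P, p.Prime) (Rs : ℕ → Finset ℕ) (ρ : ℕ)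
    (hR : ∀ p ∈ P, Rs p ⊆ range p ∧ #(Rs p) = ρ) (k N : ℕ) :
    (#((range N).filter fun n => ∀ p ∈ P, n % p ∉ Rs p) : ℝ) ≤
      N * (Real.exp (-(ρ * ∑ p ∈ P, 1 / (p : ℝ))) +
        Real.exp (3 * (ρ * ∑ p ∈ P, 1 / (p : ℝ)) - (2 * k + 1 : ℕ))) +
      ∑ T ∈ P.powerset with #T ≤ 2 * k, ∏ p ∈ T, (p : ℝ) := by
  set χ : ℕ → ℕ → ℝ := fun p n => if n % p ∈ Rs p then 1 else 0 with hχ
  have hχ01 : ∀ p n, 0 ≤ χ p n ∧ χ p n ≤ 1 := fun p n => by
    simp only [hχ]; split_ifs <;> norm_num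
  have hχp : ∀ p, Function.Periodic (χ p) p := fun p n => by simp [hχ]
  have hχs : ∀ p ∈ P, ∑ n ∈ range p, χ p n = ρ := fun p hp => by
    rw [← (hR p hp).2, ← inter_eq_right.2 (hR p hp).1, ← filter_mem_eq_inter, card_filter]
    push_cast
    refine sum_congr rfl fun n hn => ?_
    simp only [hχ, Nat.mod_eq_of_lt (mem_range.1 hn)]
  set a : ℕ → ℝ := fun p => ρ / p with ha
  have ha01 : ∀ p ∈ P, 0 ≤ a p ∧ a p ≤ 1 := fun p hp => by
    have h0 : (0 : ℝ) < p := by exact_mod_cast (hP p hp).pos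
    refine ⟨by positivity, (div_le_one h0).2 ?_⟩
    have := card_le_card (hR p hp).1
    rw [(hR p hp).2, card_range] at this
    exact_mod_cast this
  have hsa : ∑ p ∈ P, a p = ρ * ∑ p ∈ P, 1 / (p : ℝ) := by
    rw [mul_sum]; exact sum_congr rfl fun p _ => by simp only [ha]; ring
  have h1 : (#((range N).filter fun n => ∀ p ∈ P, n % p ∉ Rs p) : ℝ) ≤
      ∑ n ∈ range N, BB (fun p => χ p n) P (2 * k) := by
    rw [card_filter]
    push_cast
    refine sum_le_sum fun n _ => ?_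
    have := bonferroni (fun p => χ p n) P (fun p _ => hχ01 p n) (2 * k)
    rw [pow_mul, neg_one_sq, one_pow, one_mul, sub_nonneg] at this
    refine le_trans ?_ this
    split_ifs with h
    · exact le_of_eq (prod_eq_one fun p hp => by simp [hχ, h p hp]).symm
    · exact prod_nonneg fun p _ => sub_nonneg.2 (hχ01 p n).2
  have h2 : ∑ n ∈ range N, BB (fun p => χ p n) P (2 * k) ≤ N * BB a P (2 * k) +
      ∑ T ∈ P.powerset with #T ≤ 2 * k, ∏ p ∈ T, (p : ℝ) := by
    simp only [BB]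
    rw [sum_comm, mul_sum, ← sum_add_distrib]
    refine sum_le_sum fun T hT => ?_
    have hTP := mem_powerset.1 (mem_filter.1 hT).1
    obtain ⟨h3, h4⟩ := sum_range_prod χ T (fun p hp => hP p (hTP hp)) hχp
    have h5 := sum_range_approx (prod_ne_zero_iff.2 fun p hp => (hP p (hTP hp)).ne_zero) h3
      (fun n => ⟨prod_nonneg fun p _ => (hχ01 p n).1,
        prod_le_one (fun p _ => (hχ01 p n).1) fun p _ => (hχ01 p n).2⟩) N
    rw [h4, prod_congr rfl fun p hp => hχs p (hTP hp), Nat.cast_prod, ← prod_div_distrib,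
      abs_le] at h5
    rw [← mul_sum]
    rcases neg_one_pow_eq_or ℝ #T with h | h <;> rw [h] <;> simp only [ha] <;> linarith [h5.1, h5.2]
  have h3 : BB a P (2 * k) ≤ Real.exp (-(ρ * ∑ p ∈ P, 1 / (p : ℝ))) +
      Real.exp (3 * (ρ * ∑ p ∈ P, 1 / (p : ℝ)) - (2 * k + 1 : ℕ)) := by
    have h4 := bonferroni a P ha01 (2 * k + 1)
    rw [BB_succ, pow_succ, pow_mul, neg_one_sq, one_pow, one_mul] at h4
    have h5 := esymm_le P (fun p hp => (ha01 p hp).1) (2 * k + 1)
    have h6 : ∏ p ∈ P, (1 - a p) ≤ Real.exp (-∑ p ∈ P, a p) := by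
      rw [← sum_neg_distrib, Real.exp_sum]
      exact prod_le_prod (fun p hp => sub_nonneg.2 (ha01 p hp).2) fun p _ => by
        linarith [Real.add_one_le_exp (-a p)]
    rw [hsa] at h5 h6
    linarith
  exact h1.trans (h2.trans (add_le_add_left
    (mul_le_mul_of_nonneg_left h3 (Nat.cast_nonneg N)) _))

end Vale.Agent.P031
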