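import Vale.Agent.P031.Add

/-! Combinatorial tools. -/

open Finset

namespace Vale.Agent.P031

theorem abel (c : ℕ → ℝ) (a : ℕ) (B : ℝ) (b : ℕ) : ∀ (h : ℕ → ℝ) (Λ : ℝ), Antitone h →
    (∀ w, h w ≤ Λ) → 0 ≤ h b → (∀ w ≤ b, |∑ i ∈ Ioc a w, c i| ≤ B) →
    |∑ i ∈ Ioc a b, h i * c i| ≤ Λ * B := by
  induction b with
  | zero =>
    intro h Λ _ h1 h2 h3
    have := (abs_nonneg _).trans (h3 0 le_rfl)
    simpa using mul_nonneg (h2.trans (h1 0)) this
  | succ b ih =>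
    intro h Λ hm h1 h2 h3
    have hB := (abs_nonneg _).trans (h3 0 (Nat.zero_le _))
    by_cases hab : a ≤ b
    · have h4 := ih (fun w => h w - h (b + 1)) (Λ - h (b + 1))
        (fun v w hvw => sub_le_sub_right (hm hvw) _) (fun w => sub_le_sub_right (h1 w) _)
        (sub_nonneg.2 (hm (Nat.le_succ b))) fun w hw => h3 w (by omega)
      have h5 : ∑ i ∈ Ioc a (b + 1), h i * c i = ∑ i ∈ Ioc a b, (h i - h (b + 1)) * c i +
          h (b + 1) * ∑ i ∈ Ioc a (b + 1), c i := by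
        rw [sum_Ioc_succ_top hab, sum_Ioc_succ_top hab, mul_add, mul_sum, ← add_assoc,
          ← sum_add_distrib]
        congr 1
        exact sum_congr rfl fun i _ => by ring
      rw [h5]
      refine (abs_add_le _ _).trans ?_
      rw [abs_mul, abs_of_nonneg h2]
      nlinarith [mul_le_mul_of_nonneg_left (h3 (b + 1) le_rfl) h2]
    · rw [Ioc_eq_empty (by omega)]
      simpa using mul_nonneg (h2.trans (h1 _)) hB

theorem sum_prod_le_exp {ι : Type*} (P : Finset ι) {a : ι → ℝ} (ha : ∀ i ∈ P, 0 ≤ a i) :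
    ∑ C ∈ P.powerset, ∏ i ∈ C, a i ≤ Real.exp (∑ i ∈ P, a i) := by
  classical
  rw [← prod_one_add, Real.exp_sum]
  exact prod_le_prod (fun i hi => by linarith [ha i hi]) fun i _ => by
    linarith [Real.add_one_le_exp (a i)]

theorem submass {ι : Type*} (P : Finset ι) {a : ι → ℝ} (ha : ∀ i ∈ P, 0 ≤ a i) {T : ℝ}
    (hT : 1 ≤ T) (hs : ∑ i ∈ P, a i ≤ T) (K : ℕ) :
    ∑ C ∈ P.powerset with #C ≤ K, ∏ i ∈ C, a i ≤ 3 * T ^ K := by
  have hT0 : 0 < T := by linarith
  have h1 := sum_prod_le_exp P (a := fun i => a i / T) fun i hi => div_nonneg (ha i hi) hT0.le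
  have h2 : Real.exp (∑ i ∈ P, a i / T) ≤ 3 := by
    rw [← sum_div]
    refine (Real.exp_le_exp.2 ((div_le_one hT0).2 hs)).trans ?_
    linarith [Real.exp_one_lt_d9]
  have h3 : ∀ C ∈ P.powerset, 0 ≤ ∏ i ∈ C, a i / T := fun C hC =>
    prod_nonneg fun i hi => div_nonneg (ha i (mem_powerset.1 hC hi)) hT0.le
  calc _ ≤ ∑ C ∈ P.powerset with #C ≤ K, T ^ K * ∏ i ∈ C, a i / T := by
        refine sum_le_sum fun C hC => ?_
        rw [mem_filter] at hC
        have : ∏ i ∈ C, a i = T ^ #C * ∏ i ∈ C, a i / T := by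
          rw [prod_div_distrib, prod_const, mul_div_cancel₀ _ (by positivity)]
        rw [this]
        exact mul_le_mul_of_nonneg_right (pow_le_pow_right₀ hT hC.2) (h3 C hC.1)
    _ ≤ ∑ C ∈ P.powerset, T ^ K * ∏ i ∈ C, a i / T :=
        sum_le_sum_of_subset_of_nonneg (filter_subset _ _) fun C hC _ =>
          mul_nonneg (by positivity) (h3 C hC)
    _ ≤ _ := by
        rw [← mul_sum, mul_comm]
        exact mul_le_mul_of_nonneg_right (h1.trans h2) (by positivity)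

theorem esymm_le {ι : Type*} (P : Finset ι) {a : ι → ℝ} (ha : ∀ i ∈ P, 0 ≤ a i) (j : ℕ) :
    ∑ C ∈ P.powerset with #C = j, ∏ i ∈ C, a i ≤ Real.exp (3 * ∑ i ∈ P, a i - j) := by
  have h1 := sum_prod_le_exp P (a := fun i => 3 * a i) fun i hi => by linarith [ha i hi]
  have h3 : ∀ C ∈ P.powerset, 0 ≤ ∏ i ∈ C, a i := fun C hC =>
    prod_nonneg fun i hi => ha i (mem_powerset.1 hC hi)
  rw [Real.exp_sub, le_div_iff₀ (Real.exp_pos _), mul_sum, sum_mul]
  refine le_trans ?_ h1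
  calc _ ≤ ∑ C ∈ P.powerset with #C = j, ∏ i ∈ C, 3 * a i := by
        refine sum_le_sum fun C hC => ?_
        rw [mem_filter] at hC
        rw [prod_mul_distrib, prod_const, hC.2, mul_comm]
        refine mul_le_mul_of_nonneg_right ?_ (h3 C hC.1)
        rw [← mul_one (j : ℝ), Real.exp_nat_mul]
        exact pow_le_pow_left₀ (Real.exp_pos _).le (by linarith [Real.exp_one_lt_d9]) _
    _ ≤ _ := sum_le_sum_of_subset_of_nonneg (filter_subset _ _) fun C hC _ =>
          prod_nonneg fun i hi => by linarith [ha i (mem_powerset.1 hC hi)]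

theorem sum_le_sum_fiber {A B : Type*} [DecidableEq B] (T : Finset A) (f : A → B) (w : A → ℝ)
    (F : B → ℝ) (h : ∀ b ∈ T.image f, ∑ a ∈ T with f a = b, w a ≤ F b) :
    ∑ a ∈ T, w a ≤ ∑ b ∈ T.image f, F b := by
  rw [← sum_fiberwise_of_maps_to (t := T.image f) (g := f) fun a ha => mem_image_of_mem f ha]
  exact sum_le_sum h

theorem fiber_le {A B C : Type*} [DecidableEq B] (T : Finset A) (f : A → B) (g : A → C)
    (inj : ∀ a ∈ T, ∀ a' ∈ T, f a = f a' → g a = g a' → a = a') (w : A → ℝ) (wB : B → ℝ)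
    (wC : C → ℝ) (F : B → ℝ) (hw : ∀ a ∈ T, w a ≤ wB (f a) * wC (g a))
    (hM : ∀ b ∈ T.image f, ∀ V : Finset C, (∀ c ∈ V, ∃ a ∈ T, f a = b ∧ g a = c) →
      wB b * ∑ c ∈ V, wC c ≤ F b) :
    ∑ a ∈ T, w a ≤ ∑ b ∈ T.image f, F b := by
  classical
  refine sum_le_sum_fiber T f w F fun b hb => ?_
  refine le_trans ?_ (hM b hb ((T.filter fun a => f a = b).image g) fun c hc => ?_)
  · rw [sum_image, mul_sum]
    · refine sum_le_sum fun a ha => ?_
      rw [mem_filter] at ha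
      rw [← ha.2]; exact hw a ha.1
    · intro a ha a' ha' h
      rw [coe_filter] at ha ha'
      exact inj a ha.1 a' ha'.1 (ha.2.trans ha'.2.symm) h
  · obtain ⟨a, ha, rfl⟩ := mem_image.1 hc
    exact ⟨a, (mem_filter.1 ha).1, (mem_filter.1 ha).2, rfl⟩

theorem dyadic (V : Finset ℕ) (hV : ∀ n ∈ V, n ≠ 0) (F : ℕ → ℝ)
    (h : ∀ k ∈ V.image (Nat.log 2), (#(V.filter (· < 2 ^ (k + 1))) : ℝ) ≤ 2 ^ (k + 1) * F k) :
    mu V ≤ ∑ k ∈ V.image (Nat.log 2), 2 * F k := by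
  refine sum_le_sum_fiber V _ _ _ fun k hk => ?_
  have h0 : (0 : ℝ) < 2 ^ k := by positivity
  calc _ ≤ ∑ n ∈ V with Nat.log 2 n = k, 1 / (2 : ℝ) ^ k := by
        refine sum_le_sum fun n hn => ?_
        rw [mem_filter] at hn
        refine one_div_le_one_div_of_le h0 ?_
        rw [← hn.2]
        exact_mod_cast Nat.pow_log_le_self 2 (hV n hn.1)
    _ ≤ ∑ n ∈ V with n < 2 ^ (k + 1), 1 / (2 : ℝ) ^ k := by
        refine sum_le_sum_of_subset_of_nonneg (fun n hn => ?_) fun _ _ _ => by positivity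
        rw [mem_filter] at hn ⊢
        exact ⟨hn.1, hn.2 ▸ Nat.lt_pow_succ_log_self (by norm_num) n⟩
    _ ≤ _ := by
        rw [sum_const, nsmul_eq_mul, mul_one_div, div_le_iff₀ h0]
        refine (h k hk).trans (le_of_eq ?_)
        ring

open Classical in
theorem collision {A B : Type*} [DecidableEq B] (T : Finset A) (f : A → B) (key : A → ℕ)
    (inj : ∀ a ∈ T, ∀ a' ∈ T, f a = f a' → key a = key a' → a = a') (w : B → ℝ)
    (hw : ∀ b, 0 ≤ w b) :
    ∑ a ∈ T, w (f a) ≤ ∑ b ∈ T.image f, w b +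
      ∑ r ∈ T ×ˢ T with (f r.1 = f r.2 ∧ key r.2 < key r.1), w (f r.1) := by
  rw [← sum_filter_add_sum_filter_not T fun a => ¬ ∃ a' ∈ T, f a = f a' ∧ key a' < key a]
  refine add_le_add ?_ ?_
  · rw [← sum_image (g := f) (f := w)]
    · exact sum_le_sum_of_subset_of_nonneg (image_subset_image (filter_subset _ _))
        fun _ _ _ => hw _
    · intro a ha a' ha' h
      rw [coe_filter] at ha ha'
      refine inj a ha.1 a' ha'.1 h ?_
      rcases lt_trichotomy (key a) (key a') with h1 | h1 | h1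
      · exact absurd ⟨a, ha.1, h.symm, h1⟩ ha'.2
      · exact h1
      · exact absurd ⟨a', ha'.1, h, h1⟩ ha.2
  · refine le_trans ?_ (sum_image_le_of_nonneg (g := Prod.fst) (f := fun a => w (f a))
      fun _ _ => hw _)
    refine sum_le_sum_of_subset_of_nonneg (fun a ha => ?_) fun _ _ _ => hw _
    rw [mem_filter, not_not] at ha
    obtain ⟨a', ha', h⟩ := ha.2
    exact mem_image.2 ⟨(a, a'), mem_filter.2 ⟨mem_product.2 ⟨ha.1, ha'⟩, h⟩, rfl⟩

theorem exists_root {t R : ℕ} (ht : 1 ≤ t) (hR : 1 ≤ R) : ∃ y, t ≤ (y + 1) ^ R ∧ y ^ R < t := by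
  classical
  have h : ∃ y, t ≤ y ^ R := ⟨t, Nat.le_self_pow (by omega) t⟩
  have h1 := Nat.find_spec h
  have h2 : Nat.find h ≠ 0 := fun h0 => by
    rw [h0, zero_pow (by omega)] at h1; omega
  obtain ⟨y, hy⟩ := Nat.exists_eq_succ_of_ne_zero h2
  refine ⟨y, by rwa [hy] at h1, not_le.1 (Nat.find_min h (by omega))⟩

end Vale.Agent.P031
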