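import Mathlib

/-! Definitions for the proof that `V(cx)/V(x) → c`. -/

open Finset

namespace Vale.Agent.P031

/-- Sum of the reciprocals of the primes up to `t`. -/
noncomputable def L (t : ℕ) : ℝ := ∑ p ∈ t.primesLE, 1 / (p : ℝ)

/-- The level of `t`. -/
noncomputable def lev (t : ℕ) : ℕ := ⌊L t⌋₊

/-- Completely additive function with values `f` at the primes. -/
noncomputable def ad (f : ℕ → ℝ) (n : ℕ) : ℝ := (n.primeFactorsList.map f).sum

/-- Completely multiplicative function with values `g` at the primes. -/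
noncomputable def mlt (g : ℕ → ℝ) (n : ℕ) : ℝ := (n.primeFactorsList.map g).prod

/-- Logarithmic mass. -/
noncomputable def mu (S : Finset ℕ) : ℝ := ∑ n ∈ S, 1 / (n : ℝ)

/-- Number of prime factors. -/
noncomputable def Om (n : ℕ) : ℝ := ad (fun _ => 1) n

/-- Number of prime factors of level at most `w`. -/
noncomputable def Ow (w n : ℕ) : ℝ := ad (fun p => if lev p ≤ w then 1 else 0) n

/-- The parameter regime. -/
structure Good (s X : ℕ) : Prop where
  s_ge : 10 ^ 12 ≤ s
  lo : (s : ℝ) ^ 54 ≤ L X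
  hi : L (2 * X) ≤ (s : ℝ) ^ 55

/-- The cut-off level. -/
@[irreducible] def W (s : ℕ) : ℕ := s ^ 31

/-- The allowed deviation. -/
@[irreducible] def D (s : ℕ) : ℕ := s ^ 30

/-- The smoothness exponent. -/
@[irreducible] def R (s : ℕ) : ℕ := s ^ 56

theorem cast_R (s : ℕ) : (R s : ℝ) = (s : ℝ) ^ 56 := by
  unfold R; push_cast; rfl

theorem cast_W (s : ℕ) : (W s : ℝ) = (s : ℝ) ^ 31 := by
  unfold W; push_cast; rfl

theorem cast_D (s : ℕ) : (D s : ℝ) = (s : ℝ) ^ 30 := by
  unfold D; push_cast; rfl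

/-- Normal primes. -/
def Normal (s q : ℕ) : Prop := ∀ w ≤ lev q, |Ow w (q - 1) - w| ≤ (s : ℝ) ^ 30

open Classical in
/-- Large normal primes. -/
noncomputable def NP (s X : ℕ) : Finset ℕ :=
  X.primesLE.filter fun q => Normal s q ∧ W s < lev q

open Classical in
/-- Tails. -/
noncomputable def Tail (s X : ℕ) : Finset ℕ :=
  (range (X + 1)).filter fun τ => ∃ n, 1 ≤ n ∧ n.totient = τ ∧
    (∀ p, p.Prime → p ∣ n → lev p ≤ W s) ∧ Om τ ≤ (s : ℝ) ^ 32

open Classical in
/-- Totient values below `X`. -/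
noncomputable def Tot (X : ℕ) : Finset ℕ :=
  (range X).filter fun v => ∃ n, 1 ≤ n ∧ n.totient = v

/-- Number of primes of `Q` of level at least `w`. -/
noncomputable def II (Q : Finset ℕ) (w : ℕ) : ℕ := #(Q.filter fun q => w ≤ lev q)

/-- The entropy function. -/
noncomputable def bb (n : ℕ) : ℝ := n * Real.log n - n

/-- Its increments. -/
noncomputable def aa (n : ℕ) : ℝ := bb (n + 1) - bb n

/-- The shape functionals. -/
noncomputable def gam (s X : ℕ) (Q : Finset ℕ) (g : ℕ) : ℝ :=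
  ∑ w ∈ Ioc (W s) (lev X), (bb (g + II Q w) - bb g)

/-- The value of a representation. -/
def val (Q : Finset ℕ) (τ : ℕ) : ℕ := τ * ∏ q ∈ Q, (q - 1)

/-- Feasible sets of primes. -/
def Feas (s X : ℕ) (Q : Finset ℕ) : Prop :=
  ∀ q ∈ Q, gam s X (Q.filter (· ≤ q)) 0 ≤ (s : ℝ) ^ 34

/-- States. -/
abbrev St : Type := ℝ × (ℕ → ℝ)

/-- Adding a new top prime. -/
noncomputable def push (x : ℝ) (σ : St) : St := (x, fun g => aa g * x + σ.2 (g + 1))

/-- The threshold for the next prime. -/
noncomputable def th (σ : St) : ℝ := max σ.1 (σ.2 1)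

/-- Iterated thresholds. -/
noncomputable def Z : ℕ → St → ℝ
  | 0, σ => th σ
  | n + 1, σ => Z n (push (th σ) σ)

/-- The state of a set of primes. -/
noncomputable def st (s X : ℕ) (Q : Finset ℕ) : St :=
  (((Q.sup lev - W s : ℕ) : ℝ), gam s X Q)

open Classical in
/-- The values with a feasible representation of `n`-th threshold at most `A`. -/
noncomputable def G (s X n : ℕ) (A : ℝ) : Finset ℕ :=
  (((NP s X).powerset ×ˢ Tail s X).filter fun r =>
    Feas s X r.1 ∧ #r.1 + n ≤ s + 3 ∧ Z n (st s X r.1) ≤ A).image fun r => val r.1 r.2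

/-- The length of the range of levels. -/
noncomputable def U (s X : ℕ) : ℝ := (lev X : ℝ) - (s : ℝ) ^ 31

end Vale.Agent.P031
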