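import Vale.Agent.P031.Sieve

/-! The abstract energy bound. -/

open Finset

namespace Vale.Agent.P031

variable {s X : ℕ} {ι : Type} [Fintype ι] [DecidableEq ι]

/-- The product of the slots on one side. -/
def side (σ : ι → Bool) (b : Bool) (d : ι → ℕ) : ℕ := ∏ i with σ i = b, d i

/-- Admissible fillings of the slots; the slots in `S` are conditioned. -/
structure Adm (s X : ℕ) (σ : ι → Bool) (l : ι → ℕ) (S : Finset ι) (d : ι → ℕ) : Prop where
  pos : ∀ i, d i ≠ 0
  eq : side σ true d = side σ false d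
  lv : ∀ i p, p.Prime → p ∣ d i → p ≤ X ∧ lev p ≤ l i
  cond : ∀ i ∈ S, d i ≤ X ∧ (d i + 1).Prime ∧ ∃ β, β.Prime ∧ β ∣ d i ∧ l i ≤ lev β + 3 * D s
  ne : ∀ i ∈ S, ∀ j ∈ S, σ i ≠ σ j → d i ≠ d j

/-- Removing a factor from two slots. -/
def red (i j : ι) (β : ℕ) (d : ι → ℕ) : ι → ℕ := fun k => if k = i ∨ k = j then d k / β else d k

theorem red_mul {i j : ι} {β : ℕ} {d : ι → ℕ} (hi : β ∣ d i) (hj : β ∣ d j) (k : ι) :
    d k = (if k = i ∨ k = j then β else 1) * red i j β d k := by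
  unfold red
  split_ifs with h
  · rcases h with rfl | rfl
    · exact (Nat.mul_div_cancel' hi).symm
    · exact (Nat.mul_div_cancel' hj).symm
  · rw [one_mul]

theorem side_red {σ : ι → Bool} {i j : ι} (hσ : σ j ≠ σ i) {β : ℕ} {d : ι → ℕ} (hi : β ∣ d i)
    (hj : β ∣ d j) (b : Bool) : side σ b d = β * side σ b (red i j β d) := by
  unfold side
  rw [prod_congr rfl fun k _ => red_mul hi hj k, prod_mul_distrib]
  congr 1
  by_cases hb : σ i = b
  · rw [prod_eq_single i, if_pos (Or.inl rfl)]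
    · intro k hk hki
      rw [if_neg]
      rintro (h | h)
      · exact hki h
      · exact hσ (by rw [← h, (mem_filter.1 hk).2, hb])
    · intro h; exact absurd (mem_filter.2 ⟨mem_univ i, hb⟩) h
  · have hb' : σ j = b := by
      cases h1 : σ i <;> cases h2 : σ j <;> cases b <;> simp_all
    rw [prod_eq_single j, if_pos (Or.inr rfl)]
    · intro k hk hkj
      rw [if_neg]
      rintro (h | h)
      · exact hb (by rw [← h, (mem_filter.1 hk).2])
      · exact hkj h
    · intro h; exact absurd (mem_filter.2 ⟨mem_univ j, hb'⟩) h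

theorem Adm.red {σ : ι → Bool} {l : ι → ℕ} {S S' : Finset ι} {d : ι → ℕ} (h : Adm s X σ l S d)
    {i j : ι} (hσ : σ j ≠ σ i) {β : ℕ} (hβ : β ≠ 0) (hi : β ∣ d i) (hj : β ∣ d j)
    (hS : ∀ k ∈ S', k ∈ S ∧ k ≠ i ∧ k ≠ j) : Adm s X σ l S' (red i j β d) := by
  have e : ∀ k ∈ S', P031.red i j β d k = d k := fun k hk => if_neg fun h' =>
    h'.elim (hS k hk).2.1 (hS k hk).2.2
  refine ⟨fun k h0 => h.pos k (by rw [red_mul hi hj k, h0, mul_zero]), ?_,
    fun k p hp hd => h.lv k p hp (by rw [red_mul hi hj k]; exact hd.mul_left _),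
    fun k hk => by rw [e k hk]; exact h.cond k (hS k hk).1,
    fun k hk k' hk' => by rw [e k hk, e k' hk']; exact h.ne k (hS k hk).1 k' (hS k' hk').1⟩
  have := h.eq
  rw [side_red hσ hi hj, side_red hσ hi hj false] at this
  exact Nat.eq_of_mul_eq_mul_left (Nat.pos_of_ne_zero hβ) this

theorem Adm.side_ne {σ : ι → Bool} {l : ι → ℕ} {S : Finset ι} {d : ι → ℕ} (h : Adm s X σ l S d)
    (b : Bool) : side σ b d ≠ 0 := prod_ne_zero_iff.2 fun i _ => h.pos i

theorem Adm.side_eq {σ : ι → Bool} {l : ι → ℕ} {S : Finset ι} {d : ι → ℕ} (h : Adm s X σ l S d)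
    (b : Bool) : side σ b d = side σ true d := by
  cases b
  exacts [h.eq.symm, rfl]

theorem dvd_side (σ : ι → Bool) (d : ι → ℕ) (i : ι) : d i ∣ side σ (σ i) d :=
  dvd_prod_of_mem _ (mem_filter.2 ⟨mem_univ _, rfl⟩)

theorem exists_of_dvd_side {σ : ι → Bool} {d : ι → ℕ} {b : Bool} {p : ℕ} (hp : p.Prime)
    (h : p ∣ side σ b d) : ∃ i, σ i = b ∧ p ∣ d i := by
  obtain ⟨i, hi, h⟩ := (Prime.dvd_finset_prod_iff hp.prime _).1 h
  exact ⟨i, (mem_filter.1 hi).2, h⟩

/-- The number of slots available for a prime. -/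
noncomputable def cnt (σ : ι → Bool) (l : ι → ℕ) (b : Bool) (w : ℕ) : ℕ :=
  #(univ.filter fun i => σ i = b ∧ w ≤ l i)

theorem free_card (σ : ι → Bool) (l : ι → ℕ) (v : ℕ) : ∀ T : Finset (ι → ℕ),
    (∀ d ∈ T, Adm s X σ l ∅ d ∧ side σ true d = v) →
    (#T : ℝ) ≤ mlt (fun p => cnt σ l true (lev p) * cnt σ l false (lev p)) v := by
  induction v using Nat.strong_induction_on with
  | _ v ih =>
  intro T hT
  rcases T.eq_empty_or_nonempty with rfl | ⟨d0, hd0⟩
  · simpa using mlt_nonneg (fun p => by positivity) v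
  have hv : v ≠ 0 := (hT d0 hd0).2 ▸ (hT d0 hd0).1.side_ne true
  rcases eq_or_ne v 1 with rfl | hv1
  · rw [mlt_one]
    have : T ⊆ {fun _ => 1} := fun d hd => by
      rw [mem_singleton]
      funext i
      have := dvd_side σ d i
      rw [(hT d hd).1.side_eq, (hT d hd).2] at this
      exact Nat.dvd_one.1 this
    exact_mod_cast (card_le_card this).trans (by simp)
  obtain ⟨p, hp, v', rfl⟩ := Nat.exists_prime_and_dvd hv1
  have hv' : v' ≠ 0 := right_ne_zero_of_mul hv
  set A := (univ.filter fun i => σ i = true ∧ lev p ≤ l i) ×ˢ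
    (univ.filter fun i => σ i = false ∧ lev p ≤ l i) with hA
  have h1 : T ⊆ A.biUnion fun r => T.filter fun d => p ∣ d r.1 ∧ p ∣ d r.2 := fun d hd => by
    obtain ⟨i, hi, hi'⟩ := exists_of_dvd_side (σ := σ) (d := d) (b := true) hp
      (by rw [(hT d hd).2]; exact dvd_mul_right _ _)
    obtain ⟨j, hj, hj'⟩ := exists_of_dvd_side (σ := σ) (d := d) (b := false) hp
      (by rw [(hT d hd).1.side_eq, (hT d hd).2]; exact dvd_mul_right _ _)
    exact mem_biUnion.2 ⟨(i, j), mem_product.2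
      ⟨mem_filter.2 ⟨mem_univ _, hi, ((hT d hd).1.lv i p hp hi').2⟩,
        mem_filter.2 ⟨mem_univ _, hj, ((hT d hd).1.lv j p hp hj').2⟩⟩,
      mem_filter.2 ⟨hd, hi', hj'⟩⟩
  have h2 : ∀ r ∈ A, (#(T.filter fun d => p ∣ d r.1 ∧ p ∣ d r.2) : ℝ) ≤
      mlt (fun p => cnt σ l true (lev p) * cnt σ l false (lev p)) v' := fun r hr => by
    rw [mem_product, mem_filter, mem_filter] at hr
    have hσ : σ r.2 ≠ σ r.1 := by rw [hr.1.2.1, hr.2.2.1]; decide
    rw [← card_image_of_injOn (f := red r.1 r.2 p) fun d hd d' hd' he => by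
      rw [coe_filter] at hd hd'
      funext k
      rw [red_mul hd.2.1 hd.2.2 k, red_mul hd'.2.1 hd'.2.2 k, he]]
    refine ih v' (lt_mul_of_one_lt_left (Nat.pos_of_ne_zero hv') hp.one_lt) _ fun d' hd' => ?_
    obtain ⟨d, hd, rfl⟩ := mem_image.1 hd'
    rw [mem_filter] at hd
    refine ⟨(hT d hd.1).1.red hσ hp.ne_zero hd.2.1 hd.2.2 (by simp), ?_⟩
    have := (hT d hd.1).2
    rw [side_red hσ hd.2.1 hd.2.2] at this
    exact Nat.eq_of_mul_eq_mul_left hp.pos this
  have h3 : (#T : ℝ) ≤ ∑ r ∈ A, (#(T.filter fun d => p ∣ d r.1 ∧ p ∣ d r.2) : ℝ) := by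
    exact_mod_cast (card_le_card h1).trans card_biUnion_le
  refine h3.trans ((sum_le_card_nsmul _ _ _ h2).trans (le_of_eq ?_))
  rw [mlt_mul _ hp.ne_zero hv', mlt_prime _ hp, nsmul_eq_mul, hA, card_product]
  push_cast
  rfl

theorem free_energy (σ : ι → Bool) (l : ι → ℕ) {z : ℕ → ℝ} {M : ℝ} (hz : ∀ p, 0 ≤ z p)
    (h1 : ∀ p, p.Prime → p ≤ X →
      z p * (cnt σ l true (lev p) * cnt σ l false (lev p)) ≤ 3 / 4 * p)
    (hM : ∀ p, z p * (cnt σ l true (lev p) * cnt σ l false (lev p)) ≤ M)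
    (T : Finset (ι → ℕ)) (hT : ∀ d ∈ T, Adm s X σ l ∅ d) :
    ∑ d ∈ T, mlt z (side σ true d) / side σ true d ≤ Real.exp (∑ p ∈ X.primesLE,
      z p * (cnt σ l true (lev p) * cnt σ l false (lev p)) / p + 4 * M ^ 2) := by
  refine le_trans ?_ (euler_le X (fun p => mul_nonneg (hz p) (by positivity)) h1 hM
    (T.image (side σ true)) fun v hv => ?_)
  · refine sum_le_sum_fiber T _ _ _ fun v _ => ?_
    rw [sum_congr rfl (g := fun _ => mlt z v / v) fun d hd => by rw [(mem_filter.1 hd).2],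
      sum_const, nsmul_eq_mul, mlt_mul_fun, ← mul_div_assoc, mul_comm]
    refine div_le_div_of_nonneg_right (mul_le_mul_of_nonneg_left
      (free_card (s := s) (X := X) σ l v _ fun d hd => ?_) (mlt_nonneg hz v)) (Nat.cast_nonneg v)
    exact ⟨hT d (mem_filter.1 hd).1, (mem_filter.1 hd).2⟩
  · obtain ⟨d, hd, rfl⟩ := mem_image.1 hv
    refine ⟨(hT d hd).side_ne true, fun p hp h => ?_⟩
    obtain ⟨i, -, hi⟩ := exists_of_dvd_side hp h
    exact ((hT d hd).lv i p hp hi).1

theorem Good.energy (h : Good s X) (σ : ι → Bool) (l : ι → ℕ) {z : ℕ → ℝ} {F : ℝ}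
    (hz : ∀ p, 0 ≤ z p ∧ z p ≤ 1)
    (hF : ∀ T : Finset (ι → ℕ), (∀ d ∈ T, Adm s X σ l ∅ d) →
      ∑ d ∈ T, mlt z (side σ true d) / side σ true d ≤ F)
    (S : Finset ι) : (∀ i ∈ S, W s ≤ l i) → ∀ T : Finset (ι → ℕ), (∀ d ∈ T, Adm s X σ l S d) →
      ∑ d ∈ T, mlt z (side σ true d) / side σ true d ≤
        F * ∏ i ∈ S, (Fintype.card ι * Real.exp (-(l i : ℝ) + 10 * (s : ℝ) ^ 30)) := by
  induction S using Finset.strongInduction with
  | H S ih =>
  intro hS T hT
  rcases S.eq_empty_or_nonempty with rfl | hne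
  · simpa using hF T hT
  have hF0 : 0 ≤ F := by simpa using hF ∅ (by simp)
  obtain ⟨i, hi, hmax⟩ := exists_max_image S l hne
  have hw0 : ∀ d : ι → ℕ, 0 ≤ mlt z (side σ true d) / side σ true d := fun d =>
    div_nonneg (mlt_nonneg (fun p => (hz p).1) _) (Nat.cast_nonneg _)
  have hch : ∀ d ∈ T, ∃ r : ι × ℕ, r.2.Prime ∧ r.2 ∣ d i ∧ l i ≤ lev r.2 + 3 * D s ∧
      σ r.1 ≠ σ i ∧ r.2 ∣ d r.1 := fun d hd => by
    obtain ⟨β, h1, h2, h3⟩ := ((hT d hd).cond i hi).2.2
    obtain ⟨j, h4, h5⟩ := exists_of_dvd_side (σ := σ) (d := d) (b := !σ i) h1 (by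
      rw [(hT d hd).side_eq, ← (hT d hd).side_eq (σ i)]; exact h2.trans (dvd_side σ d i))
    exact ⟨(j, β), h1, h2, h3, by rw [h4]; simp, h5⟩
  haveI : Nonempty (ι × ℕ) := ⟨(i, 0)⟩
  choose! r hr using hch
  set c : ι → ℝ := fun k => Fintype.card ι * Real.exp (-(l k : ℝ) + 10 * (s : ℝ) ^ 30) with hc
  have hc0 : ∀ k, 0 ≤ c k := fun k => by positivity
  have hcard : (1 : ℝ) ≤ Fintype.card ι := by
    exact_mod_cast Fintype.card_pos_iff.2 ⟨i⟩
  rw [← sum_fiberwise T (fun d => (r d).1), ← mul_prod_erase S c hi]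
  have key : ∀ j, ∑ d ∈ T with (r d).1 = j, mlt z (side σ true d) / side σ true d ≤
      Real.exp (-(l i : ℝ) + 10 * (s : ℝ) ^ 30) * (F * ∏ k ∈ S.erase i, c k) := fun j => by
    set A : (ι → ℕ) → Finset ℕ := fun e => if j ∈ S then {e i, e j} else {e i} with hA
    set m : ℝ := if j ∈ S then 2 else 1 with hm
    have hrj : ∀ d ∈ T.filter fun d => (r d).1 = j, d ∈ T ∧ (r d).2 ∣ d i ∧ (r d).2 ∣ d j ∧
        σ j ≠ σ i := fun d hd => by
      rw [mem_filter] at hd
      exact ⟨hd.1, (hr d hd.1).2.1, hd.2 ▸ (hr d hd.1).2.2.2.2, hd.2 ▸ (hr d hd.1).2.2.2.1⟩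
    have h1 := fiber_le (T.filter fun d => (r d).1 = j) (fun d => red i j (r d).2 d)
      (fun d => (r d).2) (fun d hd d' hd' e1 e2 => by
        funext k
        rw [red_mul (hrj d hd).2.1 (hrj d hd).2.2.1 k, red_mul (hrj d' hd').2.1
          (hrj d' hd').2.2.1 k, e1, e2])
      (fun d => mlt z (side σ true d) / side σ true d)
      (fun d => mlt z (side σ true d) / side σ true d) (fun β => 1 / (β : ℝ))
      (fun d => Real.exp (-(m * l i) + 10 * (s : ℝ) ^ 30) *
        (mlt z (side σ true d) / side σ true d))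
      (fun d hd => by
        obtain ⟨h1, h2, h3, h4⟩ := hrj d hd
        have hp := (hr d h1).1
        have h5 := (hT d h1).side_ne true
        rw [side_red h4 h2 h3] at h5 ⊢
        rw [mlt_mul _ hp.ne_zero (right_ne_zero_of_mul h5), mlt_prime _ hp, Nat.cast_mul,
          mul_div_mul_comm, mul_comm]
        exact mul_le_mul_of_nonneg_left (div_le_div_of_nonneg_right (hz _).2 (Nat.cast_nonneg _))
          (hw0 _))
      fun e he V hV => by
        rw [mul_comm]
        refine mul_le_mul_of_nonneg_right ?_ (hw0 e)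
        have hV' : ∀ β ∈ V, ∃ d ∈ T, β.Prime ∧ l i ≤ lev β + 3 * D s ∧ d i = e i * β ∧
            d j = e j * β := fun β hβ => by
          obtain ⟨d, hd, e1, e2⟩ := hV β hβ
          obtain ⟨h1, h2, h3, h4⟩ := hrj d hd
          refine ⟨d, h1, e2 ▸ (hr d h1).1, e2 ▸ (hr d h1).2.2.1, ?_, ?_⟩
          · rw [red_mul h2 h3 i, if_pos (Or.inl rfl), e1, e2, mul_comm]
          · rw [red_mul h2 h3 j, if_pos (Or.inr rfl), e1, e2, mul_comm]
        obtain ⟨d0, hd0, e0⟩ := mem_image.1 he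
        obtain ⟨g1, g2, g3, g4⟩ := hrj d0 hd0
        have gi : d0 i = (r d0).2 * e i := by rw [red_mul g2 g3 i, if_pos (Or.inl rfl), e0]
        have gj : d0 j = (r d0).2 * e j := by rw [red_mul g2 g3 j, if_pos (Or.inr rfl), e0]
        have gb : ∀ k ∈ S, d0 k = (r d0).2 * e k → e k ≠ 0 ∧ e k ≤ 2 * X := fun k hk hk' => by
          have h1 := (hT d0 g1).pos k
          have h2 := ((hT d0 g1).cond k hk).1
          have h3 := Nat.le_mul_of_pos_left (e k) (hr d0 g1).1.pos
          rw [hk'] at h1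
          exact ⟨right_ne_zero_of_mul h1, by omega⟩
        have hAc : (#(A e) : ℝ) = m := by
          simp only [hA, hm]
          split_ifs with hj
          · rw [card_pair]; · norm_num
            intro h1
            exact (hT d0 g1).ne i hi j hj g4.symm (by rw [gi, gj, h1])
          · simp
        have hAc' : #(A e) ≤ 2 := by
          simp only [hA]
          split_ifs
          exacts [card_le_two, by simp]
        rw [← hAc]
        refine h.sieve_mass (A e) hAc' (fun α hα => ?_) (hS i hi) V fun β hβ => ?_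
        · simp only [hA] at hα
          split_ifs at hα with hj
          · rcases mem_insert.1 hα with rfl | hα
            · exact gb i hi gi
            · rw [mem_singleton.1 hα]; exact gb j hj gj
          · rw [mem_singleton.1 hα]; exact gb i hi gi
        · obtain ⟨d, hd, h1, h2, h3, h4⟩ := hV' β hβ
          have h5 := (hT d hd).lv i β h1 (h3 ▸ dvd_mul_left _ _)
          refine ⟨h5.1, h1, h5.2, h2, fun α hα => ?_⟩
          simp only [hA] at hα
          split_ifs at hα with hj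
          · rcases mem_insert.1 hα with rfl | hα
            · rw [← h3]; exact ((hT d hd).cond i hi).2.1
            · rw [mem_singleton.1 hα, ← h4]; exact ((hT d hd).cond j hj).2.1
          · rw [mem_singleton.1 hα, ← h3]; exact ((hT d hd).cond i hi).2.1
    refine h1.trans ?_
    rw [← mul_sum]
    have hsub : (S.erase i).erase j ⊂ S := (erase_subset _ _).trans_ssubset (erase_ssubset hi)
    have h2 := ih _ hsub (fun k hk => hS k (hsub.subset hk))
      ((T.filter fun d => (r d).1 = j).image fun d => red i j (r d).2 d) fun e he => by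
        obtain ⟨d, hd, rfl⟩ := mem_image.1 he
        obtain ⟨h1, h2, h3, h4⟩ := hrj d hd
        refine (hT d h1).red h4 (hr d h1).1.ne_zero h2 h3 fun k hk => ?_
        simp only [mem_erase] at hk
        exact ⟨hk.2.2, hk.2.1, hk.1⟩
    refine (mul_le_mul_of_nonneg_left h2 (Real.exp_pos _).le).trans ?_
    have hP : 0 ≤ F * ∏ k ∈ (S.erase i).erase j, c k :=
      mul_nonneg hF0 (prod_nonneg fun k _ => hc0 k)
    by_cases hj : j ∈ S.erase i
    · rw [← mul_prod_erase (S.erase i) c hj, mul_left_comm F (c j), ← mul_assoc _ (c j)]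
      refine mul_le_mul_of_nonneg_right ?_ hP
      have hjS := mem_of_mem_erase hj
      have h3 : (l j : ℝ) ≤ l i := by exact_mod_cast hmax j hjS
      simp only [hc, hm, if_pos hjS]
      rw [mul_left_comm, ← Real.exp_add]
      refine le_trans (Real.exp_le_exp.2 ?_) (le_mul_of_one_le_left (Real.exp_pos _).le hcard)
      have h4 : (0 : ℝ) ≤ (s : ℝ) ^ 30 := by positivity
      linarith only [h3, h4]
    · rw [erase_eq_of_notMem hj] at hP ⊢
      refine mul_le_mul_of_nonneg_right (Real.exp_le_exp.2 ?_) hP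
      have : 1 ≤ m := by simp only [hm]; split_ifs <;> norm_num
      nlinarith [(Nat.cast_nonneg (l i) : (0 : ℝ) ≤ _)]
  refine (sum_le_card_nsmul _ _ _ fun j _ => key j).trans (le_of_eq ?_)
  rw [nsmul_eq_mul, card_univ]
  simp only [hc]
  ring

end Vale.Agent.P031
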