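import Vale.Agent.P031.Normal

/-! The entropy function, enumerations of finite sets, and overcrowded shapes. -/

open Finset

namespace Vale.Agent.P031

variable {s X : ℕ}

theorem bb_zero : bb 0 = 0 := by simp [bb]

theorem bb_one : bb 1 = -1 := by simp [bb]

theorem bb_convex {x : ℕ} (hx : 1 ≤ x) (y : ℕ) : bb x + Real.log x * (y - x) ≤ bb y := by
  have hx' : (0 : ℝ) < x := by exact_mod_cast hx
  rcases eq_or_ne y 0 with rfl | hy
  · simp only [bb, Nat.cast_zero]; nlinarith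
  have hy' : (0 : ℝ) < y := by exact_mod_cast Nat.pos_of_ne_zero hy
  have h := Real.log_le_sub_one_of_pos (div_pos hx' hy')
  rw [Real.log_div hx'.ne' hy'.ne'] at h
  have h2 := mul_le_mul_of_nonneg_left h hy'.le
  rw [mul_sub (y : ℝ) (x / y), mul_div_cancel₀ _ hy'.ne'] at h2
  unfold bb
  nlinarith

theorem log_le_aa {g : ℕ} (hg : 1 ≤ g) : Real.log g ≤ aa g := by
  have := bb_convex hg (g + 1)
  push_cast at this
  unfold aa; linarith

theorem aa_le_log (g : ℕ) : aa g ≤ Real.log (g + 1) := by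
  have := bb_convex (Nat.le_add_left 1 g) g
  push_cast at this
  unfold aa; linarith

theorem aa_zero : aa 0 = -1 := by simp [aa, bb]

theorem aa_mono : Monotone aa := monotone_nat_of_le_succ fun g =>
  (aa_le_log g).trans (by exact_mod_cast log_le_aa (Nat.le_add_left 1 g))

theorem aa_one : 3 / 8 ≤ aa 1 := by
  simp only [aa, bb]
  norm_num
  linarith [Real.log_two_gt_d9]

theorem aa_ge {g : ℕ} (hg : 1 ≤ g) : 1 / 3 ≤ aa g := by
  linarith [aa_one, aa_mono hg]

theorem aa_two : 2 / 3 ≤ aa 2 := by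
  have := log_le_aa (g := 2) (by norm_num)
  push_cast at this
  linarith [Real.log_two_gt_d9]

theorem aa_le_two {g : ℕ} (hg : g ≤ 4) : aa g ≤ 2 := by
  refine (aa_mono hg).trans ((aa_le_log 4).trans ?_)
  rw [Real.log_le_iff_le_exp (by norm_num), show (2 : ℝ) = 1 + 1 by norm_num, Real.exp_add]
  push_cast
  nlinarith [Real.exp_one_gt_d9]

theorem bb_add (g I : ℕ) : bb (g + I) - bb g = ∑ i ∈ range I, aa (g + i) := by
  induction I with
  | zero => simp
  | succ I ih => rw [sum_range_succ, ← ih, aa, add_assoc]; ring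

theorem bb_mono {x y : ℕ} (hx : 1 ≤ x) (hxy : x ≤ y) : bb x ≤ bb y := by
  have h1 := bb_convex hx y
  have h2 : (0 : ℝ) ≤ Real.log x := Real.log_natCast_nonneg x
  have h3 : (x : ℝ) ≤ y := by exact_mod_cast hxy
  nlinarith

theorem log_max_mul (N : ℕ) : Real.log (max N 1 : ℕ) * N = bb N + N := by
  rcases Nat.eq_zero_or_pos N with rfl | h
  · simp [bb]
  · rw [max_eq_left h, bb]; ring

theorem log_max_anti {N : ℕ → ℕ} (hN : Antitone N) :
    Antitone fun w => Real.log (max (N w) 1 : ℕ) := fun v w h =>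
  Real.log_le_log (by exact_mod_cast lt_max_of_lt_right one_pos)
    (by exact_mod_cast max_le_max (hN h) le_rfl)

theorem log_le_s (hs : 10 ^ 12 ≤ s) {x : ℝ} (h0 : 0 < x) (hx : x ≤ (s : ℝ) ^ 60) :
    Real.log x ≤ s := (Real.log_le_iff_le_exp h0).2 (le_exp_of_le hs hx)

theorem log_max_le (hs : 10 ^ 12 ≤ s) {N : ℕ} (hN : N ≤ s + 10) :
    Real.log (max N 1 : ℕ) ≤ s := by
  refine log_le_s hs (by exact_mod_cast lt_max_of_lt_right one_pos) ?_
  have : ((max N 1 : ℕ) : ℝ) ≤ (s + 10 : ℕ) := by exact_mod_cast max_le hN (by omega)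
  push_cast at this ⊢
  linarith [pw1 hs 60 (by norm_num), sge hs]

/-- Enumeration of a finite set, padded with the prime `2`. -/
noncomputable def en (k : ℕ) (Q : Finset ℕ) (i : Fin k) : ℕ := Q.toList.getD i 2

theorem prod_getD {M : Type*} [CommMonoid M] {f : ℕ → M} (hf : f 2 = 1) (l : List ℕ) :
    ∀ k, l.length ≤ k → ∏ i : Fin k, f (l.getD i 2) = (l.map f).prod := by
  induction l with
  | nil => intro k _; simp [hf]
  | cons a l ih =>
    intro k hk
    obtain ⟨k, rfl⟩ : ∃ j, k = j + 1 := ⟨k - 1, by simp at hk; omega⟩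
    rw [Fin.prod_univ_succ, List.map_cons, List.prod_cons, ← ih k (by simpa using hk)]
    rfl

theorem en_prod {M : Type*} [CommMonoid M] {f : ℕ → M} (hf : f 2 = 1) {k : ℕ} {Q : Finset ℕ}
    (hQ : #Q ≤ k) : ∏ i, f (en k Q i) = ∏ q ∈ Q, f q := by
  unfold en
  rw [prod_getD hf _ k (by simpa using hQ), prod_map_toList]

theorem en_sum {M : Type*} [AddCommMonoid M] {f : ℕ → M} (hf : f 2 = 0) {k : ℕ} {Q : Finset ℕ}
    (hQ : #Q ≤ k) : ∑ i, f (en k Q i) = ∑ q ∈ Q, f q :=
  en_prod (M := Multiplicative M) (f := f) hf hQ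

theorem en_mem (k : ℕ) (Q : Finset ℕ) (i : Fin k) : en k Q i ∈ Q ∨ en k Q i = 2 := by
  unfold en
  by_cases h : (i : ℕ) < Q.toList.length
  · rw [List.getD_eq_getElem _ _ h]
    exact Or.inl (mem_toList.1 (List.getElem_mem h))
  · exact Or.inr (List.getD_eq_default _ _ (not_lt.1 h))

theorem exists_en {k : ℕ} {Q : Finset ℕ} (hQ : #Q ≤ k) {q : ℕ} (hq : q ∈ Q) :
    ∃ i, en k Q i = q := by
  obtain ⟨n, hn, h⟩ := List.mem_iff_getElem.1 (mem_toList.2 hq)
  refine ⟨⟨n, hn.trans_le (by simpa using hQ)⟩, ?_⟩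
  unfold en
  rw [List.getD_eq_getElem _ _ hn, h]

theorem card_en {k : ℕ} {Q : Finset ℕ} (hQ : #Q ≤ k) {w : ℕ} (hw : 0 < w) :
    #(univ.filter fun i => w ≤ lev (en k Q i)) = II Q w := by
  rw [II, card_filter, card_filter]
  exact en_sum (f := fun q => if w ≤ lev q then 1 else 0) (by rw [lev_two, if_neg (by omega)]) hQ

theorem lev_en_le {k : ℕ} {Q : Finset ℕ} (hQ : Q ⊆ NP s X) (i : Fin k) :
    lev (en k Q i) ≤ lev X := by
  rcases en_mem k Q i with h | h
  · exact lev_mono (mem_NP.1 (hQ h)).1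
  · rw [h, lev_two]; exact Nat.zero_le _

theorem II_anti (Q : Finset ℕ) : Antitone (II Q) := fun _ _ h =>
  card_le_card fun _ hq => mem_filter.2 ⟨(mem_filter.1 hq).1, h.trans (mem_filter.1 hq).2⟩

theorem II_le (Q : Finset ℕ) (w : ℕ) : II Q w ≤ #Q := card_filter_le _ _

theorem II_pos {Q : Finset ℕ} {w : ℕ} (hw : 0 < w) : 0 < II Q w ↔ w ≤ Q.sup lev := by
  rw [II, card_pos, filter_nonempty_iff, Finset.le_sup_iff hw]

theorem Good.sub_mass (h : Good s X) :
    ∑ C ∈ (NP s X).powerset with #C ≤ s + 4, ∏ q ∈ C, 1 / ((q - 1 : ℕ) : ℝ) ≤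
      Real.exp (2 * (s : ℝ) ^ 2) := by
  have hs := h.s_ge
  have p0 := sge hs
  have h1 : ∑ q ∈ NP s X, 1 / ((q - 1 : ℕ) : ℝ) ≤ Real.exp s := by
    refine le_exp_of_le hs ?_
    calc _ ≤ ∑ q ∈ NP s X, 2 * (1 / (q : ℝ)) :=
          sum_le_sum fun q hq => inv_pred_le (mem_NP.1 hq).2.1.two_le
      _ ≤ 2 * L X := by
          rw [← mul_sum]
          refine mul_le_mul_of_nonneg_left (sum_le_sum_of_subset_of_nonneg (fun q hq => ?_)
            fun _ _ _ => by positivity) (by norm_num)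
          exact Nat.mem_primesLE.2 ⟨(mem_NP.1 hq).1, (mem_NP.1 hq).2.1⟩
      _ ≤ _ := by
          linarith [h.L_le (t := X) (by omega), pw hs 55 60 (by norm_num),
            (by positivity : (0 : ℝ) ≤ (s : ℝ) ^ 55)]
  refine (submass _ (fun _ _ => by positivity) (Real.one_le_exp (by linarith)) h1 _).trans ?_
  rw [← Real.exp_nat_mul]
  calc _ ≤ Real.exp 2 * Real.exp (((s + 4 : ℕ) : ℝ) * s) :=
        mul_le_mul_of_nonneg_right (by linarith [Real.add_one_le_exp 2]) (Real.exp_pos _).le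
    _ ≤ _ := by
        rw [← Real.exp_add]
        push_cast
        exact Real.exp_le_exp.2 (by nlinarith)

/-- Summing over all shapes. -/
theorem Good.sum_shapes (h : Good s X) {A ι : Type} [Fintype ι] [DecidableEq ι]
    (hι : Fintype.card ι ≤ 3 * s) (T : Finset A) (f : A → ι → ℕ) (hf : ∀ a ∈ T, ∀ i, f a i ≤ lev X)
    (w : A → ℝ) {B : ℝ} (hB : 0 ≤ B)
    (hw : ∀ a0 ∈ T, ∑ a ∈ T with f a = f a0, w a ≤ B) :
    ∑ a ∈ T, w a ≤ Real.exp (3 * (s : ℝ) ^ 2) * B := by
  have hs := h.s_ge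
  refine (sum_le_sum_fiber T f w (fun _ => B) fun b hb => ?_).trans ?_
  · obtain ⟨a0, ha0, rfl⟩ := mem_image.1 hb
    exact hw a0 ha0
  rw [sum_const, nsmul_eq_mul]
  refine mul_le_mul_of_nonneg_right ?_ hB
  have h1 : T.image f ⊆ Fintype.piFinset fun _ => range (lev X + 1) := fun b hb => by
    obtain ⟨a0, ha0, rfl⟩ := mem_image.1 hb
    exact Fintype.mem_piFinset.2 fun i => mem_range.2 (Nat.lt_succ_of_le (hf a0 ha0 i))
  have h2 := card_le_card h1
  rw [Fintype.card_piFinset, prod_const, card_range, card_univ] at h2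
  have h3 : ((lev X + 1 : ℕ) : ℝ) ≤ Real.exp s := le_exp_of_le hs (by
    push_cast
    linarith [h.lev_le (t := X) (by omega), pw hs 55 60 (by norm_num), pw hs 0 55 (by norm_num)])
  calc (#(T.image f) : ℝ) ≤ ((lev X + 1 : ℕ) : ℝ) ^ Fintype.card ι := by exact_mod_cast h2
    _ ≤ Real.exp s ^ (3 * s) := (pow_le_pow_left₀ (by positivity) h3 _).trans
        (pow_le_pow_right₀ (Real.one_le_exp (by positivity)) hι)
    _ = _ := by rw [← Real.exp_nat_mul]; congr 1; push_cast; ring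

theorem Good.mass_II (h : Good s X) {l : ℕ} (hl : l ≤ lev X) :
    ∑ p ∈ X.primesLE with (W s < lev p ∧ lev p ≤ l), 1 / (p : ℝ) ≤
      ∑ w ∈ Ioc (W s) (lev X), (if w ≤ l then (1 : ℝ) else 0) + 1 := by
  rcases le_total (W s) l with h1 | h1
  · rw [mass_between X h1, ← sum_filter, sum_const, nsmul_eq_mul, mul_one]
    have : (Ioc (W s) (lev X)).filter (· ≤ l) = Ioc (W s) l := by
      ext i; simp only [mem_filter, mem_Ioc]; omega
    rw [this, Nat.card_Ioc, Nat.cast_sub h1]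
    linarith [mass_le X l, le_mass h.W_le]
  · rw [filter_false_of_mem fun p _ => by omega, sum_empty]
    exact add_nonneg (sum_nonneg fun _ _ => by split_ifs <;> norm_num) zero_le_one

theorem big_of_lev (hs : 10 ^ 12 ≤ s) {p : ℕ} (hp : W s < lev p) :
    Real.exp ((s : ℝ) ^ 59) ≤ p := by
  have h1 : (s : ℝ) ^ 31 ≤ lev p := by rw [← cast_W]; exact_mod_cast hp.le
  exact big_of_L hs (by linarith [lev_le_L p, pw1 hs 31 (by norm_num), sge hs])

/-- Overcrowded shapes carry little mass. -/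
theorem Good.overcrowded (h : Good s X) (S : Finset ℕ)
    (hS : ∀ k ∈ S, k ≠ 0 ∧ ∃ Q ⊆ NP s X, #Q ≤ s + 4 ∧ (s : ℝ) ^ 34 ≤ gam s X Q 0 ∧
      (∀ p, p.Prime → p ∣ k → p ≤ X ∧ lev p ≤ Q.sup lev) ∧
      ∃ β, (β = 1 ∨ β.Prime) ∧ ∏ q ∈ Q, (q - 1) ∣ k * β) :
    mu S ≤ Real.exp (-(s : ℝ) ^ 34 / 2) := by
  have hs := h.s_ge
  have p0 := sge hs
  have p1 := pw hs 2 31 (by norm_num)
  have p2 := pw hs 31 32 (by norm_num)
  have p3 := pw hs 32 34 (by norm_num)
  have p4 := pw1 hs 2 (by norm_num)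
  choose! h0 Q hQ1 hQ2 hQ3 hQ4 β hβ hQ5 using hS
  refine (h.sum_shapes (ι := Fin (s + 4)) (by rw [Fintype.card_fin]; omega) S
    (fun k i => lev (en _ (Q k) i)) (fun k hk i => lev_en_le (hQ1 k hk) i) _
    (Real.exp_pos (-(3 / 4) * (s : ℝ) ^ 34)).le fun k0 hk0 => ?_).trans ?_
  swap
  · rw [← Real.exp_add]; exact Real.exp_le_exp.2 (by linarith)
  set N := II (Q k0) with hN
  have hNle : ∀ w, N w ≤ s + 4 := fun w => (II_le _ _).trans (hQ2 k0 hk0)
  set hh : ℕ → ℝ := fun w => Real.log (max (N w) 1 : ℕ) with hhh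
  have hh0 : ∀ w, 0 ≤ hh w := fun w => Real.log_natCast_nonneg _
  have hh1 : ∀ w, hh w ≤ s := fun w => log_max_le hs ((hNle w).trans (by omega))
  have hhat : ∀ p, 0 ≤ hat s X hh p ∧ hat s X hh p ≤ s := fun p => by
    unfold hat; split_ifs
    exacts [⟨hh0 _, hh1 _⟩, ⟨le_rfl, by positivity⟩]
  set g : ℕ → ℝ := fun p => if lev p ≤ W s then 1 else N (lev p) with hg
  have hgM : ∀ p, g p ≤ s + 4 := fun p => by
    simp only [hg]; split_ifs
    · linarith
    · exact_mod_cast hNle _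
  set T := S.filter fun k => (fun i => lev (en (s + 4) (Q k) i)) = fun i => lev (en _ (Q k0) i)
  have hI : ∀ k ∈ T, ∀ w, 0 < w → II (Q k) w = N w := fun k hk w hw => by
    rw [mem_filter] at hk
    rw [hN, ← card_en (hQ2 k hk.1) hw, ← card_en (hQ2 k0 hk0) hw]
    congr 1
    exact filter_congr fun i _ => by rw [congrFun hk.2 i]
  have h1 := euler_le X (g := g) (M := s + 4)
    (fun p => by simp only [hg]; split_ifs <;> positivity) (fun p hp _ => by
      have : (2 : ℝ) ≤ p := by exact_mod_cast hp.two_le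
      by_cases hl : lev p ≤ W s
      · simp only [hg, if_pos hl]; linarith
      · linarith [hgM p, big_of_lev hs (not_le.1 hl), Real.add_one_le_exp ((s : ℝ) ^ 59),
          pw1 hs 59 (by norm_num)]) hgM T fun k hk =>
      ⟨h0 k (mem_filter.1 hk).1, fun p hp hd => (hQ4 k (mem_filter.1 hk).1 p hp hd).1⟩
  set A := ∑ w ∈ Ioc (W s) (lev X), (N w : ℝ) with hA
  have h2 : ∑ p ∈ X.primesLE, g p / p ≤ (W s + 1) + (A + (s + 4)) := by
    have e : ∑ p ∈ X.primesLE, g p / p = mass X (W s) + ∑ q ∈ Q k0,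
        ∑ p ∈ X.primesLE with (W s < lev p ∧ lev p ≤ lev q), 1 / (p : ℝ) := by
      simp only [mass, sum_filter]
      rw [sum_comm, ← sum_add_distrib]
      refine sum_congr rfl fun p _ => ?_
      by_cases hl : lev p ≤ W s
      · simp [hg, hl, not_lt.2 hl]
      · simp only [hg, if_neg hl, not_le.1 hl, true_and, zero_add, hN, II, card_filter]
        push_cast
        rw [sum_div]
        exact sum_congr rfl fun q _ => by split_ifs <;> simp
    rw [e]
    refine add_le_add (mass_le _ _) ((sum_le_sum fun q hq =>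
      h.mass_II (lev_mono (mem_NP.1 (hQ1 k0 hk0 hq)).1)).trans ?_)
    rw [sum_add_distrib, sum_comm, sum_const, nsmul_eq_mul, mul_one]
    refine add_le_add (le_of_eq (sum_congr rfl fun w _ => ?_)) (by exact_mod_cast hQ2 k0 hk0)
    simp [hN, II]
  have h3 : Real.exp ((s : ℝ) ^ 34 + A - 4 * (s : ℝ) ^ 32) * ∑ k ∈ T, 1 / (k : ℝ) ≤
      ∑ k ∈ T, mlt g k / k := by
    rw [mul_sum]
    refine sum_le_sum fun k hk => ?_
    have hkS := (mem_filter.1 hk).1
    rw [mul_one_div]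
    refine div_le_div_of_nonneg_right ?_ (Nat.cast_nonneg k)
    rw [mlt_congr (g := fun p => Real.exp (hat s X hh p)) fun p hp hd => by
      obtain ⟨h4, h5⟩ := hQ4 k hkS p hp hd
      by_cases hl : lev p ≤ W s
      · simp [hg, hat, hl, not_lt.2 hl]
      · have h6 : 0 < N (lev p) := by
          rw [← hI k hk _ (by omega)]; exact (II_pos (by omega)).2 h5
        simp only [hg, hat, if_neg hl, not_le.1 hl, lev_mono h4, and_self, if_true, hhh]
        rw [max_eq_left h6, Real.exp_log (by exact_mod_cast h6)], mlt_exp]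
    refine Real.exp_le_exp.2 ?_
    have hβ0 : β k ≠ 0 := by
      rcases hβ k hkS with h' | h'
      exacts [by rw [h']; norm_num, h'.ne_zero]
    have h4 := ad_le_of_dvd (fun p => (hhat p).1) (hQ5 k hkS) (mul_ne_zero (h0 k hkS) hβ0)
    rw [ad_mul _ (h0 k hkS) hβ0] at h4
    have h5 : ad (hat s X hh) (β k) ≤ s := by
      rcases hβ k hkS with h' | h'
      · rw [h', ad_one]; positivity
      · rw [ad_prime _ h']; exact (hhat _).2
    have h6 := (abs_le.1 (core (hQ1 k hkS) (log_max_anti (II_anti (Q k0))) hh1 hh0)).1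
    have h7 : ∑ w ∈ Ioc (W s) (lev X), hh w * II (Q k) w = gam s X (Q k) 0 + A := by
      rw [gam, hA, ← sum_add_distrib]
      refine sum_congr rfl fun w hw => ?_
      rw [hI k hk w (by have := (mem_Ioc.1 hw).1; omega), zero_add, bb_zero, sub_zero]
      exact log_max_mul _
    have h8 : (#(Q k) : ℝ) ≤ s + 4 := by exact_mod_cast hQ2 k hkS
    have h9 : (#(Q k) : ℝ) * (s * (2 * (s : ℝ) ^ 30)) ≤ 3 * (s : ℝ) ^ 32 := by
      calc _ ≤ (s + 4) * (s * (2 * (s : ℝ) ^ 30)) := mul_le_mul_of_nonneg_right h8 (by positivity)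
        _ = 2 * (s : ℝ) ^ 32 + 8 * (s : ℝ) ^ 31 := by ring
        _ ≤ _ := by linarith
    linarith [hQ3 k hkS]
  have h4 := h3.trans h1
  rw [← le_div_iff₀' (Real.exp_pos _), ← Real.exp_sub] at h4
  refine h4.trans (Real.exp_le_exp.2 ?_)
  rw [cast_W] at h2
  nlinarith

end Vale.Agent.P031
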