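import Vale.Agent.P031.Ent
import Vale.Agent.P031.Energy

/-! Collisions between representations. -/

open Finset

namespace Vale.Agent.P031

variable {s X : ℕ}

theorem mem_Tail {τ : ℕ} : τ ∈ Tail s X ↔ τ ≤ X ∧ ∃ n, 1 ≤ n ∧ n.totient = τ ∧
    (∀ p, p.Prime → p ∣ n → lev p ≤ W s) ∧ Om τ ≤ (s : ℝ) ^ 32 := by
  simp [Tail, Nat.lt_succ_iff]

theorem prime_dvd_totient {n p : ℕ} (hp : p.Prime) (hn : 1 ≤ n) (h : p ∣ n.totient) :
    ∃ q, q.Prime ∧ q ∣ n ∧ p ≤ q := by
  rw [Nat.totient_eq_prod_factorization (by omega), Finsupp.prod] at h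
  obtain ⟨q, hq, h⟩ := (Prime.dvd_finset_prod_iff hp.prime _).1 h
  have hq' := Nat.prime_of_mem_primeFactors hq
  refine ⟨q, hq', Nat.dvd_of_mem_primeFactors hq, ?_⟩
  rcases (Nat.Prime.dvd_mul hp).1 h with h | h
  · exact Nat.le_of_dvd hq'.pos (hp.dvd_of_dvd_pow h)
  · have := hq'.two_le
    exact (Nat.le_of_dvd (by omega) h).trans (Nat.sub_le _ _)

theorem tail_facts {τ : ℕ} (h : τ ∈ Tail s X) : τ ≠ 0 ∧ τ ≤ X ∧
    (∀ p, p.Prime → p ∣ τ → lev p ≤ W s) ∧ Om τ ≤ (s : ℝ) ^ 32 := by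
  obtain ⟨h1, n, hn, rfl, h2, h3⟩ := mem_Tail.1 h
  refine ⟨(Nat.totient_pos.2 hn).ne', h1, fun p hp hd => ?_, h3⟩
  obtain ⟨q, hq, hqn, hpq⟩ := prime_dvd_totient hp hn hd
  exact (lev_mono hpq).trans (h2 q hq hqn)

theorem prod_pred_ne {Q : Finset ℕ} (hQ : Q ⊆ NP s X) : ∏ q ∈ Q, (q - 1) ≠ 0 :=
  prod_ne_zero_iff.2 fun q hq => by
    have := (mem_NP.1 (hQ hq)).2.1.two_le
    omega

/-- One half of a collision: a set of primes, a free factor and a tail. -/
abbrev Hf : Type := Finset ℕ × ℕ × ℕ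

/-- The value of a half. -/
def hv (r : Hf) : ℕ := r.2.1 * val r.1 r.2.2

/-- Admissible halves. -/
structure Half (s X ν : ℕ) (r : Hf) : Prop where
  sub : r.1 ⊆ NP s X
  card : #r.1 ≤ s + 4
  tail : r.2.2 ∈ Tail s X
  free : ν = 0 ∧ r.2.1 = 1 ∨ ν = 1 ∧ ∃ p ∈ NP s X, r.2.1 ∣ p - 1

/-- The slots of a half. -/
noncomputable def fill (s : ℕ) (r : Hf) : Fin (s + 4) ⊕ Bool → ℕ :=
  Sum.elim (fun i => en _ r.1 i - 1) fun b => if b then r.2.1 else r.2.2

/-- The levels of the slots of a half. -/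
noncomputable def hlev (s X ν : ℕ) (r : Hf) : Fin (s + 4) ⊕ Bool → ℕ :=
  Sum.elim (fun i => lev (en _ r.1 i)) fun b => if b then ν * lev X else W s

variable {ν : ℕ} {r : Hf}

theorem Half.nu_le (h : Half s X ν r) : ν ≤ 1 := by
  rcases h.free with h | h <;> omega

theorem Half.free_ne (h : Half s X ν r) : r.2.1 ≠ 0 := by
  rcases h.free with ⟨-, h⟩ | ⟨-, p, hp, h⟩
  · omega
  · have := (mem_NP.1 hp).2.1.two_le
    exact ne_zero_of_dvd_ne_zero (by omega) h

theorem Half.hv_ne (h : Half s X ν r) : hv r ≠ 0 :=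
  mul_ne_zero h.free_ne (mul_ne_zero (tail_facts h.tail).1 (prod_pred_ne h.sub))

theorem Half.prod_fill (h : Half s X ν r) : ∏ y, fill s r y = hv r := by
  rw [Fintype.prod_sum_type]
  simp only [fill, Sum.elim_inl, Sum.elim_inr]
  rw [en_prod (f := fun q => q - 1) rfl h.card]
  simp [hv, val]
  ring

theorem Half.card_hlev (h : Half s X ν r) {w : ℕ} (hw : w ∈ Ioc (W s) (lev X)) :
    #(univ.filter fun y => w ≤ hlev s X ν r y) = ν + II r.1 w := by
  rw [mem_Ioc] at hw
  rw [← card_en h.card (by omega), card_filter, card_filter, Fintype.sum_sum_type, add_comm]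
  congr 1
  rcases Nat.le_one_iff_eq_zero_or_eq_one.1 h.nu_le with rfl | rfl
  · simp [hlev]; omega
  · rw [Fintype.sum_bool]
    simp [hlev, hw.2, not_le.2 hw.1]

theorem Half.sum_hlev (h : Half s X ν r) :
    ∑ y, (hlev s X ν r y : ℝ) = ∑ q ∈ r.1, (lev q : ℝ) + (ν * lev X + W s) := by
  rw [Fintype.sum_sum_type]
  simp only [hlev, Sum.elim_inl, Sum.elim_inr]
  rw [en_sum (f := fun q => (lev q : ℝ)) (by simp [lev_two]) h.card]
  simp

theorem Half.sum_cond (h : Half s X ν r) :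
    ∑ y, (if y.isLeft ∧ W s < hlev s X ν r y then (hlev s X ν r y : ℝ) else 0) =
      ∑ q ∈ r.1, (lev q : ℝ) := by
  rw [Fintype.sum_sum_type]
  simp only [hlev, Sum.elim_inl, Sum.isLeft_inl, true_and]
  rw [en_sum (f := fun q => if W s < lev q then (lev q : ℝ) else 0) (by simp [lev_two]) h.card]
  simp only [Sum.isLeft_inr, Bool.false_eq_true, false_and, if_false, sum_const_zero, add_zero]
  exact sum_congr rfl fun q hq => if_pos (mem_NP.1 (h.sub hq)).2.2.2

theorem Half.hlev_le (hg : Good s X) (h : Half s X ν r) (y) : hlev s X ν r y ≤ lev X := by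
  rcases y with i | b
  · exact lev_en_le h.sub i
  · have := h.nu_le
    cases b
    · exact hg.W_le
    · simp only [hlev, Sum.elim_inr, if_true]; nlinarith

theorem Half.fill_facts (h : Half s X ν r) (y) : fill s r y ≠ 0 ∧
    ∀ p, p.Prime → p ∣ fill s r y → p ≤ X ∧ lev p ≤ hlev s X ν r y := by
  have key : ∀ q ∈ NP s X, ∀ p, p ∣ q - 1 → p ≤ q := fun q hq p hd => by
    have := (mem_NP.1 hq).2.1.two_le
    exact (Nat.le_of_dvd (by omega) hd).trans (Nat.sub_le _ _)
  rcases y with i | b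
  · simp only [fill, hlev, Sum.elim_inl]
    rcases en_mem _ r.1 i with h1 | h1
    · have := (mem_NP.1 (h.sub h1)).2.1.two_le
      exact ⟨by omega, fun p _ hd => ⟨(key _ (h.sub h1) p hd).trans (mem_NP.1 (h.sub h1)).1,
        lev_mono (key _ (h.sub h1) p hd)⟩⟩
    · rw [h1]
      exact ⟨by norm_num, fun p hp hd => absurd (Nat.dvd_one.1 hd) hp.one_lt.ne'⟩
  · cases b
    · obtain ⟨h1, h2, h3, -⟩ := tail_facts h.tail
      exact ⟨h1, fun p hp hd => ⟨(Nat.le_of_dvd (Nat.pos_of_ne_zero h1) hd).trans h2, h3 p hp hd⟩⟩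
    · refine ⟨h.free_ne, fun p hp hd => ?_⟩
      simp only [fill, hlev, Sum.elim_inr, if_true] at hd ⊢
      rcases h.free with ⟨-, h1⟩ | ⟨rfl, q, hq, h1⟩
      · rw [h1] at hd; exact absurd (Nat.dvd_one.1 hd) hp.one_lt.ne'
      · have := (key q hq p (hd.trans h1)).trans (mem_NP.1 hq).1
        exact ⟨this, by rw [one_mul]; exact lev_mono this⟩

theorem Half.cond_mem (_h : Half s X ν r) {y} (hy : y.isLeft ∧ W s < hlev s X ν r y) :
    ∃ q ∈ r.1, fill s r y = q - 1 ∧ hlev s X ν r y = lev q := by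
  rcases y with i | b
  · rcases en_mem _ r.1 i with h1 | h1
    · exact ⟨_, h1, rfl, rfl⟩
    · have := hy.2
      simp only [hlev, Sum.elim_inl, h1, lev_two] at this
      omega
  · simp at hy

theorem Ow_pred_le {q : ℕ} (hq : q ∈ NP s X) : Ow (W s) (q - 1) ≤ (s : ℝ) ^ 31 + (s : ℝ) ^ 30 := by
  have := (abs_le.1 ((mem_NP.1 hq).2.2.1 _ (mem_NP.1 hq).2.2.2.le)).2
  rw [cast_W] at this
  linarith

theorem Half.Ow_le (hs : 10 ^ 12 ≤ s) (h : Half s X ν r) : Ow (W s) (hv r) ≤ 3 * (s : ℝ) ^ 32 := by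
  have p1 := pw hs 30 31 (by norm_num)
  have p2 := pw hs 31 32 (by norm_num)
  have p3 : (0 : ℝ) ≤ (s : ℝ) ^ 30 := by positivity
  obtain ⟨h1, -, -, h2⟩ := tail_facts h.tail
  have h3 : Ow (W s) r.2.1 ≤ (s : ℝ) ^ 31 + (s : ℝ) ^ 30 := by
    rcases h.free with ⟨-, h3⟩ | ⟨-, q, hq, h3⟩
    · rw [h3, Ow, ad_one]; positivity
    · have := (mem_NP.1 hq).2.1.two_le
      exact (ad_le_of_dvd (fun p => by split_ifs <;> norm_num) h3 (by omega)).trans (Ow_pred_le hq)
  have h4 : Ow (W s) (∏ q ∈ r.1, (q - 1)) ≤ (s + 4) * ((s : ℝ) ^ 31 + (s : ℝ) ^ 30) := by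
    rw [Ow, ad_prod _ _ _ (prod_ne_zero_iff.1 (prod_pred_ne h.sub))]
    refine (sum_le_card_nsmul _ _ _ fun q hq => Ow_pred_le (h.sub hq)).trans ?_
    rw [nsmul_eq_mul]
    exact mul_le_mul_of_nonneg_right (by exact_mod_cast h.card) (by positivity)
  have h5 := Ow_le_Om (W s) r.2.2
  have h6 : (s + 4) * ((s : ℝ) ^ 31 + (s : ℝ) ^ 30) =
      (s : ℝ) ^ 32 + 5 * (s : ℝ) ^ 31 + 4 * (s : ℝ) ^ 30 := by ring
  unfold Ow at *
  rw [hv, val, ad_mul _ h.free_ne (mul_ne_zero h1 (prod_pred_ne h.sub)),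
    ad_mul _ h1 (prod_pred_ne h.sub)]
  linarith

theorem ad_hat_tail {τ : ℕ} (h : τ ∈ Tail s X) (hh : ℕ → ℝ) : ad (hat s X hh) τ = 0 := by
  rw [← ad_zero τ]
  refine ad_congr fun p hp hd => if_neg fun h' => ?_
  exact absurd ((tail_facts h).2.2.1 p hp hd) (not_le.2 h'.1)

theorem Half.hat_le (hs : 10 ^ 12 ≤ s) (h : Half s X ν r) {hh : ℕ → ℝ} (hm : Antitone hh)
    (h1 : ∀ w, hh w ≤ s) (h0 : ∀ w, 0 ≤ hh w) : ad (hat s X hh) (hv r) ≤
      ∑ w ∈ Ioc (W s) (lev X), hh w * (ν + II r.1 w : ℕ) + 3 * (s : ℝ) ^ 32 := by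
  have p2 := pw hs 31 32 (by norm_num)
  have p3 : (0 : ℝ) ≤ (s : ℝ) ^ 31 := by positivity
  have h3 : ad (hat s X hh) r.2.1 ≤ ∑ w ∈ Ioc (W s) (lev X), hh w * ν + 2 * (s : ℝ) ^ 31 := by
    rcases h.free with ⟨rfl, h3⟩ | ⟨rfl, q, hq, h3⟩
    · rw [h3, ad_one]; simp
    · have := (mem_NP.1 hq).2.1.two_le
      refine (ad_le_of_dvd (fun p => by unfold hat; split_ifs; exacts [h0 _, le_rfl]) h3
        (by omega)).trans ?_
      have h4 := (abs_le.1 (core_one hq hm h1 h0)).2
      have h5 : ∑ w ∈ Ioc (W s) (lev X), (hh w * if w ≤ lev q then 1 else 0) ≤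
          ∑ w ∈ Ioc (W s) (lev X), hh w * (1 : ℕ) := sum_le_sum fun w _ =>
        mul_le_mul_of_nonneg_left (by split_ifs <;> norm_num) (h0 w)
      have h6 : s * (2 * (s : ℝ) ^ 30) = 2 * (s : ℝ) ^ 31 := by ring
      linarith
  have h4 := (abs_le.1 (core h.sub hm h1 h0)).2
  have h5 : (#r.1 : ℝ) * (s * (2 * (s : ℝ) ^ 30)) ≤ 2 * (s : ℝ) ^ 32 + 8 * (s : ℝ) ^ 31 := by
    calc _ ≤ (s + 4) * (s * (2 * (s : ℝ) ^ 30)) :=
          mul_le_mul_of_nonneg_right (by exact_mod_cast h.card) (by positivity)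
      _ = _ := by ring
  have h1' := (tail_facts h.tail).1
  rw [hv, val, ad_mul _ h.free_ne (mul_ne_zero h1' (prod_pred_ne h.sub)),
    ad_mul _ h1' (prod_pred_ne h.sub), ad_hat_tail h.tail]
  push_cast
  simp only [mul_add, sum_add_distrib]
  linarith

/-- The slots of a pair of halves. -/
abbrev Sl (s : ℕ) : Type := Bool × (Fin (s + 4) ⊕ Bool)

/-- Filling of the slots. -/
noncomputable def fill2 (s : ℕ) (t : Hf × Hf) (x : Sl s) : ℕ :=
  fill s (if x.1 then t.1 else t.2) x.2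

/-- Levels of the slots. -/
noncomputable def hlev2 (s X ν : ℕ) (t : Hf × Hf) (x : Sl s) : ℕ :=
  hlev s X ν (if x.1 then t.1 else t.2) x.2

theorem side_fst (b : Bool) (d : Sl s → ℕ) : side Prod.fst b d = ∏ y, d (b, y) := by
  rw [side, prod_filter, Fintype.prod_prod_type]
  cases b <;> simp

theorem cnt_fst (l : Sl s → ℕ) (b : Bool) (w : ℕ) :
    cnt Prod.fst l b w = #(univ.filter fun y => w ≤ l (b, y)) := by
  rw [cnt, card_filter, card_filter, Fintype.sum_prod_type]
  cases b <;> simp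

theorem cnt_le (l : Sl s → ℕ) (b : Bool) (w : ℕ) : cnt Prod.fst l b w ≤ s + 6 := by
  rw [cnt_fst]
  exact (card_filter_le _ _).trans (by simp)

theorem fill_inj {r r' : Hf} (h : Half s X ν r) (h' : Half s X ν r') (e : fill s r = fill s r') :
    r = r' := by
  have key : ∀ {r r' : Hf}, Half s X ν r → Half s X ν r' → fill s r = fill s r' → r.1 ⊆ r'.1 :=
    fun {r r'} h h' e q hq => by
      obtain ⟨i, hi⟩ := exists_en h.card hq
      have h1 : en _ r.1 i - 1 = en _ r'.1 i - 1 := congrFun e (Sum.inl i)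
      have h2 := mem_NP.1 (h.sub hq)
      have h3 := h2.2.1.two_le
      rcases en_mem _ r'.1 i with h4 | h4
      · have := (mem_NP.1 (h'.sub h4)).2.1.two_le
        rwa [show q = en _ r'.1 i by omega]
      · have h5 : q = 2 := by omega
        have := h2.2.2.2
        rw [h5, lev_two] at this
        omega
  exact Prod.ext (Subset.antisymm (key h h' e) (key h' h e.symm))
    (Prod.ext (congrFun e (Sum.inr true)) (congrFun e (Sum.inr false)))

theorem sum_II_le (Q : Finset ℕ) :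
    ∑ w ∈ Ioc (W s) (lev X), (II Q w : ℝ) ≤ ∑ q ∈ Q, (lev q : ℝ) := by
  simp only [II, card_filter, Nat.cast_sum]
  rw [sum_comm]
  refine sum_le_sum fun q _ => ?_
  rw [← Nat.cast_sum, ← card_filter, Nat.cast_le]
  calc _ ≤ #(Ioc 0 (lev q)) := card_le_card fun w hw => by
        simp only [mem_filter, mem_Ioc] at hw ⊢; omega
    _ = _ := by simp

theorem Good.card_levels (h : Good s X) : (#(Ioc (W s) (lev X)) : ℝ) = U s X := by
  rw [Nat.card_Ioc, Nat.cast_sub h.W_le, cast_W, U]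

theorem Good.free_bound (h : Good s X) (l : Sl s → ℕ) (hl : ∀ x, l x ≤ lev X) :
    ∀ T : Finset (Sl s → ℕ), (∀ d ∈ T, Adm s X Prod.fst l ∅ d) →
    ∑ d ∈ T, mlt (fun p => Real.exp (-(Real.log (2 * (s + 6) ^ 2) *
        (if lev p ≤ W s then 1 else 0) + hat s X (fun w =>
          Real.log (max (cnt Prod.fst l true w) 1 : ℕ)) p))) (side Prod.fst true d) /
      side Prod.fst true d ≤ Real.exp ((s : ℝ) ^ 32 + ∑ y, (l (false, y) : ℝ)) := by
  intro T hT
  have hs := h.s_ge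
  have p0 := sge hs
  set z := fun p => Real.exp (-(Real.log (2 * (s + 6) ^ 2) *
        (if lev p ≤ W s then 1 else 0) + hat s X (fun w =>
          Real.log (max (cnt Prod.fst l true w) 1 : ℕ)) p)) with hz
  have hN : ∀ b w, (cnt Prod.fst l b w : ℝ) ≤ s + 6 := fun b w => by exact_mod_cast cnt_le l b w
  have key : ∀ p, z p * (cnt Prod.fst l true (lev p) * cnt Prod.fst l false (lev p)) ≤
      if lev p ≤ W s then 1 / 2 else (cnt Prod.fst l false (lev p) : ℝ) := fun p => by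
    split_ifs with h1
    · simp only [hz, hat, if_pos h1, not_lt.2 h1, false_and, if_false, mul_one, add_zero]
      rw [Real.exp_neg, Real.exp_log (by positivity), inv_mul_le_iff₀ (by positivity)]
      nlinarith [mul_le_mul (hN true (lev p)) (hN false (lev p)) (by positivity) (by positivity)]
    · rw [← mul_assoc]
      refine mul_le_of_le_one_left (by positivity) ?_
      by_cases h2 : lev p ≤ lev X
      · simp only [hz, hat, if_neg h1, not_le.1 h1, h2, and_self, if_true, mul_zero, zero_add]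
        have : (0 : ℝ) < (max (cnt Prod.fst l true (lev p)) 1 : ℕ) := by
          exact_mod_cast lt_max_of_lt_right one_pos
        rw [Real.exp_neg, Real.exp_log this, inv_mul_le_iff₀ this, mul_one]
        exact_mod_cast le_max_left _ _
      · have : cnt Prod.fst l true (lev p) = 0 := by
          rw [cnt, card_eq_zero, filter_eq_empty_iff]
          intro x _ hx
          exact h2 (hx.2.trans (hl x))
        rw [this]; simp
  refine (free_energy (s := s) Prod.fst l (M := s + 6) (fun p => (Real.exp_pos _).le)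
    (fun p hp _ => (key p).trans ?_) (fun p => (key p).trans ?_) T hT).trans
    (Real.exp_le_exp.2 ?_)
  · have : (2 : ℝ) ≤ p := by exact_mod_cast hp.two_le
    split_ifs with h1
    · linarith
    · linarith [hN false (lev p), big_of_lev hs (not_le.1 h1),
        Real.add_one_le_exp ((s : ℝ) ^ 59), pw1 hs 59 (by norm_num)]
  · split_ifs
    · linarith
    · exact hN _ _
  have h1 : ∑ p ∈ X.primesLE, z p * (cnt Prod.fst l true (lev p) * cnt Prod.fst l false (lev p)) / p
      ≤ mass X (W s) + ∑ y, mass X (l (false, y)) := by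
    simp only [mass, sum_filter]
    rw [sum_comm, ← sum_add_distrib]
    refine sum_le_sum fun p _ => ?_
    refine (div_le_div_of_nonneg_right (key p) (Nat.cast_nonneg p)).trans ?_
    split_ifs with h1
    · refine le_add_of_le_of_nonneg (div_le_div_of_nonneg_right (by norm_num) (Nat.cast_nonneg p))
        (sum_nonneg fun _ _ => by split_ifs <;> positivity)
    · rw [zero_add, cnt_fst, card_filter]
      push_cast
      rw [sum_div]
      exact le_of_eq (sum_congr rfl fun y _ => by split_ifs <;> simp)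
  have h2 : ∑ y, mass X (l (false, y)) ≤ ∑ y, ((l (false, y) : ℝ) + 1) :=
    sum_le_sum fun y _ => mass_le _ _
  rw [sum_add_distrib] at h2
  simp only [sum_const, card_univ, Fintype.card_sum, Fintype.card_fin, Fintype.card_bool,
    nsmul_eq_mul, mul_one] at h2
  push_cast at h2
  have h3 := mass_le X (W s)
  rw [cast_W] at h3
  nlinarith [pw hs 2 31 (by norm_num), pw hs 31 32 (by norm_num), pw1 hs 2 (by norm_num)]

/-- Collisions with disjoint sets of primes. -/
structure Col0 (s X ν : ℕ) (t : Hf × Hf) : Prop where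
  left : Half s X ν t.1
  right : Half s X ν t.2
  eq : hv t.1 = hv t.2
  disj : Disjoint t.1.1 t.2.1
  gam_le : gam s X t.1.1 ν ≤ ν * U s X - (s : ℝ) ^ 34

theorem Col0.adm (hs : 10 ^ 12 ≤ s) {t : Hf × Hf} (h : Col0 s X ν t) :
    Adm s X Prod.fst (hlev2 s X ν t)
      (univ.filter fun x => x.2.isLeft ∧ W s < hlev2 s X ν t x) (fill2 s t) := by
  have hH : ∀ b : Bool, Half s X ν (if b then t.1 else t.2) := fun b => by
    cases b
    exacts [h.right, h.left]
  refine ⟨fun x => ((hH x.1).fill_facts x.2).1, ?_, fun x => ((hH x.1).fill_facts x.2).2,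
    fun x hx => ?_, fun x hx x' hx' hne => ?_⟩
  · rw [side_fst, side_fst]
    exact (h.left.prod_fill.trans h.eq).trans h.right.prod_fill.symm
  · obtain ⟨q, hq, e1, e2⟩ := (hH x.1).cond_mem (mem_filter.1 hx).2
    obtain ⟨h1, h2, h3, h4⟩ := mem_NP.1 ((hH x.1).sub hq)
    unfold fill2 hlev2
    rw [e1, e2, Nat.sub_add_cancel h2.one_le]
    exact ⟨by omega, h2, h3.big hs h4.le⟩
  · obtain ⟨q, hq, e1, -⟩ := (hH x.1).cond_mem (mem_filter.1 hx).2
    obtain ⟨q', hq', e2, -⟩ := (hH x'.1).cond_mem (mem_filter.1 hx').2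
    have := (mem_NP.1 ((hH x.1).sub hq)).2.1.two_le
    have := (mem_NP.1 ((hH x'.1).sub hq')).2.1.two_le
    unfold fill2
    rw [e1, e2]
    intro e
    obtain rfl : q = q' := by omega
    cases h1 : x.1 <;> cases h2 : x'.1 <;> simp only [h1, h2, ne_eq, not_true_eq_false] at hne
    · simp only [h1, h2] at hq hq'
      exact disjoint_left.1 h.disj hq' hq
    · simp only [h1, h2] at hq hq'
      exact disjoint_left.1 h.disj hq hq'

theorem Good.col0 (h : Good s X) (T : Finset (Hf × Hf)) (hT : ∀ t ∈ T, Col0 s X ν t) :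
    ∑ t ∈ T, 1 / (hv t.1 : ℝ) ≤ Real.exp (2 * ν * lev X - 3 / 4 * (s : ℝ) ^ 34) := by
  classical
  have hs := h.s_ge
  have p0 := sge hs
  have p1 := pw hs 2 31 (by norm_num)
  have p2 := pw hs 31 32 (by norm_num)
  have p3 := pw hs 32 33 (by norm_num)
  have p4 := pw hs 33 34 (by norm_num)
  have p5 := pw1 hs 2 (by norm_num)
  have hcard : Fintype.card (Sl s) = 2 * s + 12 := by simp; ring
  have hlu : ∀ t ∈ T, ∀ x, hlev2 s X ν t x ≤ lev X := fun t ht x => by
    unfold hlev2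
    split_ifs
    exacts [(hT t ht).left.hlev_le h _, (hT t ht).right.hlev_le h _]
  refine (h.sum_shapes (ι := Sl s) (by omega) T (hlev2 s X ν) hlu _
    (Real.exp_pos (2 * ν * lev X - 7 / 8 * (s : ℝ) ^ 34)).le fun t0 ht0 => ?_).trans ?_
  swap
  · rw [← Real.exp_add]; exact Real.exp_le_exp.2 (by linarith)
  set l := hlev2 s X ν t0 with hl
  set T' := T.filter fun t => hlev2 s X ν t = l
  set hh : ℕ → ℝ := fun w => Real.log (max (cnt Prod.fst l true w) 1 : ℕ) with hhh
  have hh0 : ∀ w, 0 ≤ hh w := fun w => Real.log_natCast_nonneg _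
  have hh1 : ∀ w, hh w ≤ s := fun w => log_max_le hs ((cnt_le _ _ _).trans (by omega))
  have hhm : Antitone hh := log_max_anti fun v w hvw => card_le_card fun x hx =>
    mem_filter.2 ⟨mem_univ _, (mem_filter.1 hx).2.1, hvw.trans (mem_filter.1 hx).2.2⟩
  set c := Real.log (2 * ((s : ℝ) + 6) ^ 2) with hc
  have hc0 : 0 ≤ c := Real.log_nonneg (by nlinarith)
  have hc1 : c ≤ s := log_le_s hs (by positivity) (by nlinarith [pw hs 2 60 (by norm_num)])
  set φ := fun p => c * (if lev p ≤ W s then 1 else 0) + hat s X hh p with hφ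
  have hφ0 : ∀ p, 0 ≤ φ p := fun p => add_nonneg (by split_ifs <;> positivity) (by
    unfold hat; split_ifs; exacts [hh0 _, le_rfl])
  have h1 := h.energy Prod.fst l (z := fun p => Real.exp (-φ p))
    (fun p => ⟨(Real.exp_pos _).le, Real.exp_le_one_iff.2 (neg_nonpos.2 (hφ0 p))⟩)
    (h.free_bound l (hlu t0 ht0)) (univ.filter fun x => x.2.isLeft ∧ W s < l x)
    (fun x hx => (mem_filter.1 hx).2.2.le) (T'.image (fill2 s)) fun d hd => by
      obtain ⟨t, ht, rfl⟩ := mem_image.1 hd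
      rw [← (mem_filter.1 ht).2]
      exact (hT t (mem_filter.1 ht).1).adm hs
  rw [sum_image fun t ht t' ht' e => by
    have h1 := hT t (mem_filter.1 ht).1
    have h2 := hT t' (mem_filter.1 ht').1
    exact Prod.ext (fill_inj h1.left h2.left (funext fun y => congrFun e (true, y)))
      (fill_inj h1.right h2.right (funext fun y => congrFun e (false, y)))] at h1
  have hN : ∀ t ∈ T', ∀ w ∈ Ioc (W s) (lev X), cnt Prod.fst l true w = ν + II t.1.1 w :=
    fun t ht w hw => by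
      rw [cnt_fst, ← (mem_filter.1 ht).2, ← (hT t (mem_filter.1 ht).1).left.card_hlev hw]
      rfl
  have ht0' : t0 ∈ T' := mem_filter.2 ⟨ht0, rfl⟩
  have hν : (ν : ℝ) * U s X ≤ ν * lev X :=
    mul_le_mul_of_nonneg_left (by unfold U; linarith) (Nat.cast_nonneg ν)
  have hbb : bb ν = -ν := by
    rcases Nat.le_one_iff_eq_zero_or_eq_one.1 (hT t0 ht0).left.nu_le with rfl | rfl
    · simp [bb_zero]
    · simp [bb_one]
  set A := ∑ q ∈ t0.1.1, (lev q : ℝ)
  set A' := ∑ q ∈ t0.2.1, (lev q : ℝ)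
  have h2 : ∑ w ∈ Ioc (W s) (lev X), hh w * cnt Prod.fst l true w ≤
      -(s : ℝ) ^ 34 + ν * lev X + A := by
    have e1 : ∑ w ∈ Ioc (W s) (lev X), hh w * cnt Prod.fst l true w = gam s X t0.1.1 ν +
        ∑ w ∈ Ioc (W s) (lev X), (II t0.1.1 w : ℝ) := by
      rw [gam, ← sum_add_distrib]
      refine sum_congr rfl fun w hw => ?_
      simp only [hhh]
      rw [log_max_mul, hN t0 ht0' w hw, hbb]
      push_cast; ring
    linarith [(hT t0 ht0).gam_le, sum_II_le (s := s) (X := X) t0.1.1]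
  have h3 : Real.exp (-(-(s : ℝ) ^ 34 + ν * lev X + A + 4 * (s : ℝ) ^ 33)) *
      ∑ t ∈ T', 1 / (hv t.1 : ℝ) ≤ ∑ t ∈ T', mlt (fun p => Real.exp (-φ p))
        (side Prod.fst true (fill2 s t)) / side Prod.fst true (fill2 s t) := by
    rw [mul_sum]
    refine sum_le_sum fun t ht => ?_
    have hH := (hT t (mem_filter.1 ht).1).left
    have e : side Prod.fst true (fill2 s t) = hv t.1 := by rw [side_fst]; exact hH.prod_fill
    rw [e, mul_one_div, mlt_exp]
    refine div_le_div_of_nonneg_right (Real.exp_le_exp.2 ?_) (Nat.cast_nonneg _)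
    have e2 : ad (fun p => -φ p) (hv t.1) =
        -(c * Ow (W s) (hv t.1) + ad (hat s X hh) (hv t.1)) := by
      rw [Ow, ← ad_smul, ← ad_add, neg_eq_neg_one_mul, ← ad_smul]
      exact ad_congr fun p _ _ => by simp only [hφ]; ring
    have h4 := hH.hat_le hs hhm hh1 hh0
    rw [sum_congr rfl fun w hw => by rw [← hN t ht w hw]] at h4
    have h5 : c * Ow (W s) (hv t.1) ≤ 3 * (s : ℝ) ^ 33 :=
      (mul_le_mul hc1 (hH.Ow_le hs) (Ow_nonneg _ _) (by positivity)).trans (le_of_eq (by ring))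
    rw [e2]
    linarith
  have h4 : ∏ x ∈ univ.filter (fun x : Sl s => x.2.isLeft ∧ W s < l x),
      (Fintype.card (Sl s) * Real.exp (-(l x : ℝ) + 10 * (s : ℝ) ^ 30)) ≤
      Real.exp (-(A + A') + (s : ℝ) ^ 32) := by
    have e1 : ∑ x ∈ univ.filter (fun x : Sl s => x.2.isLeft ∧ W s < l x), (l x : ℝ) = A + A' := by
      rw [sum_filter, Fintype.sum_prod_type, Fintype.sum_bool]
      exact congrArg₂ (· + ·) (hT t0 ht0).left.sum_cond (hT t0 ht0).right.sum_cond
    have e2 : (Fintype.card (Sl s) : ℝ) ≤ Real.exp s := le_exp_of_le hs (by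
      rw [hcard]; push_cast; linarith [pw1 hs 60 (by norm_num)])
    calc _ ≤ ∏ x ∈ univ.filter (fun x : Sl s => x.2.isLeft ∧ W s < l x),
          Real.exp (-(l x : ℝ) + 11 * (s : ℝ) ^ 30) := by
          refine prod_le_prod (fun _ _ => by positivity) fun x _ => ?_
          refine (mul_le_mul_of_nonneg_right e2 (Real.exp_pos _).le).trans ?_
          rw [← Real.exp_add]
          exact Real.exp_le_exp.2 (by linarith [pw1 hs 30 (by norm_num)])
      _ ≤ _ := by
          rw [← Real.exp_sum, sum_add_distrib, sum_neg_distrib, e1, sum_const, nsmul_eq_mul]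
          refine Real.exp_le_exp.2 (add_le_add_right ?_ _)
          have e3 : (#(univ.filter fun x : Sl s => x.2.isLeft ∧ W s < l x) : ℝ) ≤ 3 * s := by
            have := (card_filter_le univ fun x : Sl s => x.2.isLeft ∧ W s < l x).trans
              (show _ ≤ 3 * s by rw [card_univ, hcard]; omega)
            exact_mod_cast this
          calc _ ≤ 3 * s * (11 * (s : ℝ) ^ 30) := mul_le_mul_of_nonneg_right e3 (by positivity)
            _ = 33 * (s : ℝ) ^ 31 := by ring
            _ ≤ _ := by linarith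
  have h5 : ∑ y, (l (false, y) : ℝ) = A' + (ν * lev X + W s) := (hT t0 ht0).right.sum_hlev
  have h6 := (h3.trans h1).trans (mul_le_mul_of_nonneg_left h4 (Real.exp_pos _).le)
  rw [← le_div_iff₀' (Real.exp_pos _), ← Real.exp_add, ← Real.exp_sub, h5, cast_W] at h6
  exact h6.trans (Real.exp_le_exp.2 (by linarith))

/-- Collisions. -/
structure Col (s X ν : ℕ) (t : Hf × Hf) : Prop where
  left : Half s X ν t.1
  right : Half s X ν t.2
  eq : hv t.1 = hv t.2
  top : ν = 0 → ∃ q ∈ t.1.1, q ∉ t.2.1 ∧ ∀ q' ∈ t.1.1, lev q' ≤ lev q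
  gam_le : gam s X t.1.1 ν ≤ ν * U s X - (s : ℝ) ^ 34

theorem hv_split {r : Hf} {C : Finset ℕ} (hC : C ⊆ r.1) :
    hv r = hv (r.1 \ C, r.2) * ∏ q ∈ C, (q - 1) := by
  simp only [hv, val]
  rw [← prod_sdiff hC]; ring

theorem Col.cancel {t : Hf × Hf} (h : Col s X ν t) :
    Col0 s X ν ((t.1.1 \ (t.1.1 ∩ t.2.1), t.1.2), (t.2.1 \ (t.1.1 ∩ t.2.1), t.2.2)) := by
  refine ⟨⟨sdiff_subset.trans h.left.sub, (card_le_card sdiff_subset).trans h.left.card,
    h.left.tail, h.left.free⟩, ⟨sdiff_subset.trans h.right.sub,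
    (card_le_card sdiff_subset).trans h.right.card, h.right.tail, h.right.free⟩, ?_, ?_, ?_⟩
  · have := h.eq
    rw [hv_split (inter_subset_left (s₂ := t.2.1)), hv_split (r := t.2)
      (inter_subset_right (s₁ := t.1.1))] at this
    exact Nat.eq_of_mul_eq_mul_right (Nat.pos_of_ne_zero
      (prod_pred_ne (inter_subset_left.trans h.left.sub))) this
  · rw [disjoint_left]
    intro q h1 h2
    simp only [mem_sdiff, mem_inter] at h1 h2
    exact h1.2 ⟨h1.1, h2.1⟩
  · refine le_trans (sum_le_sum fun w hw => sub_le_sub_right ?_ _) h.gam_le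
    have h1 : II (t.1.1 \ (t.1.1 ∩ t.2.1)) w ≤ II t.1.1 w :=
      card_le_card (filter_subset_filter _ sdiff_subset)
    rcases Nat.eq_zero_or_pos (II t.1.1 w) with h2 | h2
    · simp only
      rw [h2] at h1 ⊢
      rw [Nat.le_zero.1 h1]
    refine bb_mono ?_ (Nat.add_le_add_left h1 _)
    rcases Nat.eq_zero_or_pos ν with h3 | h3
    · obtain ⟨q, hq, hq1, hq2⟩ := h.top h3
      obtain ⟨q', hq'⟩ := card_pos.1 h2
      rw [mem_filter] at hq'
      refine le_add_left (card_pos.2 ⟨q, mem_filter.2 ⟨?_, hq'.2.trans (hq2 q' hq'.1)⟩⟩)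
      simp [hq, hq1]
    · omega

theorem Good.col (h : Good s X) (T : Finset (Hf × Hf)) (hT : ∀ t ∈ T, Col s X ν t) :
    ∑ t ∈ T, 1 / (hv t.1 : ℝ) ≤ Real.exp (2 * ν * lev X - (s : ℝ) ^ 34 / 2) := by
  classical
  have h1 := fiber_le T (fun t => ((t.1.1 \ (t.1.1 ∩ t.2.1), t.1.2),
    (t.2.1 \ (t.1.1 ∩ t.2.1), t.2.2))) (fun t => t.1.1 ∩ t.2.1) (fun t _ t' _ e1 e2 => by
      simp only [Prod.mk.injEq] at e1
      refine Prod.ext (Prod.ext ?_ e1.1.2) (Prod.ext ?_ e1.2.2)
      · rw [← sdiff_union_of_subset (inter_subset_left (s₁ := t.1.1) (s₂ := t.2.1)), e1.1.1, e2,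
          sdiff_union_of_subset inter_subset_left]
      · rw [← sdiff_union_of_subset (inter_subset_right (s₁ := t.1.1) (s₂ := t.2.1)), e1.2.1, e2,
          sdiff_union_of_subset inter_subset_right])
    (fun t => 1 / (hv t.1 : ℝ)) (fun t => 1 / (hv t.1 : ℝ))
    (fun C => ∏ q ∈ C, 1 / ((q - 1 : ℕ) : ℝ))
    (fun t => Real.exp (2 * (s : ℝ) ^ 2) * (1 / (hv t.1 : ℝ))) (fun t _ => by
      rw [hv_split (inter_subset_left (s₂ := t.2.1)), prod_div_distrib, prod_const_one]
      push_cast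
      rw [div_mul_div_comm, one_mul])
    fun t _ V hV => by
      rw [mul_comm]
      refine mul_le_mul_of_nonneg_right (le_trans (sum_le_sum_of_subset_of_nonneg
        (fun C hC => ?_) fun _ _ _ => by positivity) h.sub_mass) (by positivity)
      obtain ⟨t, ht, -, rfl⟩ := hV C hC
      exact mem_filter.2 ⟨mem_powerset.2 (inter_subset_left.trans (hT t ht).left.sub),
        (card_le_card inter_subset_left).trans (hT t ht).left.card⟩
  rw [← mul_sum] at h1
  refine h1.trans ((mul_le_mul_of_nonneg_left (h.col0 (ν := ν) _ fun t' ht' => ?_)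
    (Real.exp_pos _).le).trans ?_)
  · obtain ⟨t, ht, rfl⟩ := mem_image.1 ht'
    exact (hT t ht).cancel
  · rw [← Real.exp_add]
    exact Real.exp_le_exp.2 (by
      linarith [pw h.s_ge 2 34 (by norm_num), pw h.s_ge 0 2 (by norm_num)])

end Vale.Agent.P031
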