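import Vale.Agent.P031.Lower
import Vale.Agent.Lib.PNT

/-! Passing to the limit. -/

open Finset Filter Topology

namespace Vale.Agent.P031

theorem tendsto_L : Tendsto L atTop atTop := by
  refine tendsto_atTop.2 fun b => ?_
  have h : Tendsto (fun t : ℕ => Real.log ((t : ℝ) + 1)) atTop atTop :=
    Real.tendsto_log_atTop.comp (tendsto_atTop_add_const_right _ 1 tendsto_natCast_atTop_atTop)
  filter_upwards [h.eventually_ge_atTop (Real.exp (b + 4))] with t ht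
  linarith [Real.exp_le_exp.1 (ht.trans (log_le_exp t))]

theorem succ_pow_le {y : ℝ} (hy : 54 ≤ y) : (y + 1) ^ 54 ≤ 3 * y ^ 54 := by
  have h6 : y + 1 ≤ y * Real.exp (1 / 54) := by
    linarith [mul_le_mul_of_nonneg_left (Real.add_one_le_exp (1 / 54 : ℝ))
      (by linarith : (0 : ℝ) ≤ y)]
  have h7 := pow_le_pow_left₀ (by linarith) h6 54
  rw [mul_pow, ← Real.exp_nat_mul, show ((54 : ℕ) : ℝ) * (1 / 54) = 1 by norm_num,
    mul_comm] at h7
  exact h7.trans (mul_le_mul_of_nonneg_right (by linarith [Real.exp_one_lt_d9])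
    (pow_nonneg (by linarith) 54))

theorem exists_good (s0 : ℕ) : ∀ᶠ X : ℕ in atTop, ∃ s, s0 ≤ s ∧ Good s X := by
  filter_upwards [tendsto_L.eventually_ge_atTop (((max s0 (10 ^ 12) + 1 : ℕ) : ℝ) ^ 54),
    eventually_ge_atTop 2] with X hX hX2
  obtain ⟨y, h1, h2⟩ := exists_root (t := lev X + 1) (R := 54) (by omega) (by norm_num)
  have h3 : L X < ((y + 1 : ℕ) : ℝ) ^ 54 := (L_lt_lev X).trans_le (by exact_mod_cast h1)
  have h4 : max s0 (10 ^ 12) + 1 < y + 1 := by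
    exact_mod_cast lt_of_pow_lt_pow_left₀ 54 (Nat.cast_nonneg _) (hX.trans_lt h3)
  have hs : 10 ^ 12 ≤ y := by have := le_max_right s0 (10 ^ 12); omega
  have p0 := sge hs
  refine ⟨y, by have := le_max_left s0 (10 ^ 12); omega, hs, ?_, ?_⟩
  · have : (y : ℝ) ^ 54 ≤ lev X := by exact_mod_cast Nat.lt_succ_iff.1 h2
    exact this.trans (lev_le_L X)
  · have h5 := L_pow hs (t := X) (Y := 2 * X) (k := 2) hX2 (by rw [sq]; exact Nat.mul_le_mul_right X hX2)
      (by push_cast; linarith only [pw hs 0 60 (by norm_num)])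
    have h6 := h3.le.trans ((le_of_eq (by push_cast; rfl)).trans (succ_pow_le (y := y)
      (by linarith only [p0])))
    linarith only [h5, h6, p0, pw hs 54 55 (by norm_num), pw1 hs 54 (by norm_num)]

/-- The prime counting function, shifted by one. -/
noncomputable def ff (t : ℝ) : ℝ := Nat.primeCounting (⌊t⌋₊ + 1)

theorem ff_asymp : Tendsto (fun t => ff t * Real.log t / t) atTop (𝓝 1) := by
  have h1 : Tendsto (fun t : ℝ => Real.log t / t) atTop (𝓝 0) :=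
    Real.isLittleO_log_id_atTop.tendsto_div_nhds_zero
  have h2 := Lib.PNT.pi_asymp.add h1
  rw [add_zero] at h2
  refine tendsto_of_tendsto_of_tendsto_of_le_of_le' Lib.PNT.pi_asymp h2 ?_ ?_
  · filter_upwards [eventually_ge_atTop 1] with t ht
    refine div_le_div_of_nonneg_right (mul_le_mul_of_nonneg_right ?_ (Real.log_nonneg ht))
      (by linarith)
    exact Nat.cast_le.2 (Nat.monotone_primeCounting (Nat.le_succ _))
  · filter_upwards [eventually_ge_atTop 1] with t ht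
    rw [← add_div, ← add_one_mul]
    refine div_le_div_of_nonneg_right (mul_le_mul_of_nonneg_right ?_ (Real.log_nonneg ht))
      (by linarith)
    have : Nat.primeCounting (⌊t⌋₊ + 1) ≤ Nat.primeCounting ⌊t⌋₊ + 1 := by
      unfold Nat.primeCounting Nat.primeCounting'
      rw [Nat.count_succ]
      split_ifs <;> omega
    unfold ff
    exact_mod_cast this

theorem ff_ratio {c θ : ℝ} (hc : 1 < c) (hθ : 0 < θ) : ∀ᶠ t : ℝ in atTop,
    |ff (c * t) - c * ff t| ≤ θ * ff t ∧ t / (2 * Real.log t) ≤ ff t := by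
  have h1 : Tendsto (fun t : ℝ => Real.log (c * t) / Real.log t) atTop (𝓝 1) := by
    have h2 := (Real.tendsto_log_atTop.const_div_atTop (Real.log c)).add_const 1
    rw [zero_add] at h2
    refine h2.congr' ?_
    filter_upwards [eventually_gt_atTop 1] with t ht
    have := (Real.log_pos ht).ne'
    rw [Real.log_mul (by linarith) (by linarith)]
    field_simp
  have h2 := ((ff_asymp.comp (tendsto_id.const_mul_atTop (by linarith : 0 < c))).div h1
    one_ne_zero).sub ff_asymp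
  rw [div_one, sub_self] at h2
  filter_upwards [(Metric.tendsto_nhds.1 h2) (θ / (2 * c)) (by positivity),
    ff_asymp.eventually_const_le (by norm_num : (1 / 2 : ℝ) < 1), eventually_gt_atTop 1]
    with t h3 h4 ht
  have h5 := Real.log_pos ht
  have h6 := Real.log_pos (show 1 < c * t by nlinarith)
  have h7 : t / (2 * Real.log t) ≤ ff t := by
    rw [le_div_iff₀ (by linarith)] at h4
    rw [div_le_iff₀ (by linarith)]
    linarith
  refine ⟨?_, h7⟩
  rw [Real.dist_eq, sub_zero] at h3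
  simp only [Function.comp, id, Pi.div_apply] at h3
  have e : ff (c * t) - c * ff t = (ff (c * t) * Real.log (c * t) / (c * t) /
      (Real.log (c * t) / Real.log t) - ff t * Real.log t / t) *
      (2 * c * (t / (2 * Real.log t))) := by
    field_simp
  rw [e, abs_mul, abs_of_pos (show 0 < 2 * c * (t / (2 * Real.log t)) by positivity)]
  calc _ ≤ θ / (2 * c) * (2 * c * ff t) := by gcongr
    _ = _ := by field_simp

theorem ratio_bound {V1 V2 A1 A2 c δ θ : ℝ} (hc : 0 < c) (hδ : δ ≤ 1 / 2) (hδ0 : 0 ≤ δ)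
    (hθ : 0 ≤ θ) (hA : 0 < A1) (h1 : |V1 - A1| ≤ δ * A1) (h2 : |V2 - A2| ≤ δ * A1)
    (h3 : |A2 - c * A1| ≤ θ * A1) : |V2 / V1 - c| ≤ 2 * (δ + θ + c * δ) := by
  rw [abs_le] at h1 h2 h3
  have h4 : A1 / 2 ≤ V1 := by nlinarith
  have h5 : 0 < V1 := by linarith
  have h6 : 0 ≤ δ + θ + c * δ := by positivity
  have h7 := mul_le_mul_of_nonneg_left h4 h6
  rw [div_sub' h5.ne', abs_div, abs_of_pos h5, div_le_iff₀ h5, abs_le]
  constructor <;> nlinarith

theorem term_bound {c x t0 θ m X : ℝ} (hc : 1 < c) (hx1 : 2 * c ≤ x) (hx2 : t0 ^ 2 ≤ x)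
    (hX1 : c * x ≤ X) (hX2 : X ≤ 2 * c * x) (h1 : 1 ≤ m) (h2 : m ^ 6 ≤ X)
    (ht0 : ∀ t ≥ t0, |ff (c * t) - c * ff t| ≤ θ * ff t ∧ t / (2 * Real.log t) ≤ ff t) :
    |ff (c * x / m) - c * ff (x / m)| ≤ θ * ff (x / m) ∧
      X / Real.log X / (4 * c) * (1 / m) ≤ ff (x / m) := by
  have hx0 : 0 < x := by linarith
  have h3 : m ^ 2 ≤ x := by
    refine (pow_le_pow_iff_left₀ (by positivity) hx0.le three_ne_zero).1 ?_
    calc (m ^ 2) ^ 3 = m ^ 6 := by ring
      _ ≤ x * x * 1 := by linarith [mul_le_mul_of_nonneg_right hx1 hx0.le]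
      _ ≤ x * x * x := mul_le_mul_of_nonneg_left (by linarith) (by positivity)
      _ = _ := by ring
  have h4 : x ≤ (x / m) ^ 2 := by
    rw [div_pow, le_div_iff₀ (by positivity), sq x]
    exact mul_le_mul_of_nonneg_left h3 hx0.le
  have h5 : 0 < x / m := by positivity
  obtain ⟨h6, h7⟩ := ht0 (x / m) (le_of_sq_le_sq (hx2.trans h4) h5.le)
  have h8 : 1 < x / m := lt_of_pow_lt_pow_left₀ 2 h5.le (by linarith)
  have h9 : x / m ≤ X := (div_le_self hx0.le h1).trans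
    ((le_mul_of_one_le_left hx0.le hc.le).trans hX1)
  have h10 := Real.log_pos h8
  have h11 := Real.log_le_log h5 h9
  have h12 : 0 < Real.log X := h10.trans_le h11
  refine ⟨by rwa [mul_div_assoc], le_trans ?_ h7⟩
  calc _ = X / (2 * c) / m / (2 * Real.log X) := by field_simp; ring
    _ ≤ _ := by
      gcongr
      rw [div_le_iff₀ (by linarith)]; linarith

theorem Good.ratio {s : ℕ} {c x t0 θ δ : ℝ} (h : Good s (⌊c * x⌋₊ + 1)) (hc : 1 < c)
    (hx1 : 2 * c ≤ x) (hx2 : t0 ^ 2 ≤ x) (hδ : δ ≤ 1 / 2) (hs : 800 * c / s ≤ δ) (hθ : 0 ≤ θ)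
    (ht0 : ∀ t ≥ t0, |ff (c * t) - c * ff t| ≤ θ * ff t ∧ t / (2 * Real.log t) ≤ ff t) :
    |(#(Tot (⌊c * x⌋₊ + 1)) : ℝ) / #(Tot (⌊x⌋₊ + 1)) - c| ≤ 2 * (δ + θ + c * δ) := by
  have hx0 : 0 < x := by linarith
  have hcx : x ≤ c * x := le_mul_of_one_le_left hx0.le hc.le
  have hX1 : c * x ≤ (⌊c * x⌋₊ + 1 : ℕ) := by push_cast; exact (Nat.lt_floor_add_one _).le
  have hX2 : ((⌊c * x⌋₊ + 1 : ℕ) : ℝ) ≤ 2 * c * x := by
    push_cast
    linarith [Nat.floor_le (show 0 ≤ c * x by positivity)]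
  have hN1 : ⌊x⌋₊ < ⌊c * x⌋₊ + 1 := Nat.lt_succ_of_le (Nat.floor_mono hcx)
  have hN2 : ⌊c * x⌋₊ < ⌊c * x⌋₊ + 1 := Nat.lt_succ_self _
  have hδ0 : 0 ≤ δ := le_trans (by positivity) hs
  have p0 := sge h.s_ge
  suffices H : ∀ X : ℕ, Good s X → c * x ≤ X → X ≤ 2 * c * x → ⌊x⌋₊ < X → ⌊c * x⌋₊ < X →
      |(#(Tot (⌊c * x⌋₊ + 1)) : ℝ) / #(Tot (⌊x⌋₊ + 1)) - c| ≤ 2 * (δ + θ + c * δ) from
    H _ h hX1 hX2 hN1 hN2
  intro X h hX1 hX2 hN1 hN2
  obtain ⟨Y, hY1, hY2, -⟩ := exists_root8 h.s_ge h.big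
  have key := fun m (hm : m ∈ MM s X) => term_bound (m := m) hc hx1 hx2 hX1 hX2
    (by exact_mod_cast Nat.pos_of_ne_zero (ne_zero_of_mem_G hm)) (by
      exact_mod_cast (Nat.pow_le_pow_left ((h.MM_le hY1 hm).trans (Nat.le_succ Y)) 6).trans hY2) ht0
  have h1 : X / Real.log X / (4 * c) * mu (MM s X) ≤ ∑ m ∈ MM s X, ff (x / m) := by
    rw [mu, mul_sum]; exact sum_le_sum fun m hm => (key m hm).2
  have h2 : |∑ m ∈ MM s X, ff (c * x / m) - c * ∑ m ∈ MM s X, ff (x / m)| ≤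
      θ * ∑ m ∈ MM s X, ff (x / m) := by
    rw [mul_sum, mul_sum, ← sum_sub_distrib]
    exact (abs_sum_le_sum_abs _ _).trans (sum_le_sum fun m hm => (key m hm).1)
  have hl : 0 < Real.log X := Real.log_pos (by linarith)
  have hM := h.one_le_mu_Tail.trans h.tail_le_MM
  have h3 : 0 < X / Real.log X / (4 * c) * mu (MM s X) := by
    have : (0 : ℝ) < X := by linarith
    positivity
  have h4 : 200 * EE s X ≤ δ * ∑ m ∈ MM s X, ff (x / m) := by
    refine le_trans (le_of_eq ?_) (mul_le_mul hs h1 h3.le hδ0)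
    unfold EE; field_simp; ring
  have h5 : ∀ z : ℝ, ⌊z⌋₊ < X → |#(Tot (⌊z⌋₊ + 1)) - ∑ m ∈ MM s X, ff (z / m)| ≤
      δ * ∑ m ∈ MM s X, ff (x / m) := fun z hz => by
    refine le_trans ?_ h4
    simp only [ff, Nat.floor_div_natCast]
    rw [abs_le]
    constructor <;> linarith [h.upper hz, h.lower hz]
  exact ratio_bound (by linarith) hδ hδ0 hθ (h3.trans_le h1) (h5 x hN1) (h5 _ hN2) h2

theorem tendsto_ratio {c : ℝ} (hc : 1 < c) : Tendsto (fun x : ℝ =>
    (#(Tot (⌊c * x⌋₊ + 1)) : ℝ) / #(Tot (⌊x⌋₊ + 1))) atTop (𝓝 c) := by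
  refine Metric.tendsto_nhds.2 fun ε hε => ?_
  obtain ⟨δ, hδ0, hδ1, hδ2⟩ : ∃ δ : ℝ, 0 < δ ∧ δ ≤ 1 / 2 ∧ c * δ ≤ ε / 8 :=
    ⟨min (1 / 2) (ε / 8 / c), lt_min (by norm_num) (by positivity), min_le_left _ _,
      (le_div_iff₀' (by linarith)).1 (min_le_right _ _)⟩
  obtain ⟨t0, ht0⟩ := eventually_atTop.1 (ff_ratio hc (show 0 < ε / 8 by positivity))
  have hX : Tendsto (fun x : ℝ => ⌊c * x⌋₊ + 1) atTop atTop :=
    (tendsto_add_atTop_nat 1).comp (tendsto_nat_floor_atTop.comp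
      (tendsto_id.const_mul_atTop (by linarith : 0 < c)))
  filter_upwards [hX.eventually (exists_good ⌈800 * c / δ⌉₊), eventually_ge_atTop (2 * c),
    eventually_ge_atTop (t0 ^ 2)] with x ⟨s, hs, h⟩ hx1 hx2
  have p0 := sge h.s_ge
  have h5 : 800 * c / s ≤ δ := by
    have := Nat.ceil_le.1 hs
    rw [div_le_iff₀ hδ0] at this
    rw [div_le_iff₀ (by linarith)]; linarith
  rw [Real.dist_eq]
  refine (h.ratio hc hx1 hx2 hδ1 h5 (by positivity) ht0).trans_lt ?_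
  linarith [le_mul_of_one_le_left hδ0.le hc.le]

end Vale.Agent.P031
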