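import Vale.Agent.P031.Estar

/-! The structure of typical totient values. -/

open Finset

namespace Vale.Agent.P031

variable {s X : ℕ}

/-- Numbers belonging to a set of negligible mass. -/
def IsNeg (s X k : ℕ) : Prop := k ≠ 0 ∧
  ((∃ w ≤ lev X, W s ≤ 2 * w ∧ (∀ p, p.Prime → p ∣ k → p ≤ X ∧ lev p ≤ 2 * w) ∧
      9 * (w : ℝ) ≤ Om k) ∨
    ∃ Q ⊆ NP s X, #Q ≤ s + 4 ∧ (s : ℝ) ^ 34 ≤ gam s X Q 0 ∧
      (∀ p, p.Prime → p ∣ k → p ≤ X ∧ lev p ≤ Q.sup lev) ∧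
      ∃ β, (β = 1 ∨ β.Prime) ∧ ∏ q ∈ Q, (q - 1) ∣ k * β)

theorem Good.lev_succ_le (h : Good s X) : ((lev X + 1 : ℕ) : ℝ) ≤ Real.exp s :=
  le_exp_of_le h.s_ge (by
    push_cast
    linarith [h.lev_le (t := X) (by omega), pw h.s_ge 55 60 (by norm_num),
      pw h.s_ge 0 55 (by norm_num)])

theorem Good.neg_mass (h : Good s X) (S : Finset ℕ) (hS : ∀ k ∈ S, IsNeg s X k) :
    mu S ≤ Real.exp (-(s : ℝ) ^ 30) := by
  classical
  have hs := h.s_ge
  have p1 := pw hs 30 31 (by norm_num)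
  have p2 := pw hs 31 34 (by norm_num)
  have p3 := pw1 hs 30 (by norm_num)
  have p0 := sge hs
  set P : ℕ → ℕ → Prop := fun w k => W s ≤ 2 * w ∧
    (∀ p, p.Prime → p ∣ k → p ≤ X ∧ lev p ≤ 2 * w) ∧ 9 * (w : ℝ) ≤ Om k with hP
  have h1 : S ⊆ ((range (lev X + 1)).biUnion fun w => S.filter (P w)) ∪
      S.filter fun k => ¬ ∃ w ≤ lev X, P w k := fun k hk => by
    by_cases h' : ∃ w ≤ lev X, P w k
    · obtain ⟨w, hw, h'⟩ := h'
      exact mem_union_left _ (mem_biUnion.2 ⟨w, mem_range.2 (by omega), mem_filter.2 ⟨hk, h'⟩⟩)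
    · exact mem_union_right _ (mem_filter.2 ⟨hk, h'⟩)
  have h2 : ∀ w ∈ range (lev X + 1), mu (S.filter (P w)) ≤ Real.exp (-(s : ℝ) ^ 31 / 4) :=
    fun w _ => by
      rcases (S.filter (P w)).eq_empty_or_nonempty with h3 | ⟨k0, hk0⟩
      · rw [h3, mu, sum_empty]; positivity
      have h4 : (s : ℝ) ^ 31 ≤ 2 * w := by
        rw [← cast_W]; exact_mod_cast (mem_filter.1 hk0).2.1
      refine (omega_tail X (2 * w) (9 * w) _ fun k hk => ⟨(hS k (mem_filter.1 hk).1).1,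
        (mem_filter.1 hk).2.2⟩).trans (Real.exp_le_exp.2 ?_)
      push_cast
      linarith
  have h3 := (mu_biUnion_le _ _).trans (sum_le_card_nsmul _ _ _ h2)
  rw [card_range, nsmul_eq_mul] at h3
  have h4 := h3.trans (mul_le_mul_of_nonneg_right h.lev_succ_le (Real.exp_pos _).le)
  rw [← Real.exp_add] at h4
  have h5 := h.overcrowded (S.filter fun k => ¬ ∃ w ≤ lev X, P w k) fun k hk =>
    ⟨(hS k (mem_filter.1 hk).1).1, (hS k (mem_filter.1 hk).1).2.resolve_left (mem_filter.1 hk).2⟩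
  have e1 : Real.exp (s + -(s : ℝ) ^ 31 / 4) ≤ Real.exp (-(s : ℝ) ^ 30 - 1) :=
    Real.exp_le_exp.2 (by linarith)
  have e2 : Real.exp (-(s : ℝ) ^ 34 / 2) ≤ Real.exp (-(s : ℝ) ^ 30 - 1) :=
    Real.exp_le_exp.2 (by linarith)
  have e3 : Real.exp (-(s : ℝ) ^ 30) = Real.exp 1 * Real.exp (-(s : ℝ) ^ 30 - 1) := by
    rw [← Real.exp_add]; congr 1; ring
  have e4 := mul_le_mul_of_nonneg_right (show 2 ≤ Real.exp 1 by linarith [Real.add_one_le_exp 1])
    (Real.exp_pos (-(s : ℝ) ^ 30 - 1)).le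
  linarith [(mu_mono h1).trans (mu_union_le _ _)]

theorem peel {n : ℕ} (hn : 1 ≤ n) (C : Finset ℕ)
    (hC : ∀ q ∈ C, q.Prime ∧ q ∣ n ∧ ¬ q * q ∣ n) :
    ∃ n', 1 ≤ n' ∧ n' ∣ n ∧ n.totient = n'.totient * ∏ q ∈ C, (q - 1) ∧
      ∀ p, p.Prime → (p ∣ n' ↔ p ∣ n ∧ p ∉ C) := by
  induction C using Finset.induction_on with
  | empty => exact ⟨n, hn, dvd_rfl, by simp, by simp⟩
  | insert q C hq ih =>
    obtain ⟨n', h1, h2, h3, h4⟩ := ih fun p hp => hC p (mem_insert_of_mem hp)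
    obtain ⟨h5, h6, h7⟩ := hC q (mem_insert_self _ _)
    obtain ⟨m, rfl⟩ := (h4 q h5).2 ⟨h6, hq⟩
    have h8 : ¬ q ∣ m := fun h => h7 ((Nat.mul_dvd_mul_left q h).trans h2)
    refine ⟨m, Nat.pos_of_mul_pos_left h1, (dvd_mul_left m q).trans h2, ?_, fun p hp => ?_⟩
    · rw [h3, Nat.totient_mul ((Nat.Prime.coprime_iff_not_dvd h5).2 h8), Nat.totient_prime h5,
        prod_insert hq]
      ring
    · rw [mem_insert, not_or, ← and_left_comm, ← h4 p hp, hp.dvd_mul,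
        Nat.prime_dvd_prime_iff_eq hp h5]
      constructor
      · exact fun h => ⟨fun e => h8 (e ▸ h), Or.inr h⟩
      · exact fun h => h.2.resolve_left h.1

theorem Good.class_card (h : Good s X) {Q : Finset ℕ} (hQ : Q ⊆ NP s X)
    (h9 : ∀ j, #(Q.filter fun q => Nat.log 2 (lev q) = j) ≤ 9) : #Q ≤ s := by
  have h1 := card_le_mul_card_image (f := fun q => Nat.log 2 (lev q)) Q 9 fun j _ => h9 j
  have h2 : Q.image (fun q => Nat.log 2 (lev q)) ⊆ range (Nat.log 2 (lev X) + 1) := fun j hj => by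
    obtain ⟨q, hq, rfl⟩ := mem_image.1 hj
    exact mem_range.2 (Nat.lt_succ_of_le (Nat.log_mono_right (lev_mono (mem_NP.1 (hQ hq)).1)))
  have h3 := card_le_card h2
  rw [card_range] at h3
  have h4 := log2_le h.s_ge (k := lev X) (by
    linarith [h.lev_le (t := X) (by omega), pw h.s_ge 55 60 (by norm_num),
      pw h.s_ge 0 55 (by norm_num)])
  have h5 : 500 * Nat.log 2 (lev X) ≤ s := by
    have : ((500 * Nat.log 2 (lev X) : ℕ) : ℝ) ≤ s := by push_cast; linarith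
    exact_mod_cast this
  have := h.s_ge
  omega

theorem mem_Tot {v : ℕ} : v ∈ Tot X ↔ v < X ∧ ∃ n, 1 ≤ n ∧ n.totient = v := by
  simp [Tot]

open Classical in
/-- The exceptional values. -/
noncomputable def Bad (s X : ℕ) : Finset ℕ := (range X).filter fun v => v ≠ 0 ∧
  ((∃ q : ℕ, Real.exp ((s : ℝ) ^ 59) ≤ q ∧ q * (q - 1) ∣ v) ∨
    (∃ q, (q ≤ X ∧ q.Prime ∧ ¬ Normal s q ∧ W s < lev q) ∧ ∃ v' ∈ Tot X, v = (q - 1) * v') ∨
    ∃ C ⊆ NP s X, #C ≤ s + 4 ∧ ∃ k, IsNeg s X k ∧ v = (∏ q ∈ C, (q - 1)) * k)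

/-- Integers whose totient has a feasible representation. -/
def Nice (s X n : ℕ) : Prop := ∃ Q ⊆ NP s X, (∀ q ∈ Q, q ∣ n) ∧ #Q ≤ s ∧ Feas s X Q ∧
  ∃ τ ∈ Tail s X, n.totient = val Q τ

theorem le_of_dvd_totient {n q : ℕ} (hn : 1 ≤ n) (hq : q.Prime) (hd : q ∣ n)
    (hX : n.totient < X) : q ≤ X := by
  have := Nat.le_of_dvd (Nat.totient_pos.2 hn) (Nat.totient_dvd_of_dvd hd)
  rw [Nat.totient_prime hq] at this
  omega

theorem Good.structure (h : Good s X) {n : ℕ} (hn : 1 ≤ n) (hX : n.totient < X) :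
    Nice s X n ∨ n.totient ∈ Bad s X := by
  classical
  have hs := h.s_ge
  have h0 : n.totient ≠ 0 := (Nat.totient_pos.2 hn).ne'
  by_contra hc
  rw [not_or, Bad, mem_filter, mem_range] at hc
  obtain ⟨hN, hB⟩ := hc
  simp only [hX, h0, ne_eq, not_false_eq_true, true_and, not_or] at hB
  obtain ⟨hB1, hB2, hB3⟩ := hB
  set Q := n.primeFactors.filter fun q => W s < lev q with hQ
  have hQm : ∀ q, q ∈ Q ↔ q.Prime ∧ q ∣ n ∧ W s < lev q := fun q => by
    simp only [hQ, mem_filter, Nat.mem_primeFactors, ne_eq, show ¬ n = 0 by omega,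
      not_false_eq_true, and_true, and_assoc]
  have hsq : ∀ q ∈ Q, q.Prime ∧ q ∣ n ∧ ¬ q * q ∣ n := fun q hq => by
    obtain ⟨h1, h2, h3⟩ := (hQm q).1 hq
    refine ⟨h1, h2, fun h4 => hB1 ⟨q, big_of_lev hs h3, ?_⟩⟩
    have := Nat.totient_dvd_of_dvd h4
    rwa [← sq, Nat.totient_prime_pow h1 (by norm_num), show 2 - 1 = 1 from rfl, pow_one] at this
  have hlt : ∀ n', n' ∣ n → n'.totient < X := fun n' h' =>
    (Nat.le_of_dvd (Nat.pos_of_ne_zero h0) (Nat.totient_dvd_of_dvd h')).trans_lt hX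
  have hNP : Q ⊆ NP s X := fun q hq => by
    obtain ⟨h1, h2, h3⟩ := (hQm q).1 hq
    have h4 := le_of_dvd_totient hn h1 h2 hX
    refine mem_NP.2 ⟨h4, h1, ?_, h3⟩
    by_contra h5
    obtain ⟨n', h6, h7, h8, -⟩ := peel hn {q} fun p hp => hsq p (mem_singleton.1 hp ▸ hq)
    exact hB2 ⟨q, ⟨h4, h1, h5, h3⟩, n'.totient, mem_Tot.2 ⟨hlt n' h7, n', h6, rfl⟩,
      by rw [h8, prod_singleton, mul_comm]⟩
  have hpeel : ∀ C ⊆ Q, #C ≤ s + 4 → ∃ n', 1 ≤ n' ∧ n.totient = val C n'.totient ∧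
      ¬ IsNeg s X n'.totient ∧ n'.totient ≤ X ∧ (∀ p, p.Prime → p ∣ n' → p ∣ n ∧ p ∉ C) ∧
      (∀ p, p.Prime → p ∣ n'.totient → p ≤ X ∧ ∃ q, p ≤ q ∧ (lev q ≤ W s ∨ q ∈ Q \ C)) ∧
      ∏ q ∈ Q \ C, (q - 1) ∣ n'.totient := fun C hC hCc => by
    obtain ⟨n', h1, h2, h3, h4⟩ := peel hn C fun p hp => hsq p (hC hp)
    refine ⟨n', h1, h3, fun h5 => hB3 ⟨C, hC.trans hNP, hCc, _, h5, by rw [h3, mul_comm]⟩,
      (hlt n' h2).le, fun p hp => (h4 p hp).1, fun p hp hd => ⟨?_, ?_⟩, ?_⟩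
    · exact (Nat.le_of_dvd (Nat.totient_pos.2 h1) hd).trans (hlt n' h2).le
    · obtain ⟨q, hq, hqn, hpq⟩ := prime_dvd_totient hp h1 hd
      refine ⟨q, hpq, or_iff_not_imp_left.2 fun h5 => mem_sdiff.2 ⟨(hQm q).2
        ⟨hq, hqn.trans h2, not_le.1 h5⟩, ((h4 q hq).1 hqn).2⟩⟩
    · obtain ⟨n'', -, -, h5, -⟩ := peel h1 (Q \ C) fun q hq => by
        obtain ⟨h5, h6, h7⟩ := hsq q (mem_sdiff.1 hq).1
        exact ⟨h5, (h4 q h5).2 ⟨h6, (mem_sdiff.1 hq).2⟩, fun h8 => h7 (h8.trans h2)⟩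
      exact ⟨_, by rw [h5, mul_comm]⟩
  have hcls : ∀ j, #(Q.filter fun q => Nat.log 2 (lev q) = j) ≤ 9 := by
    by_contra h1
    push Not at h1
    obtain ⟨j, hj, hmax⟩ := exists_max_image ((Q.image fun q => Nat.log 2 (lev q)).filter
      fun j => 9 < #(Q.filter fun q => Nat.log 2 (lev q) = j)) id (by
        obtain ⟨j, hj⟩ := h1
        obtain ⟨q, hq⟩ := card_pos.1 (show 0 < #(Q.filter fun q => Nat.log 2 (lev q) = j) by omega)
        exact ⟨j, mem_filter.2 ⟨mem_image.2 ⟨q, mem_filter.1 hq⟩, hj⟩⟩)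
    obtain ⟨hj1, hj2⟩ := mem_filter.1 hj
    obtain ⟨q0, hq0, hq0j⟩ := mem_image.1 hj1
    have hq0W := ((hQm q0).1 hq0).2.2
    have e1 : 2 ^ j ≤ lev q0 := hq0j ▸ Nat.pow_log_le_self 2 (by omega)
    have e2 : lev q0 < 2 ^ (j + 1) := hq0j ▸ Nat.lt_pow_succ_log_self (by norm_num) _
    have hC := h.class_card (Q := Q.filter fun q => j < Nat.log 2 (lev q))
      ((filter_subset _ _).trans hNP) fun j' => by
        by_contra h2
        obtain ⟨q, hq⟩ := card_pos.1 (show 0 < #((Q.filter fun q => j < Nat.log 2 (lev q)).filter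
          fun q => Nat.log 2 (lev q) = j') by omega)
        simp only [mem_filter] at hq
        have := hmax j' (mem_filter.2 ⟨mem_image.2 ⟨q, hq.1.1, hq.2⟩, (not_le.1 h2).trans_le
          (card_le_card (filter_subset_filter _ (filter_subset _ _)))⟩)
        simp only [id] at this
        omega
    obtain ⟨n', h2, -, h3, -, -, h4, h5⟩ := hpeel _ (filter_subset _ _) (hC.trans (by omega))
    have h6 := (Nat.totient_pos.2 h2).ne'
    refine h3 ⟨h6, Or.inl ⟨2 ^ j, e1.trans (lev_mono (mem_NP.1 (hNP hq0)).1), by omega,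
      fun p hp hd => ⟨(h4 p hp hd).1, ?_⟩, ?_⟩⟩
    · obtain ⟨q, hpq, hq⟩ := (h4 p hp hd).2
      have := lev_mono hpq
      rcases hq with hq | hq
      · omega
      · simp only [mem_sdiff, mem_filter, not_and, not_lt] at hq
        have h7 := Nat.lt_pow_succ_log_self (b := 2) (by norm_num) (lev q)
        have h8 := Nat.pow_le_pow_right (n := 2) (by norm_num) (Nat.succ_le_succ (hq.2 hq.1))
        simp only [Nat.succ_eq_add_one] at h7 h8
        omega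
    · have h7 : (Q.filter fun q => Nat.log 2 (lev q) = j) ⊆
          Q \ Q.filter fun q => j < Nat.log 2 (lev q) := fun q hq => by
        simp only [mem_sdiff, mem_filter] at hq ⊢
        exact ⟨hq.1, fun h' => by omega⟩
      refine le_trans ?_ (ad_le_of_dvd (fun _ => zero_le_one)
        ((prod_dvd_prod_of_subset _ _ _ h7).trans h5) h6)
      rw [ad_prod _ _ _ (prod_ne_zero_iff.1 (prod_pred_ne ((filter_subset _ _).trans hNP)))]
      refine le_trans ?_ (card_nsmul_le_sum _ _ (((2 ^ j : ℕ) : ℝ) - (s : ℝ) ^ 30) fun q hq => ?_)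
      · have h8 : (10 : ℝ) ≤ #(Q.filter fun q => Nat.log 2 (lev q) = j) := by exact_mod_cast hj2
        have h9 : (s : ℝ) ^ 31 ≤ 2 * (2 ^ j : ℕ) := by
          rw [← cast_W]; exact_mod_cast (show W s ≤ 2 * 2 ^ j by omega)
        rw [nsmul_eq_mul]
        nlinarith [pw hs 30 31 (by norm_num), pw hs 0 30 (by norm_num)]
      · rw [mem_filter] at hq
        have h8 := mem_NP.1 (hNP hq.1)
        have h9 := (abs_le.1 (h8.2.2.1 (2 ^ j) (hq.2 ▸ Nat.pow_log_le_self 2 (by omega)))).1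
        have h10 := Ow_le_Om (2 ^ j) (q - 1)
        unfold Om at h10
        linarith
  have hcard := h.class_card hNP hcls
  obtain ⟨n', h2, h3, h4, h5, h6, h7, -⟩ := hpeel Q Subset.rfl (by omega)
  refine hN ⟨Q, hNP, fun q hq => (hsq q hq).2.1, hcard, fun q hq => ?_, n'.totient,
    mem_Tail.2 ⟨h5, n', h2, rfl, fun p hp hd => ?_, ?_⟩, h3⟩
  · by_contra h8
    obtain ⟨n'', h9, -, h10, -, -, h11, h12⟩ := hpeel (Q.filter (q < ·)) (filter_subset _ _)
      ((card_filter_le _ _).trans (by omega))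
    have e : Q \ Q.filter (q < ·) = Q.filter (· ≤ q) := by
      ext p; simp only [mem_sdiff, mem_filter]; constructor
      · exact fun h => ⟨h.1, not_lt.1 fun h' => h.2 ⟨h.1, h'⟩⟩
      · exact fun h => ⟨h.1, fun h' => absurd h'.2 (not_lt.2 h.2)⟩
    rw [e] at h11 h12
    refine h10 ⟨(Nat.totient_pos.2 h9).ne', Or.inr ⟨_, (filter_subset _ _).trans hNP,
      (card_filter_le _ _).trans (by omega), (not_le.1 h8).le, fun p hp hd =>
      ⟨(h11 p hp hd).1, ?_⟩, 1, Or.inl rfl, by rwa [mul_one]⟩⟩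
    refine le_trans ?_ (le_sup (f := lev) (mem_filter.2 ⟨hq, le_rfl⟩))
    obtain ⟨q', hpq, hq'⟩ := (h11 p hp hd).2
    have := lev_mono hpq
    rcases hq' with hq' | hq'
    · have := ((hQm q).1 hq).2.2
      omega
    · exact this.trans (lev_mono (mem_filter.1 hq').2)
  · by_contra h8
    exact (h6 p hp hd).2 ((hQm p).2 ⟨hp, (h6 p hp hd).1, not_le.1 h8⟩)
  · by_contra h8
    refine h4 ⟨(Nat.totient_pos.2 h2).ne', Or.inl ⟨W s, h.W_le, by omega, fun p hp hd =>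
      ⟨(h7 p hp hd).1, ?_⟩, ?_⟩⟩
    · obtain ⟨q', hpq, hq'⟩ := (h7 p hp hd).2
      have := lev_mono hpq
      rcases hq' with hq' | hq'
      · omega
      · simp at hq'
    · rw [cast_W]
      linarith [pw hs 31 32 (by norm_num), pw hs 0 31 (by norm_num)]

theorem Good.sq_mass (h : Good s X) (S : Finset ℕ) (hS : ∀ v ∈ S, v ≠ 0 ∧ v ≤ X ∧
    ∃ q : ℕ, Real.exp ((s : ℝ) ^ 59) ≤ q ∧ q * (q - 1) ∣ v) :
    mu S ≤ Real.exp (-(s : ℝ) ^ 58) := by
  have hs := h.s_ge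
  set t0 := ⌈Real.exp ((s : ℝ) ^ 59)⌉₊ with ht0
  have ht1 : Real.exp ((s : ℝ) ^ 59) ≤ t0 := Nat.le_ceil _
  have ht2 : 2 ≤ t0 := by
    have : (2 : ℝ) ≤ t0 := by
      linarith [Real.add_one_le_exp ((s : ℝ) ^ 59), pw hs 0 59 (by norm_num)]
    exact_mod_cast this
  have h2 := mu_le_mul S (Ioo (t0 - 1) (X + 1)) (fun q => q * (q - 1)) (Icc 1 X) fun v hv => by
    obtain ⟨h2, h1, q, h3, b, rfl⟩ := hS v hv
    refine ⟨q, ?_, b, ?_, rfl⟩
    · have := Nat.ceil_le.2 h3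
      have := Nat.le_of_dvd (Nat.pos_of_ne_zero h2) ((dvd_mul_right q (q - 1)).mul_right b)
      rw [mem_Ioo]; omega
    · have := Nat.le_of_dvd (Nat.pos_of_ne_zero h2) (dvd_mul_left b _)
      have := Nat.pos_of_ne_zero (right_ne_zero_of_mul h2)
      rw [mem_Icc]; omega
  have h5 : ∑ q ∈ Ioo (t0 - 1) (X + 1), 1 / ((q * (q - 1) : ℕ) : ℝ) ≤
      Real.exp (3 - (s : ℝ) ^ 59) := by
    calc _ ≤ ∑ q ∈ Ioo (t0 - 1) (X + 1), 2 * ((q : ℝ) ^ 2)⁻¹ := by
          refine sum_le_sum fun q hq => ?_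
          have h5 := inv_pred_le (q := q) (by have := (mem_Ioo.1 hq).1; omega)
          rw [Nat.cast_mul, ← one_div_mul_one_div]
          refine (mul_le_mul_of_nonneg_left h5 (by positivity)).trans (le_of_eq ?_)
          ring
      _ ≤ 2 * (2 / t0) := by
          rw [← mul_sum]
          refine mul_le_mul_of_nonneg_left ((sum_Ioo_inv_sq_le _ _).trans (le_of_eq ?_)) zero_le_two
          rw [Nat.cast_sub (by omega)]; simp
      _ ≤ _ := by
          rw [Real.exp_sub, ← mul_div_assoc]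
          exact div_le_div₀ (Real.exp_pos _).le (by linarith [Real.add_one_le_exp 3])
            (Real.exp_pos _) ht1
  have h6 := mu_le_exp (t := X) (S := Icc 1 X) fun n hn => by rw [mem_Icc] at hn; omega
  have h7 := h2.trans (mul_le_mul h5 h6 (mu_nonneg _) (Real.exp_pos _).le)
  rw [← Real.exp_add] at h7
  exact h7.trans (Real.exp_le_exp.2 (by
    linarith [h.L_le (t := X) (by omega), pw hs 0 55 (by norm_num), pw hs 55 58 (by norm_num),
      pw hs 58 59 (by norm_num)]))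

theorem Good.bad_mass0 (h : Good s X) :
    mu (Bad s X) ≤ Real.exp (-(s : ℝ) ^ 3) * mu (Tot X) + Real.exp (-(s : ℝ) ^ 29) := by
  classical
  have hs := h.s_ge
  set B1 := (Bad s X).filter fun v => ∃ q : ℕ, Real.exp ((s : ℝ) ^ 59) ≤ q ∧ q * (q - 1) ∣ v
  set B2 := (Bad s X).filter fun v => ∃ q ∈ X.primesLE.filter
    (fun q => ¬ Normal s q ∧ W s < lev q), ∃ b ∈ Tot X, v = (q - 1) * b
  set B3 := (Bad s X).filter fun v => ∃ C ∈ (NP s X).powerset.filter (fun C => #C ≤ s + 4),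
    ∃ b ∈ (range X).filter (IsNeg s X), v = (∏ q ∈ C, (q - 1)) * b
  have h1 : Bad s X ⊆ B1 ∪ (B2 ∪ B3) := fun v hv => by
    have hv' := hv
    rw [Bad, mem_filter, mem_range] at hv'
    obtain ⟨h1, h2, h3⟩ := hv'
    rcases h3 with h3 | ⟨q, h3, h4⟩ | ⟨C, h3, h4, k, h5, rfl⟩
    · exact mem_union_left _ (mem_filter.2 ⟨hv, h3⟩)
    · exact mem_union_right _ (mem_union_left _ (mem_filter.2 ⟨hv, q, mem_filter.2
        ⟨Nat.mem_primesLE.2 ⟨h3.1, h3.2.1⟩, h3.2.2⟩, h4⟩))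
    · refine mem_union_right _ (mem_union_right _ (mem_filter.2 ⟨hv, C, mem_filter.2
        ⟨mem_powerset.2 h3, h4⟩, k, mem_filter.2 ⟨mem_range.2 ?_, h5⟩, rfl⟩))
      exact (Nat.le_of_dvd (Nat.pos_of_ne_zero h2) (dvd_mul_left k _)).trans_lt h1
  have h7 := h.sq_mass B1 fun v hv => by
    have hv' := (mem_filter.1 hv).1
    rw [Bad, mem_filter, mem_range] at hv'
    exact ⟨hv'.2.1, hv'.1.le, (mem_filter.1 hv).2⟩
  have h3 := mu_le_mul B2 _ (fun q => q - 1) _ fun v hv => (mem_filter.1 hv).2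
  have h4 := mu_le_mul B3 _ (fun C : Finset ℕ => ∏ q ∈ C, (q - 1)) _
    fun v hv => (mem_filter.1 hv).2
  have h8 := h3.trans (mul_le_mul_of_nonneg_right (h.abn_mass _ fun q hq => by
    rw [mem_filter, Nat.mem_primesLE] at hq
    exact ⟨hq.1.1, hq.1.2, hq.2⟩) (mu_nonneg _))
  have h9 := h.sub_mass
  simp only [prod_div_distrib, prod_const_one, ← Nat.cast_prod] at h9
  have h10 := h4.trans (mul_le_mul h9 (h.neg_mass _ fun k hk => (mem_filter.1 hk).2) (mu_nonneg _)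
    (Real.exp_pos _).le)
  rw [← Real.exp_add] at h10
  have p1 := pw hs 2 29 (by norm_num)
  have p2 := pw hs 29 30 (by norm_num)
  have p3 := pw hs 30 58 (by norm_num)
  have p5 := pw hs 0 2 (by norm_num)
  have e1 := h7.trans (Real.exp_le_exp.2 (show _ ≤ -(s : ℝ) ^ 29 - 1 by linarith))
  have e2 := h10.trans (Real.exp_le_exp.2 (show _ ≤ -(s : ℝ) ^ 29 - 1 by linarith))
  have e3 : Real.exp (-(s : ℝ) ^ 29) = Real.exp 1 * Real.exp (-(s : ℝ) ^ 29 - 1) := by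
    rw [← Real.exp_add]; congr 1; ring
  have e4 := mul_le_mul_of_nonneg_right (show 2 ≤ Real.exp 1 by linarith [Real.add_one_le_exp 1])
    (Real.exp_pos (-(s : ℝ) ^ 29 - 1)).le
  linarith [(mu_mono h1).trans (mu_union_le _ _), mu_union_le B2 B3]

theorem Good.one_mem_Tail (h : Good s X) : 1 ∈ Tail s X := by
  refine mem_Tail.2 ⟨?_, 1, le_rfl, rfl, fun p hp hd => absurd (Nat.dvd_one.1 hd) hp.one_lt.ne',
    by rw [Om, ad_one]; positivity⟩
  exact_mod_cast (Real.one_le_exp (by positivity)).trans h.big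

theorem Good.one_le_mu_Tail (h : Good s X) : 1 ≤ mu (Tail s X) := by
  have := mu_mono (singleton_subset_iff.2 h.one_mem_Tail)
  simpa [mu] using this

theorem Good.tot_mass (h : Good s X) :
    mu (Tot X) ≤ Real.exp (3 * (s : ℝ) ^ 2) * mu (Tail s X) := by
  classical
  have hs := h.s_ge
  set B := (Tot X).filter fun v => ∃ C ∈ (NP s X).powerset.filter (fun C => #C ≤ s + 4),
    ∃ b ∈ Tail s X, v = (∏ q ∈ C, (q - 1)) * b
  have h1 : Tot X ⊆ Bad s X ∪ B := fun v hv => by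
    obtain ⟨h1, n, hn, rfl⟩ := mem_Tot.1 hv
    rcases h.structure hn h1 with ⟨Q, h2, -, h3, -, τ, h4, h5⟩ | h2
    · exact mem_union_right _ (mem_filter.2 ⟨hv, Q, mem_filter.2 ⟨mem_powerset.2 h2, by omega⟩,
        τ, h4, by rw [h5, val, mul_comm]⟩)
    · exact mem_union_left _ h2
  have h2 := mu_le_mul B _ (fun C : Finset ℕ => ∏ q ∈ C, (q - 1)) _
    fun v hv => (mem_filter.1 hv).2
  have h9 := h.sub_mass
  simp only [prod_div_distrib, prod_const_one, ← Nat.cast_prod] at h9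
  have h3 := h2.trans (mul_le_mul_of_nonneg_right h9 (mu_nonneg _))
  have h4 := h.bad_mass0
  have h5 : Real.exp (-(s : ℝ) ^ 3) ≤ 1 / 2 := by
    rw [Real.exp_neg, inv_le_comm₀ (Real.exp_pos _) (by norm_num)]
    linarith [Real.add_one_le_exp ((s : ℝ) ^ 3), pw hs 0 3 (by norm_num)]
  have h6 : Real.exp (-(s : ℝ) ^ 29) ≤ 1 := Real.exp_le_one_iff.2 (by simp)
  have h7 := h.one_le_mu_Tail
  have h8 : 1 ≤ Real.exp (2 * (s : ℝ) ^ 2) := Real.one_le_exp (by positivity)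
  have h10 : Real.exp (3 * (s : ℝ) ^ 2) = Real.exp ((s : ℝ) ^ 2) * Real.exp (2 * (s : ℝ) ^ 2) := by
    rw [← Real.exp_add]; congr 1; ring
  have h11 : 4 ≤ Real.exp ((s : ℝ) ^ 2) := by
    linarith [Real.add_one_le_exp ((s : ℝ) ^ 2), pw hs 0 2 (by norm_num)]
  have h12 := one_le_mul_of_one_le_of_one_le h8 h7
  have h13 := mul_le_mul_of_nonneg_right h5 (mu_nonneg (Tot X))
  have h14 := mul_le_mul_of_nonneg_right h11 (zero_le_one.trans h12)
  rw [h10, mul_assoc]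
  linarith [(mu_mono h1).trans (mu_union_le _ _)]

theorem Good.bad_mass (h : Good s X) :
    mu (Bad s X) ≤ Real.exp (-(s : ℝ) ^ 3 / 2) * mu (Tail s X) := by
  have hs := h.s_ge
  have p1 := pw hs 2 3 (by norm_num)
  have p2 := pw hs 3 29 (by norm_num)
  have p5 := pw hs 0 2 (by norm_num)
  have h1 := mul_le_mul_of_nonneg_left h.tot_mass (Real.exp_pos (-(s : ℝ) ^ 3)).le
  rw [← mul_assoc, ← Real.exp_add] at h1
  have h7 := h.one_le_mu_Tail
  have e1 := mul_le_mul_of_nonneg_right (Real.exp_le_exp.2 (show -(s : ℝ) ^ 3 + 3 * (s : ℝ) ^ 2 ≤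
    -(s : ℝ) ^ 3 / 2 - 1 by linarith)) (mu_nonneg (Tail s X))
  have e2 : Real.exp (-(s : ℝ) ^ 29) ≤ Real.exp (-(s : ℝ) ^ 3 / 2 - 1) * mu (Tail s X) :=
    (Real.exp_le_exp.2 (by linarith)).trans (le_mul_of_one_le_right (Real.exp_pos _).le h7)
  have e3 : Real.exp (-(s : ℝ) ^ 3 / 2) = Real.exp 1 * Real.exp (-(s : ℝ) ^ 3 / 2 - 1) := by
    rw [← Real.exp_add]; congr 1; ring
  have e4 := mul_le_mul_of_nonneg_right (show 2 ≤ Real.exp 1 by linarith [Real.add_one_le_exp 1])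
    (mul_nonneg (Real.exp_pos (-(s : ℝ) ^ 3 / 2 - 1)).le (mu_nonneg (Tail s X)))
  rw [e3, mul_assoc]
  linarith [h.bad_mass0]

end Vale.Agent.P031
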