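import Vale.Agent.P031.State
import Vale.Agent.P031.Struct

/-! The boundary layer is thin. -/

open Finset

namespace Vale.Agent.P031

variable {s X : ℕ}

theorem gam_eq (Q : Finset ℕ) (g : ℕ) :
    gam s X Q g = ∑ w ∈ Ioc (W s) (lev X), ∑ i ∈ range (II Q w), aa (g + i) :=
  sum_congr rfl fun _ _ => bb_add _ _

theorem gam_nonneg (Q : Finset ℕ) {g : ℕ} (hg : 1 ≤ g) : 0 ≤ gam s X Q g := by
  rw [gam_eq]
  exact sum_nonneg fun _ _ => sum_nonneg fun i _ => by linarith [aa_ge (g := g + i) (by omega)]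

theorem gam_mono (Q : Finset ℕ) (g : ℕ) : gam s X Q g ≤ gam s X Q (g + 1) := by
  rw [gam_eq, gam_eq]
  exact sum_le_sum fun _ _ => sum_le_sum fun i _ => aa_mono (by omega)

theorem gam_three (Q : Finset ℕ) : gam s X Q 3 ≤ 8 * gam s X Q 1 := by
  rw [gam_eq, gam_eq, mul_sum]
  refine sum_le_sum fun _ _ => ?_
  rw [mul_sum]
  exact sum_le_sum fun i _ => aa_le_eight i

theorem sup_lev_le {Q : Finset ℕ} (hQ : Q ⊆ NP s X) : Q.sup lev ≤ lev X :=
  Finset.sup_le fun _ hq => lev_mono (mem_NP.1 (hQ hq)).1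

theorem gam_two {Q : Finset ℕ} (hQ : Q ⊆ NP s X) : 2 / 3 * (st s X Q).1 ≤ gam s X Q 2 := by
  have h1 := sup_lev_le hQ
  calc _ = ∑ w ∈ Ioc (W s) (Q.sup lev), (2 / 3 : ℝ) := by simp [st, mul_comm]
    _ ≤ ∑ w ∈ Ioc (W s) (Q.sup lev), (bb (2 + II Q w) - bb 2) := sum_le_sum fun w hw => by
        rw [mem_Ioc] at hw
        have := (II_pos (by omega)).2 hw.2
        have := bb_mono (x := 2 + 1) (y := 2 + II Q w) (by omega) (by omega)
        linarith [aa_two, show aa 2 = bb (2 + 1) - bb 2 from rfl]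
    _ ≤ _ := sum_le_sum_of_subset_of_nonneg (Ioc_subset_Ioc_right h1) fun w _ _ =>
        sub_nonneg.2 (bb_mono (by norm_num) (by omega))

theorem st_growth {Q : Finset ℕ} (hQ : Q ⊆ NP s X) :
    25 / 24 * Z 2 (st s X Q) ≤ Z 3 (st s X Q) :=
  growth (Nat.cast_nonneg _) (gam_nonneg Q le_rfl) (gam_mono Q) (gam_two hQ) (gam_three Q)

theorem st_empty : st s X ∅ = (0, fun _ => 0) := by
  refine Prod.ext (by simp [st]) (funext fun g => ?_)
  simp [st, gam, II]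

theorem st_insert {Q : Finset ℕ} {q : ℕ} (hq : q ∈ NP s X) (hQ : ∀ q' ∈ Q, q' < q) :
    st s X (insert q Q) = push ((lev q : ℝ) - (s : ℝ) ^ 31) (st s X Q) := by
  obtain ⟨h1, -, -, h2⟩ := mem_NP.1 hq
  have h3 : Q.sup lev ≤ lev q := Finset.sup_le fun q' hq' => lev_mono (hQ q' hq').le
  have h4 : q ∉ Q := fun h => lt_irrefl _ (hQ q h)
  refine Prod.ext ?_ (funext fun g => ?_)
  · simp only [st, push, sup_insert]
    rw [sup_eq_left.2 h3, Nat.cast_sub h2.le, cast_W]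
  · have e : (lev q : ℝ) - (s : ℝ) ^ 31 =
        ∑ w ∈ Ioc (W s) (lev X), if w ≤ lev q then (1 : ℝ) else 0 := by
      rw [← sum_filter, sum_const, nsmul_eq_mul, mul_one]
      have : (Ioc (W s) (lev X)).filter (· ≤ lev q) = Ioc (W s) (lev q) := by
        have := lev_mono h1
        ext i; simp only [mem_filter, mem_Ioc]; omega
      rw [this, Nat.card_Ioc, Nat.cast_sub h2.le, cast_W]
    simp only [st, push, gam]
    rw [e, mul_sum, ← sum_add_distrib]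
    refine sum_congr rfl fun w hw => ?_
    rw [mem_Ioc] at hw
    unfold II
    rw [filter_insert]
    split_ifs with h5
    · rw [card_insert_of_notMem fun h => h4 (mem_filter.1 h).1, aa,
        show g + (#(Q.filter fun q => w ≤ lev q) + 1) = g + 1 + #(Q.filter fun q => w ≤ lev q) by
          ring]
      ring
    · have : II Q w = 0 := by
        by_contra h
        have := (II_pos (by omega)).1 (Nat.pos_of_ne_zero h)
        omega
      unfold II at this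
      rw [this]; simp

theorem gam_insert {Q : Finset ℕ} {q : ℕ} (hq : q ∈ NP s X) (hQ : ∀ q' ∈ Q, q' < q) (g : ℕ) :
    gam s X (insert q Q) g = aa g * ((lev q : ℝ) - (s : ℝ) ^ 31) + gam s X Q (g + 1) :=
  congrFun (congrArg Prod.snd (st_insert hq hQ)) g

theorem feas_insert {Q : Finset ℕ} {q : ℕ} (hQ : ∀ q' ∈ Q, q' < q) :
    Feas s X (insert q Q) ↔ gam s X (insert q Q) 0 ≤ (s : ℝ) ^ 34 ∧ Feas s X Q := by
  unfold Feas
  rw [forall_mem_insert, filter_true_of_mem fun q' hq' => by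
    rcases mem_insert.1 hq' with h | h
    exacts [h.le, (hQ q' h).le]]
  refine and_congr_right fun _ => forall₂_congr fun q' hq' => ?_
  rw [filter_insert, if_neg (not_le.2 (hQ q' hq'))]

theorem val_insert {Q : Finset ℕ} {q : ℕ} (hq : q ∉ Q) (τ : ℕ) :
    val (insert q Q) τ = (q - 1) * val Q τ := by
  rw [val, val, prod_insert hq]; ring

theorem val_ne {Q : Finset ℕ} {τ : ℕ} (hQ : Q ⊆ NP s X) (hτ : τ ∈ Tail s X) : val Q τ ≠ 0 :=
  mul_ne_zero (tail_facts hτ).1 (prod_pred_ne hQ)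

theorem lev_le_of_dvd_val {Q : Finset ℕ} {τ p : ℕ} (hQ : Q ⊆ NP s X) (hτ : τ ∈ Tail s X)
    (hp : p.Prime) (hd : p ∣ val Q τ) : lev p ≤ W s ∨ ∃ q ∈ Q, p ≤ q := by
  rcases (Nat.Prime.dvd_mul hp).1 hd with h | h
  · exact Or.inl ((tail_facts hτ).2.2.1 p hp h)
  · obtain ⟨q, hq, h⟩ := (Prime.dvd_finset_prod_iff hp.prime _).1 h
    have := (mem_NP.1 (hQ hq)).2.1.two_le
    exact Or.inr ⟨q, hq, (Nat.le_of_dvd (by omega) h).trans (Nat.sub_le _ _)⟩

/-- The state is almost determined by the value. -/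
theorem stability (hs : 10 ^ 12 ≤ s) {Q Q' : Finset ℕ} {τ τ' : ℕ} (hQ : Q ⊆ NP s X)
    (hQ' : Q' ⊆ NP s X) (hc : #Q ≤ s + 4) (hc' : #Q' ≤ s + 4) (hτ : τ ∈ Tail s X)
    (hτ' : τ' ∈ Tail s X) (e : val Q τ = val Q' τ') {n : ℕ} (hn : n ≤ 6) :
    SLe n (st s X Q) (st s X Q') ((s : ℝ) ^ 33) := by
  have p1 := pw hs 30 31 (by norm_num)
  have p2 := pw hs 31 32 (by norm_num)
  have p3 := pw hs 32 33 (by norm_num)
  have p4 := pw hs 0 30 (by norm_num)
  refine ⟨?_, fun g h1 h2 => ?_⟩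
  · have h1 : Q.sup lev - W s ≤ Q'.sup lev - W s + 3 * D s := by
      rcases Q.eq_empty_or_nonempty with rfl | hne
      · simp
      obtain ⟨q, hq, h1⟩ := exists_mem_eq_sup Q hne lev
      obtain ⟨-, -, h2, h3⟩ := mem_NP.1 (hQ hq)
      obtain ⟨β, h4, h5, h6⟩ := h2.big hs h3.le
      have h9 : β ∣ val Q τ := (h5.trans (dvd_prod_of_mem (fun q => q - 1) hq)).mul_left _
      rcases lev_le_of_dvd_val hQ' hτ' h4 (e ▸ h9) with h7 | ⟨q', h7, h8⟩
      · omega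
      · have := (lev_mono h8).trans (le_sup (f := lev) h7)
        omega
    have h2 : ((Q.sup lev - W s : ℕ) : ℝ) ≤ (Q'.sup lev - W s : ℕ) + 3 * (D s : ℝ) := by
      exact_mod_cast h1
    rw [cast_D] at h2
    simp only [st]
    linarith
  · set hh : ℕ → ℝ := fun w => Real.log (max (g + II Q w) 1 : ℕ) with hhh
    have hh0 : ∀ w, 0 ≤ hh w := fun w => Real.log_natCast_nonneg _
    have hh1 : ∀ w, hh w ≤ s := fun w => log_max_le hs (by have := II_le Q w; omega)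
    have hhm : Antitone hh := log_max_anti fun v w hvw => Nat.add_le_add_left (II_anti Q hvw) g
    have h3 := (abs_le.1 (core hQ hhm hh1 hh0)).1
    have h4 := (abs_le.1 (core hQ' hhm hh1 hh0)).2
    have h5 := congrArg (ad (hat s X hh)) e
    rw [val, val, ad_mul _ (tail_facts hτ).1 (prod_pred_ne hQ), ad_mul _ (tail_facts hτ').1
      (prod_pred_ne hQ'), ad_hat_tail hτ, ad_hat_tail hτ'] at h5
    have h6 : ∀ k : ℕ, k ≤ s + 4 → (k : ℝ) * (s * (2 * (s : ℝ) ^ 30)) ≤ 3 * (s : ℝ) ^ 32 :=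
      fun k hk => by
        calc _ ≤ (s + 4) * (s * (2 * (s : ℝ) ^ 30)) :=
              mul_le_mul_of_nonneg_right (by exact_mod_cast hk) (by positivity)
          _ = 2 * (s : ℝ) ^ 32 + 8 * (s : ℝ) ^ 31 := by ring
          _ ≤ _ := by linarith
    have h7 : gam s X Q g + (∑ w ∈ Ioc (W s) (lev X), hh w * II Q' w -
        ∑ w ∈ Ioc (W s) (lev X), hh w * II Q w) ≤ gam s X Q' g := by
      rw [gam, gam, ← sum_sub_distrib, ← sum_add_distrib]
      refine sum_le_sum fun w _ => ?_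
      have := bb_convex (x := g + II Q w) (by omega) (g + II Q' w)
      simp only [hhh]
      rw [max_eq_left (by omega)]
      push_cast at this ⊢
      linarith
    simp only [st]
    linarith [h6 _ hc, h6 _ hc']

theorem mem_G {n v : ℕ} {A : ℝ} : v ∈ G s X n A ↔ ∃ Q τ, Q ⊆ NP s X ∧ τ ∈ Tail s X ∧
    Feas s X Q ∧ #Q + n ≤ s + 3 ∧ Z n (st s X Q) ≤ A ∧ val Q τ = v := by
  simp [G, and_assoc]

theorem G_mono (n : ℕ) {A B : ℝ} (h : A ≤ B) : G s X n A ⊆ G s X n B := fun v hv => by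
  obtain ⟨Q, τ, h1, h2, h3, h4, h5, h6⟩ := mem_G.1 hv
  exact mem_G.2 ⟨Q, τ, h1, h2, h3, h4, h5.trans h, h6⟩

theorem tail_subset_G (hs : 10 ^ 12 ≤ s) {n : ℕ} (hn : n ≤ 3) {A : ℝ} (hA : 0 ≤ A) :
    Tail s X ⊆ G s X n A := fun τ hτ =>
  mem_G.2 ⟨∅, τ, empty_subset _, hτ, fun _ h => absurd h (notMem_empty _), by simp; omega,
    by rwa [st_empty, Z_zero], by simp [val]⟩

theorem G_three (A : ℝ) : G s X 3 A ⊆ G s X 2 (24 / 25 * A) := fun v hv => by
  obtain ⟨Q, τ, h1, h2, h3, h4, h5, h6⟩ := mem_G.1 hv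
  exact mem_G.2 ⟨Q, τ, h1, h2, h3, by omega, by linarith [st_growth h1], h6⟩

theorem close_mass (V : Finset ℕ) (hV : V ⊆ NP s X) {ℓ : ℝ} (h0 : 0 ≤ ℓ)
    (h : ∀ q ∈ V, ∀ q' ∈ V, (lev q : ℝ) ≤ lev q' + ℓ) :
    ∑ q ∈ V, 1 / ((q - 1 : ℕ) : ℝ) ≤ 2 * (ℓ + 2) := by
  rcases V.eq_empty_or_nonempty with rfl | hne
  · simp; positivity
  obtain ⟨q0, hq0, hmin⟩ := exists_min_image V lev hne
  obtain ⟨h1, -, -, h2⟩ := mem_NP.1 (hV hq0)
  have h3 := mass_between X (a := lev q0 - 1) (b := lev q0 + ⌊ℓ⌋₊) (by omega)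
  have h4 := mass_le X (lev q0 + ⌊ℓ⌋₊)
  have h5 := le_mass (t := X) (w := lev q0 - 1) ((Nat.sub_le _ _).trans (lev_mono h1))
  rw [Nat.cast_sub (by omega)] at h5
  push_cast at h4 h5
  calc _ ≤ ∑ q ∈ V, 2 * (1 / (q : ℝ)) :=
        sum_le_sum fun q hq => inv_pred_le (mem_NP.1 (hV hq)).2.1.two_le
    _ ≤ 2 * ∑ p ∈ X.primesLE with (lev q0 - 1 < lev p ∧ lev p ≤ lev q0 + ⌊ℓ⌋₊), 1 / (p : ℝ) := by
        rw [← mul_sum]
        refine mul_le_mul_of_nonneg_left (sum_le_sum_of_subset_of_nonneg (fun q hq => ?_)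
          fun _ _ _ => by positivity) zero_le_two
        obtain ⟨h6, h7, -⟩ := mem_NP.1 (hV hq)
        have h8 := hmin q hq
        refine mem_filter.2 ⟨Nat.mem_primesLE.2 ⟨h6, h7⟩, by omega, ?_⟩
        have : lev q - lev q0 ≤ ⌊ℓ⌋₊ := Nat.le_floor (by
          rw [Nat.cast_sub h8]; linarith [h q hq q0 hq0])
        omega
    _ ≤ _ := by rw [h3]; linarith [Nat.floor_le h0]

theorem exists_top {Q : Finset ℕ} (hne : Q.Nonempty) :
    ∃ q Q', Q = insert q Q' ∧ (∀ q' ∈ Q', q' < q) ∧ #Q = #Q' + 1 :=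
  ⟨Q.max' hne, Q.erase (Q.max' hne), (insert_erase (max'_mem _ _)).symm,
    fun _ h => lt_max'_of_mem_erase_max' _ hne h, (card_erase_add_one (max'_mem _ _)).symm⟩

theorem Good.upper_layer (h : Good s X) {n : ℕ} (hn : n ≤ 3) {A B : ℝ} (hA : 0 ≤ A)
    (hAB : A ≤ B) : mu (G s X n B \ G s X n A) ≤
      (6 * (B - A) + (s : ℝ) ^ 34) * mu (G s X (n + 1) (B + 81 * (s : ℝ) ^ 34)) := by
  have hs := h.s_ge
  have p1 := pw hs 33 34 (by norm_num)
  have p2 := pw hs 0 33 (by norm_num)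
  have key : ∀ v ∈ G s X n B \ G s X n A, ∃ r : ℕ × Finset ℕ × ℕ, r.1 ∈ NP s X ∧
      r.2.1 ⊆ NP s X ∧ r.2.2 ∈ Tail s X ∧ #r.2.1 ≤ s + 4 ∧ v = (r.1 - 1) * val r.2.1 r.2.2 ∧
      val r.2.1 r.2.2 ∈ G s X (n + 1) (B + 81 * (s : ℝ) ^ 34) ∧
      A < Z n (push ((lev r.1 : ℝ) - (s : ℝ) ^ 31) (st s X r.2.1)) ∧
      Z n (push ((lev r.1 : ℝ) - (s : ℝ) ^ 31) (st s X r.2.1)) ≤ B := fun v hv => by
    rw [mem_sdiff] at hv
    obtain ⟨Q, τ, h1, h2, h3, h4, h5, h6⟩ := mem_G.1 hv.1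
    have h7 : A < Z n (st s X Q) := not_le.1 fun h' => hv.2 (mem_G.2 ⟨Q, τ, h1, h2, h3, h4, h', h6⟩)
    rcases Q.eq_empty_or_nonempty with rfl | hne
    · rw [st_empty, Z_zero] at h7; linarith
    obtain ⟨q, Q', rfl, h8, h9⟩ := exists_top hne
    have hq := h1 (mem_insert_self _ _)
    have hQ' := (subset_insert _ _).trans h1
    rw [feas_insert h8, gam_insert hq h8, aa_zero] at h3
    rw [st_insert hq h8] at h5 h7
    refine ⟨(q, Q', τ), hq, hQ', h2, by simp only; omega,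
      by rw [← h6, val_insert fun h => lt_irrefl _ (h8 q h)],
      mem_G.2 ⟨Q', τ, hQ', h2, h3.2, by omega, ?_, rfl⟩, h7, h5⟩
    refine (Z_push_le hn (by positivity) (SLe.refl _ _ (by positivity)) (max_le ?_ ?_)).trans
      (add_le_add_left h5 _)
    · have h10 : Q'.sup lev - W s ≤ lev q - W s := Nat.sub_le_sub_right
        (Finset.sup_le fun q' hq' => lev_mono (h8 q' hq').le) _
      have h11 : ((Q'.sup lev - W s : ℕ) : ℝ) ≤ (lev q - W s : ℕ) := by exact_mod_cast h10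
      rw [Nat.cast_sub (mem_NP.1 hq).2.2.2.le, cast_W] at h11
      simp only [st]
      linarith
    · simp only [st]
      linarith [h3.1]
  choose! r hr using key
  have h1 := fiber_le (G s X n B \ G s X n A) (fun v => val (r v).2.1 (r v).2.2) (fun v => (r v).1)
    (fun v hv v' hv' e1 e2 => by rw [(hr v hv).2.2.2.2.1, (hr v' hv').2.2.2.2.1, e1, e2])
    (fun v => 1 / (v : ℝ)) (fun v => 1 / (v : ℝ)) (fun q => 1 / ((q - 1 : ℕ) : ℝ))
    (fun v => (6 * (B - A) + (s : ℝ) ^ 34) * (1 / (v : ℝ))) (fun v hv => by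
      conv_lhs => rw [(hr v hv).2.2.2.2.1]
      rw [Nat.cast_mul, div_mul_div_comm, one_mul, mul_comm])
    fun b _ V hV => by
      rw [mul_comm]
      refine mul_le_mul_of_nonneg_right ((close_mass (s := s) (X := X) V (fun q hq => ?_)
        (ℓ := 3 * (B - A) + 243 * (s : ℝ) ^ 33) (by linarith) fun q hq q' hq' => ?_).trans
        (by linarith)) (by positivity)
      · obtain ⟨v, hv, -, rfl⟩ := hV q hq
        exact (hr v hv).1
      · obtain ⟨v, hv, e1, rfl⟩ := hV q hq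
        obtain ⟨v', hv', e2, rfl⟩ := hV q' hq'
        obtain ⟨-, a1, a2, a3, -, -, -, a4⟩ := hr v hv
        obtain ⟨-, b1, b2, b3, -, -, b4, -⟩ := hr v' hv'
        rcases le_total (lev (r v).1 : ℝ) (lev (r v').1) with h1 | h1
        · linarith
        have h2 := Z_push_slope n (st s X (r v).2.1) (sub_le_sub_right h1 ((s : ℝ) ^ 31))
        have h3 := Z_push_le hn (by positivity) (stability hs b1 a1 b3 a3 b2 a2 (e2.trans e1.symm)
          (n := n + 2) (by omega)) (x := (lev (r v').1 : ℝ) - (s : ℝ) ^ 31)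
          (x' := (lev (r v').1 : ℝ) - (s : ℝ) ^ 31) (by linarith)
        linarith
  rw [← mul_sum] at h1
  refine h1.trans (mul_le_mul_of_nonneg_left (mu_mono fun b hb => ?_) (by linarith))
  obtain ⟨v, hv, rfl⟩ := mem_image.1 hb
  exact (hr v hv).2.2.2.2.2.1

theorem Good.range_mass (h : Good s X) {a b : ℕ} (ha : W s ≤ a) (hab : a ≤ b) (hb : b ≤ lev X) :
    (b : ℝ) - a - 2 ≤ ∑ q ∈ NP s X with (a < lev q ∧ lev q ≤ b), 1 / ((q - 1 : ℕ) : ℝ) := by
  classical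
  have h1 := mass_between X hab
  rw [← sum_filter_add_sum_filter_not _ (Normal s)] at h1
  have key : ∀ q : ℕ, q.Prime → 1 / (q : ℝ) ≤ 1 / ((q - 1 : ℕ) : ℝ) := fun q hq => by
    have := hq.two_le
    exact one_div_le_one_div_of_le (by exact_mod_cast (show 0 < q - 1 by omega))
      (by exact_mod_cast Nat.sub_le q 1)
  have h2 := (sum_le_sum fun q hq => key q (Nat.prime_of_mem_primesLE
    (mem_filter.1 (mem_filter.1 hq).1).1)).trans (h.abn_mass ((X.primesLE.filter fun p =>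
      a < lev p ∧ lev p ≤ b).filter fun q => ¬ Normal s q) fun q hq => by
        simp only [mem_filter, Nat.mem_primesLE] at hq
        exact ⟨hq.1.1.1, hq.1.1.2, hq.2, by omega⟩)
  have h3 : Real.exp (-(s : ℝ) ^ 3) ≤ 1 := Real.exp_le_one_iff.2 (by simp)
  have h4 : ∑ q ∈ (X.primesLE.filter fun p => a < lev p ∧ lev p ≤ b).filter (Normal s),
      1 / (q : ℝ) ≤ ∑ q ∈ NP s X with (a < lev q ∧ lev q ≤ b), 1 / ((q - 1 : ℕ) : ℝ) :=
    (sum_le_sum fun q hq => key q (Nat.prime_of_mem_primesLE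
      (mem_filter.1 (mem_filter.1 hq).1).1)).trans (sum_le_sum_of_subset_of_nonneg
        (fun q hq => by
          simp only [mem_filter, Nat.mem_primesLE] at hq
          exact mem_filter.2 ⟨mem_NP.2 ⟨hq.1.1.1, hq.1.1.2, hq.2, by omega⟩, hq.1.2⟩)
        fun _ _ _ => by positivity)
  linarith [mass_le X a, le_mass hb]

theorem th_nonneg (Q : Finset ℕ) : 0 ≤ th (st s X Q) :=
  le_max_of_le_left (Nat.cast_nonneg _)

/-- Admissible new top primes. -/
def Ext (s X : ℕ) (Δ : ℝ) (Q : Finset ℕ) (q : ℕ) : Prop :=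
  W s + ⌈th (st s X Q) + (s : ℝ) ^ 34⌉₊ < lev q ∧ lev q ≤ W s + ⌊th (st s X Q) + Δ / 81⌋₊

theorem Ext.facts (hs : 10 ^ 12 ≤ s) {n : ℕ} (hn : n ≤ 2) {A Δ : ℝ} (hΔ : 0 ≤ Δ) {Q : Finset ℕ}
    {q τ : ℕ} (h : Ext s X Δ Q q) (hq : q ∈ NP s X) (hQ : Q ⊆ NP s X) (hτ : τ ∈ Tail s X)
    (hF : Feas s X Q) (hc : #Q + (n + 1) ≤ s + 3) (hZ : Z (n + 1) (st s X Q) ≤ A - Δ) :
    (∀ q' ∈ Q, q' < q) ∧ gam s X (insert q Q) 0 ≤ -(s : ℝ) ^ 34 ∧
      val (insert q Q) τ = (q - 1) * val Q τ ∧ (q - 1) * val Q τ ∈ G s X n A := by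
  have p2 := pw hs 0 34 (by norm_num)
  obtain ⟨h3, h4⟩ := h
  have h5 : th (st s X Q) + (s : ℝ) ^ 34 ≤ lev q - (s : ℝ) ^ 31 := by
    have := Nat.cast_le (α := ℝ).2 h3.le
    push_cast at this
    linarith [cast_W s, Nat.le_ceil (th (st s X Q) + (s : ℝ) ^ 34)]
  have h6 : lev q - (s : ℝ) ^ 31 ≤ th (st s X Q) + Δ / 81 := by
    have := Nat.cast_le (α := ℝ).2 h4
    push_cast at this
    linarith [cast_W s, Nat.floor_le (show 0 ≤ th (st s X Q) + Δ / 81 by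
      linarith [th_nonneg (s := s) (X := X) Q])]
  have h7 : ∀ q' ∈ Q, q' < q := fun q' hq' => by
    refine lt_of_lev_lt ?_
    have h8 : lev q' ≤ W s + (Q.sup lev - W s) := by
      have := le_sup (f := lev) hq'
      omega
    have h9 : (lev q' : ℝ) ≤ W s + ((Q.sup lev - W s : ℕ) : ℝ) := by exact_mod_cast h8
    have h10 : ((Q.sup lev - W s : ℕ) : ℝ) ≤ th (st s X Q) := le_max_left _ _
    have : (lev q' : ℝ) < lev q := by linarith [cast_W s]
    exact_mod_cast this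
  have h8 : gam s X (insert q Q) 0 ≤ -(s : ℝ) ^ 34 := by
    rw [gam_insert hq h7, aa_zero]
    have : gam s X Q 1 ≤ th (st s X Q) := le_max_right _ _
    linarith
  have h9 : q ∉ Q := fun h => lt_irrefl _ (h7 _ h)
  refine ⟨h7, h8, val_insert h9 τ, mem_G.2 ⟨_, _, insert_subset hq hQ, hτ,
    (feas_insert h7).2 ⟨by linarith, hF⟩, ?_, ?_, val_insert h9 τ⟩⟩
  · rw [card_insert_of_notMem h9]
    omega
  · rw [st_insert hq h7]
    have h11 := Z_push_le (n := n) (by omega) (by linarith : 0 ≤ Δ / 81)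
      (SLe.refl _ (st s X Q) (by linarith)) h6
    have h12 : Z n (push (th (st s X Q)) (st s X Q)) ≤ A - Δ := hZ
    linarith

open Classical in
theorem Good.ext_mass (h : Good s X) {Δ : ℝ} (hΔ : 200 * (s : ℝ) ^ 34 ≤ Δ) {Q : Finset ℕ}
    (h5 : th (st s X Q) ≤ U s X - Δ) :
    Δ / 200 + 1 ≤ ∑ q ∈ NP s X with Ext s X Δ Q q, 1 / ((q - 1 : ℕ) : ℝ) := by
  have p2 := pw h.s_ge 0 34 (by norm_num)
  have h4 := th_nonneg (s := s) (X := X) Q
  unfold Ext
  generalize th (st s X Q) = t at *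
  have h6 := Nat.ceil_lt_add_one (show 0 ≤ t + (s : ℝ) ^ 34 by linarith)
  have h7 := Nat.lt_floor_add_one (t + Δ / 81)
  have h8 := Nat.floor_le (show 0 ≤ t + Δ / 81 by linarith)
  have h10 := h.range_mass (a := W s + ⌈t + (s : ℝ) ^ 34⌉₊) (b := W s + ⌊t + Δ / 81⌋₊)
    (Nat.le_add_right _ _) ((Nat.cast_le (α := ℝ)).1 (by push_cast; linarith))
    ((Nat.cast_le (α := ℝ)).1 (by push_cast; unfold U at h5; linarith [cast_W s]))
  push_cast at h10
  refine le_trans (by linarith) (h10.trans (le_of_eq ?_))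
  refine sum_congr ?_ fun _ _ => rfl
  ext q; simp only [mem_filter]

theorem Good.lower_layer (h : Good s X) {n : ℕ} (hn : n ≤ 2) {A Δ : ℝ} (hA : Δ ≤ A)
    (hU : A ≤ U s X) (hΔ : 200 * (s : ℝ) ^ 34 ≤ Δ) :
    Δ / 200 * mu (G s X (n + 1) (A - Δ)) ≤ mu (G s X n A) := by
  classical
  have hs := h.s_ge
  have p2 := pw hs 0 34 (by norm_num)
  have key := fun v (hv : v ∈ G s X (n + 1) (A - Δ)) => mem_G.1 hv
  choose! Q τ hQ hτ hF hc hZ hv using key
  set T := (G s X (n + 1) (A - Δ) ×ˢ NP s X).filter fun r => Ext s X Δ (Q r.1) r.2 with hT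
  have hTm : ∀ r ∈ T, r.1 ∈ G s X (n + 1) (A - Δ) ∧ r.2 ∈ NP s X ∧ (∀ q ∈ Q r.1, q < r.2) ∧
      gam s X (insert r.2 (Q r.1)) 0 ≤ -(s : ℝ) ^ 34 ∧
      val (insert r.2 (Q r.1)) (τ r.1) = (r.2 - 1) * r.1 ∧
      (r.2 - 1) * r.1 ∈ G s X n A := fun r hr => by
    simp only [hT, mem_filter, mem_product] at hr
    obtain ⟨⟨h1, h2⟩, h3⟩ := hr
    have := h3.facts hs hn (by linarith) h2 (hQ _ h1) (hτ _ h1) (hF _ h1) (hc _ h1) (hZ _ h1)
    rw [hv _ h1] at this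
    exact ⟨h1, h2, this⟩
  have hinj : ∀ r ∈ T, ∀ r' ∈ T, (r.2 - 1) * r.1 = (r'.2 - 1) * r'.1 → r.2 = r'.2 → r = r' :=
    fun r hr r' _ e1 e2 => by
      have := (mem_NP.1 (hTm r hr).2.1).2.1.two_le
      rw [← e2] at e1
      exact Prod.ext (Nat.eq_of_mul_eq_mul_left (by omega) e1) e2
  have h1 := collision T (fun r => (r.2 - 1) * r.1) Prod.snd hinj (fun v => 1 / (v : ℝ))
    fun _ => by positivity
  have h2 : mu (T.image fun r => (r.2 - 1) * r.1) ≤ mu (G s X n A) :=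
    mu_mono fun b hb => by
      obtain ⟨r, hr, rfl⟩ := mem_image.1 hb
      exact (hTm r hr).2.2.2.2.2
  have h3 : (Δ / 200 + 1) * mu (G s X (n + 1) (A - Δ)) ≤
      ∑ r ∈ T, 1 / (((r.2 - 1) * r.1 : ℕ) : ℝ) := by
    rw [hT, sum_filter, sum_product, mu, mul_sum]
    refine sum_le_sum fun v hv => ?_
    have h10 := h.ext_mass hΔ (Q := Q v) (by linarith [(th_le_Z _ _).trans (hZ v hv)])
    rw [← sum_filter]
    simp only [Nat.cast_mul, ← one_div_mul_one_div]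
    rw [← sum_mul]
    exact mul_le_mul_of_nonneg_right (by linarith) (by positivity)
  set Φ : ℕ × ℕ → Hf := fun r => (insert r.2 (Q r.1), 1, τ r.1) with hΦ
  have hΦv : ∀ r ∈ T, P031.hv (Φ r) = (r.2 - 1) * r.1 := fun r hr => by
    simp only [hΦ, P031.hv, one_mul]; exact (hTm r hr).2.2.2.2.1
  have hΦH : ∀ r ∈ T, Half s X 0 (Φ r) := fun r hr => by
    obtain ⟨h1, h2, -⟩ := hTm r hr
    refine ⟨insert_subset h2 (hQ _ h1), (card_insert_le _ _).trans ?_, hτ _ h1, Or.inl ⟨rfl, rfl⟩⟩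
    have := hc _ h1
    omega
  have hΦi : ∀ r ∈ T, ∀ r' ∈ T, Φ r = Φ r' → r = r' := fun r hr r' hr' e => by
    refine hinj r hr r' hr' (by rw [← hΦv r hr, ← hΦv r' hr', e]) ?_
    have e1 : insert r.2 (Q r.1) = insert r'.2 (Q r'.1) := congrArg Prod.fst e
    rcases mem_insert.1 (e1 ▸ mem_insert_self r.2 (Q r.1)) with h1 | h1
    · exact h1
    rcases mem_insert.1 (e1.symm ▸ mem_insert_self r'.2 (Q r'.1)) with h2 | h2
    · exact h2.symm
    exact absurd ((hTm r' hr').2.2.1 _ h1) (not_lt.2 ((hTm r hr).2.2.1 _ h2).le)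
  have h4 := h.col (ν := 0) (((T ×ˢ T).filter fun r => (r.1.2 - 1) * r.1.1 = (r.2.2 - 1) * r.2.1 ∧
    r.2.2 < r.1.2).image fun r => (Φ r.1, Φ r.2)) fun t ht => by
      obtain ⟨r, hr, rfl⟩ := mem_image.1 ht
      rw [mem_filter, mem_product] at hr
      obtain ⟨⟨h1, h2⟩, h3, h4⟩ := hr
      refine ⟨hΦH _ h1, hΦH _ h2, by rw [hΦv _ h1, hΦv _ h2, h3],
        fun _ => ⟨r.1.2, mem_insert_self _ _, fun h5 => ?_, fun q hq => ?_⟩, ?_⟩
      · rcases mem_insert.1 h5 with h5 | h5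
        · omega
        · have := (hTm _ h2).2.2.1 _ h5
          omega
      · rcases mem_insert.1 hq with h5 | h5
        · rw [h5]
        · exact lev_mono ((hTm _ h1).2.2.1 _ h5).le
      · simpa using (hTm _ h1).2.2.2.1
  rw [sum_image fun r hr r' hr' e => by
    rw [coe_filter] at hr hr'
    have h1 := mem_product.1 hr.1
    have h2 := mem_product.1 hr'.1
    exact Prod.ext (hΦi _ h1.1 _ h2.1 (congrArg Prod.fst e))
      (hΦi _ h1.2 _ h2.2 (congrArg Prod.snd e)),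
    sum_congr rfl fun r hr => by rw [hΦv _ (mem_product.1 (mem_filter.1 hr).1).1]] at h4
  have h5 := h4.trans (Real.exp_le_one_iff.2 (by push_cast; linarith))
  have h6 := h.one_le_mu_Tail.trans (mu_mono (tail_subset_G (X := X) hs (n := n + 1) (by omega)
    (show 0 ≤ A - Δ by linarith)))
  unfold mu at h2 h3 h6 ⊢
  linarith

/-- The boundary layer has small relative mass. -/
theorem Good.thin_layer (h : Good s X) :
    mu (G s X 0 (U s X + (s : ℝ) ^ 34) \ G s X 0 (U s X - (s : ℝ) ^ 34)) ≤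
      2 / s * mu (G s X 0 (U s X - (s : ℝ) ^ 34)) := by
  have hs := h.s_ge
  have p0 := sge hs
  have p1 := pw hs 34 36 (by norm_num)
  have p2 := pw hs 36 53 (by norm_num)
  have p3 := pw hs 53 54 (by norm_num)
  have p4 := pw hs 0 31 (by norm_num)
  have p5 := pw hs 31 34 (by norm_num)
  have hU : (s : ℝ) ^ 54 / 2 ≤ U s X := by unfold U; linarith [h.le_lev]
  set u := U s X
  set η := (s : ℝ) ^ 34 with hη
  set Δ := (s : ℝ) ^ 36 with hΔ
  have up : ∀ n ≤ 3, ∀ A B : ℝ, 0 ≤ A → A ≤ B → mu (G s X n B) ≤ mu (G s X n A) +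
      (6 * (B - A) + η) * mu (G s X (n + 1) (B + 81 * η)) := fun n hn A B h1 h2 => by
    have h3 := h.upper_layer hn h1 h2
    have h4 := mu_union_le (G s X n B \ G s X n A) (G s X n A)
    rw [sdiff_union_of_subset (G_mono n h2)] at h4
    linarith
  have h1 := h.upper_layer (n := 0) (by norm_num) (A := u - η) (B := u + η) (by linarith)
    (by linarith)
  have h2 := up 1 (by norm_num) (u - η - Δ) (u + η + 81 * η) (by linarith) (by linarith)
  have h3 := up 2 (by norm_num) (u - η - Δ - Δ) (u + η + 81 * η + 81 * η) (by linarith)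
    (by linarith)
  have h4 := mu_mono ((G_three (s := s) (X := X) (u + η + 81 * η + 81 * η + 81 * η)).trans
    (G_mono 2 (B := u - η - (s : ℝ) ^ 54 / 200 - (s : ℝ) ^ 54 / 200) (by linarith)))
  have h5 := h.lower_layer (n := 0) (by norm_num) (A := u - η) (Δ := Δ) (by linarith)
    (by linarith) (by linarith)
  have h6 := h.lower_layer (n := 1) (by norm_num) (A := u - η - Δ) (Δ := Δ) (by linarith)
    (by linarith) (by linarith)
  have h7 := h.lower_layer (n := 0) (by norm_num) (A := u - η) (Δ := (s : ℝ) ^ 54 / 200)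
    (by linarith) (by linarith) (by linarith)
  have h8 := h.lower_layer (n := 1) (by norm_num) (A := u - η - (s : ℝ) ^ 54 / 200)
    (Δ := (s : ℝ) ^ 54 / 200) (by linarith) (by linarith) (by linarith)
  simp only [zero_add, Nat.reduceAdd] at h1 h2 h3 h5 h6 h7 h8
  set m := mu (G s X 0 (u - η))
  have hm : 0 ≤ m := mu_nonneg _
  generalize mu (G s X 0 (u + η) \ G s X 0 (u - η)) = x0 at *
  have n1 := mu_nonneg (G s X 1 (u + η + 81 * η))
  have n2 := mu_nonneg (G s X 2 (u + η + 81 * η + 81 * η))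
  have n3 := mu_nonneg (G s X 3 (u + η + 81 * η + 81 * η + 81 * η))
  generalize mu (G s X 1 (u + η + 81 * η)) = x1 at *
  generalize mu (G s X 2 (u + η + 81 * η + 81 * η)) = x2 at *
  generalize mu (G s X 3 (u + η + 81 * η + 81 * η + 81 * η)) = x3 at *
  generalize mu (G s X 1 (u - η - Δ)) = y1 at *
  generalize mu (G s X 2 (u - η - Δ - Δ)) = y2 at *
  generalize mu (G s X 1 (u - η - (s : ℝ) ^ 54 / 200)) = z1 at *
  generalize mu (G s X 2 (u - η - (s : ℝ) ^ 54 / 200 - (s : ℝ) ^ 54 / 200)) = z2 at *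
  have hΔ0 : 0 < Δ := by positivity
  have e1 : Δ * y1 ≤ 200 * m := by linarith
  have e2 : Δ ^ 2 * y2 ≤ 40000 * m := by nlinarith [mul_le_mul_of_nonneg_left h6 hΔ0.le]
  have e3 : Δ ^ 3 * x3 ≤ 16 * 10 ^ 8 * m := by
    have e4 : Δ ^ 3 = (s : ℝ) ^ 54 * (s : ℝ) ^ 54 := by rw [hΔ]; ring
    have e5 : (0 : ℝ) ≤ (s : ℝ) ^ 54 := by positivity
    have e6 := mul_le_mul_of_nonneg_left h8 e5
    have e7 := mul_le_mul_of_nonneg_left h4 (mul_nonneg e5 e5)
    rw [e4]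
    nlinarith
  have e4 : x2 ≤ y2 + 13 * Δ * x3 :=
    h3.trans (add_le_add_right (mul_le_mul_of_nonneg_right (by linarith) n3) _)
  have e5 : x1 ≤ y1 + 7 * Δ * x2 :=
    h2.trans (add_le_add_right (mul_le_mul_of_nonneg_right (by linarith) n2) _)
  have e6 : x0 ≤ 13 * η * x1 := h1.trans (mul_le_mul_of_nonneg_right (by linarith) n1)
  have e7 : Δ ^ 2 * x2 ≤ 21 * 10 ^ 9 * m := by
    nlinarith [mul_le_mul_of_nonneg_left e4 (sq_nonneg Δ)]
  have e8 : Δ * x1 ≤ 148 * 10 ^ 9 * m := by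
    nlinarith [mul_le_mul_of_nonneg_left e5 hΔ0.le]
  have e9 : Δ = (s : ℝ) ^ 2 * η := by rw [hΔ, hη]; ring
  have e10 : (s : ℝ) ^ 2 * x0 ≤ 13 * (148 * 10 ^ 9 * m) := by
    have := mul_le_mul_of_nonneg_left e6 (sq_nonneg (s : ℝ))
    rw [e9] at e8
    nlinarith
  rw [div_mul_eq_mul_div, le_div_iff₀ (by linarith)]
  refine le_of_mul_le_mul_right ?_ (by linarith : (0 : ℝ) < s)
  nlinarith

end Vale.Agent.P031
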