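import Vale.Agent.P031.Upper

/-! The lower bound for the number of totient values. -/

open Finset

namespace Vale.Agent.P031

variable {s X : ℕ}

theorem val_totient {τ : ℕ} (hτ : τ ∈ Tail s X) (Q : Finset ℕ) (hQ : Q ⊆ NP s X) :
    ∃ n, 1 ≤ n ∧ n.totient = val Q τ ∧ ∀ r, r.Prime → r ∣ n → lev r ≤ W s ∨ r ∈ Q := by
  induction Q using Finset.induction_on with
  | empty =>
    obtain ⟨-, n, h1, h2, h3, -⟩ := mem_Tail.1 hτ
    exact ⟨n, h1, by simpa [val] using h2, fun r hr hd => Or.inl (h3 r hr hd)⟩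
  | insert q Q hq ih =>
    obtain ⟨n, h1, h2, h3⟩ := ih ((subset_insert _ _).trans hQ)
    obtain ⟨-, h4, -, h5⟩ := mem_NP.1 (hQ (mem_insert_self _ _))
    refine ⟨q * n, Nat.mul_pos h4.pos h1, ?_, fun r hr hd => ?_⟩
    · rw [Nat.totient_mul ((Nat.Prime.coprime_iff_not_dvd h4).2 fun h =>
        (h3 q h4 h).elim (not_le.2 h5) hq), Nat.totient_prime h4, h2, val_insert hq]
    · rcases (Nat.Prime.dvd_mul hr).1 hd with h | h
      · exact Or.inr ((Nat.prime_dvd_prime_iff_eq hr h4).1 h ▸ mem_insert_self _ _)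
      · exact (h3 r hr h).imp_right mem_insert_of_mem

theorem Good.mem_MM (h : Good s X) {y m : ℕ} (hy : L X ≤ L (y + 1) + s) (hm : m ∈ MM s X) :
    ∃ r : Finset ℕ × ℕ, r.1 ⊆ NP s X ∧ r.2 ∈ Tail s X ∧ #r.1 ≤ s + 4 ∧ val r.1 r.2 = m ∧
      gam s X r.1 1 ≤ U s X - (s : ℝ) ^ 34 ∧ (∀ q ∈ r.1, q ≤ y) ∧
      ∀ p, p.Prime → p ∣ m → p ≤ y := by
  obtain ⟨Q, τ, h1, h2, -, h3, h4, h5⟩ := mem_G.1 hm
  have h6 : ∀ p, (lev p ≤ W s ∨ ∃ q ∈ Q, p ≤ q) → p ≤ y := fun p hp => by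
    have := h.low_of ((le_max_left _ _).trans h4) hp
    by_contra h7
    linarith [L_mono (Nat.succ_le_of_lt (not_le.1 h7))]
  exact ⟨(Q, τ), h1, h2, by simp only; omega, h5, (le_max_right _ _).trans h4,
    fun q hq => h6 q (Or.inr ⟨q, hq, le_rfl⟩),
    fun p hp hd => h6 p (lev_le_of_dvd_val h1 h2 hp (h5 ▸ hd))⟩

theorem Good.MM_le (h : Good s X) {Y m : ℕ} (hY : X ≤ Y ^ 8) (hm : m ∈ MM s X) : m ≤ Y := by
  obtain ⟨Q, τ, h1, h2, -, h3, h4, rfl⟩ := mem_G.1 hm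
  exact h.val_le h1 (by omega) h2 ((le_max_left _ _).trans h4) hY

open Classical in
/-- Pairs of a cofactor and a good prime. -/
noncomputable def Pairs (s X y N : ℕ) : Finset (ℕ × ℕ) := (MM s X ×ˢ NP s X).filter fun r =>
  (r.2 - 1) * r.1 ≤ N ∧ ∃ c : ℕ × ℕ, c.2.Prime ∧ y < c.2 ∧ r.2 = c.1 * c.2 + 1

theorem mem_Pairs {y N : ℕ} {r : ℕ × ℕ} : r ∈ Pairs s X y N ↔ r.1 ∈ MM s X ∧ r.2 ∈ NP s X ∧
    (r.2 - 1) * r.1 ≤ N ∧ ∃ c : ℕ × ℕ, c.2.Prime ∧ y < c.2 ∧ r.2 = c.1 * c.2 + 1 := by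
  classical
  rw [Pairs, mem_filter, mem_product, and_assoc]

theorem Good.pairs_mem_Tot (h : Good s X) {y N : ℕ} (hy : L X ≤ L (y + 1) + s) {r : ℕ × ℕ}
    (hr : r ∈ Pairs s X y N) : (r.2 - 1) * r.1 ∈ Tot (N + 1) := by
  obtain ⟨h1, h2, h3, c, h4, h5, h6⟩ := mem_Pairs.1 hr
  obtain ⟨⟨Q, τ⟩, g1, g2, -, g3, -, g4, -⟩ := h.mem_MM hy h1
  obtain ⟨n, h7, h8, -⟩ := val_totient g2 (insert r.2 Q) (insert_subset h2 g1)
  have h9 : c.1 ≠ 0 := by
    rintro h0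
    rw [h0] at h6
    have := (mem_NP.1 h2).2.1.two_le
    omega
  have h10 := Nat.le_mul_of_pos_left c.2 (Nat.pos_of_ne_zero h9)
  rw [val_insert fun h' => by have := g4 _ h'; omega, g3] at h8
  exact mem_Tot.2 ⟨by omega, n, h7, h8⟩

theorem Good.coll_card (h : Good s X) {y N : ℕ} (hy : L X ≤ L (y + 1) + s) (hN : N < X)
    (T : Finset ((ℕ × ℕ) × ℕ × ℕ)) (hT : ∀ r ∈ T, r.1 ∈ Pairs s X y N ∧ r.2 ∈ Pairs s X y N ∧
      (r.1.2 - 1) * r.1.1 = (r.2.2 - 1) * r.2.1 ∧ r.2.2 < r.1.2) : (#T : ℝ) ≤ EE s X := by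
  classical
  have hs := h.s_ge
  have key1 := fun m (hm : m ∈ MM s X) => h.mem_MM hy hm
  choose! ρ hρ1 hρ2 hρ3 hρ4 hρ5 hρ6 hρ7 using key1
  have key2 : ∀ r ∈ T, ∃ c : ℕ × ℕ × ℕ, c.1.Prime ∧ y < c.1 ∧ r.1.2 = c.2.1 * c.1 + 1 ∧
      r.2.2 = c.2.2 * c.1 + 1 := fun r hr => by
    obtain ⟨h1, h2, h3, -⟩ := hT r hr
    obtain ⟨-, -, -, c, h4, h5, h6⟩ := mem_Pairs.1 h1
    obtain ⟨h7, h8, -⟩ := mem_Pairs.1 h2
    have h9 : c.2 ∣ (r.2.2 - 1) * r.2.1 := by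
      rw [← h3, h6, Nat.add_sub_cancel]; exact (dvd_mul_left _ _).mul_right _
    obtain ⟨a', ha'⟩ := ((Nat.Prime.dvd_mul h4).1 h9).resolve_right fun h' =>
      absurd (hρ7 _ h7 _ h4 h') (not_le.2 h5)
    have := (mem_NP.1 h8).2.1.two_le
    exact ⟨(c.2, c.1, a'), h4, h5, h6, by rw [mul_comm, ← ha']; omega⟩
  choose! c hc1 hc2 hc3 hc4 using key2
  set Φ : (ℕ × ℕ) × ℕ × ℕ → Hf × Hf := fun r => (((ρ r.1.1).1, (c r).2.1, (ρ r.1.1).2),
    ((ρ r.2.1).1, (c r).2.2, (ρ r.2.1).2)) with hΦ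
  have hv1 : ∀ r ∈ T, hv (Φ r).1 * (c r).1 = (r.1.2 - 1) * r.1.1 := fun r hr => by
    simp only [hΦ, hv]
    rw [hρ4 _ (mem_Pairs.1 (hT r hr).1).1, hc3 r hr, Nat.add_sub_cancel]; ring
  have hv2 : ∀ r ∈ T, hv (Φ r).2 * (c r).1 = (r.2.2 - 1) * r.2.1 := fun r hr => by
    simp only [hΦ, hv]
    rw [hρ4 _ (mem_Pairs.1 (hT r hr).2.1).1, hc4 r hr, Nat.add_sub_cancel]; ring
  have hcol : ∀ r ∈ T, Col s X 1 (Φ r) := fun r hr => by
    obtain ⟨h1, h2, h3, -⟩ := hT r hr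
    obtain ⟨a1, a2, -⟩ := mem_Pairs.1 h1
    obtain ⟨b1, b2, -⟩ := mem_Pairs.1 h2
    refine ⟨⟨hρ1 _ a1, hρ3 _ a1, hρ2 _ a1, Or.inr ⟨rfl, _, a2, ?_⟩⟩,
      ⟨hρ1 _ b1, hρ3 _ b1, hρ2 _ b1, Or.inr ⟨rfl, _, b2, ?_⟩⟩, ?_, by simp,
      by simpa using hρ5 _ a1⟩
    · rw [hc3 r hr, Nat.add_sub_cancel]; exact dvd_mul_right _ _
    · rw [hc4 r hr, Nat.add_sub_cancel]; exact dvd_mul_right _ _
    · exact Nat.eq_of_mul_eq_mul_right (hc1 r hr).pos (by rw [hv1 r hr, hv2 r hr, h3])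
  have h1 := fiber_le T Φ (fun r => (c r).1) (fun r hr r' hr' e1 e2 => by
      simp only [hΦ, Prod.mk.injEq] at e1
      obtain ⟨⟨a1, a2, a3⟩, b1, b2, b3⟩ := e1
      refine Prod.ext (Prod.ext ?_ ?_) (Prod.ext ?_ ?_)
      · rw [← hρ4 _ (mem_Pairs.1 (hT r hr).1).1, ← hρ4 _ (mem_Pairs.1 (hT r' hr').1).1, a1, a3]
      · rw [hc3 r hr, hc3 r' hr', a2, e2]
      · rw [← hρ4 _ (mem_Pairs.1 (hT r hr).2.1).1, ← hρ4 _ (mem_Pairs.1 (hT r' hr').2.1).1, b1, b3]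
      · rw [hc4 r hr, hc4 r' hr', b2, e2])
    (fun _ => 1) (fun _ => 1) (fun _ => 1)
    (fun t => X * Real.exp (-3 * L X + 2 * (s : ℝ) ^ 2) * (1 / (hv t.1 : ℝ)))
    (fun _ _ => by norm_num) fun t ht V hV => by
      obtain ⟨r0, hr0, rfl⟩ := mem_image.1 ht
      have hle : ∀ r ∈ T, (c r).1 ≤ N / hv (Φ r).1 := fun r hr => by
        rw [Nat.le_div_iff_mul_le (Nat.pos_of_ne_zero (hcol r hr).left.hv_ne), mul_comm, hv1 r hr]
        exact (mem_Pairs.1 (hT r hr).1).2.2.1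
      have hL1 : L (y + 1) ≤ L (N / hv (Φ r0).1) := L_mono ((hc2 r0 hr0).trans_le (hle r0 hr0))
      have hne : (c r0).2.1 ≠ (c r0).2.2 := fun e => by
        have := (hT r0 hr0).2.2.2
        rw [hc3 r0 hr0, hc4 r0 hr0, e] at this
        exact lt_irrefl _ this
      have p1 := pw1 hs 2 (by norm_num)
      have p0 := sge hs
      have h7 := h.sieve {(c r0).2.1, (c r0).2.2} card_le_two (fun α hα => by
          have a1 := (mem_NP.1 (mem_Pairs.1 (hT r0 hr0).1).2.1).1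
          have a2 := (hT r0 hr0).2.2.2
          have a3 := hc3 r0 hr0
          have a4 := hc4 r0 hr0
          have a5 := Nat.le_mul_of_pos_right (c r0).2.1 (hc1 r0 hr0).pos
          have a6 := Nat.le_mul_of_pos_right (c r0).2.2 (hc1 r0 hr0).pos
          rcases mem_insert.1 hα with rfl | hα
          · exact ⟨(hcol r0 hr0).left.free_ne, by omega⟩
          · rw [mem_singleton.1 hα]
            exact ⟨(hcol r0 hr0).right.free_ne, by omega⟩) (N := N / hv (Φ r0).1)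
        ((Nat.div_le_self _ _).trans (by omega))
        (by linarith [h.lo, pw1 hs 54 (by norm_num)]) V fun β hβ => by
          obtain ⟨r, hr, e1, rfl⟩ := hV β hβ
          refine ⟨e1 ▸ hle r hr, hc1 r hr, fun α hα => ?_⟩
          have a1 : (c r).2.1 = (c r0).2.1 := congrArg (fun t => t.1.2.1) e1
          have a2 : (c r).2.2 = (c r0).2.2 := congrArg (fun t => t.2.2.1) e1
          rcases mem_insert.1 hα with rfl | hα
          · rw [← a1, ← hc3 r hr]; exact (mem_NP.1 (mem_Pairs.1 (hT r hr).1).2.1).2.1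
          · rw [mem_singleton.1 hα, ← a2, ← hc4 r hr]
            exact (mem_NP.1 (mem_Pairs.1 (hT r hr).2.1).2.1).2.1
      rw [one_mul, sum_const, nsmul_eq_mul, mul_one, mul_right_comm, mul_one_div]
      refine h7.trans (mul_le_mul (Nat.cast_div_le.trans (div_le_div_of_nonneg_right
        (by exact_mod_cast hN.le) (Nat.cast_nonneg _))) (Real.exp_le_exp.2 ?_) (by positivity)
        (by positivity))
      rw [card_pair hne]; push_cast; linarith
  rw [sum_const, nsmul_eq_mul, mul_one, ← mul_sum, mul_assoc] at h1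
  refine h1.trans (le_trans (mul_le_mul_of_nonneg_left (mul_le_mul_of_nonneg_left
    (h.col (ν := 1) _ fun t ht => ?_) (Real.exp_pos _).le) (Nat.cast_nonneg X)) ?_)
  · obtain ⟨r, hr, rfl⟩ := mem_image.1 ht
    exact hcol r hr
  · rw [← Real.exp_add]
    refine h.unit' ?_
    push_cast
    linarith [lev_le_L X, pw hs 2 34 (by norm_num), pw1 hs 2 (by norm_num), sge hs]

theorem Good.pairs_le (h : Good s X) {y N : ℕ} (hy : L X ≤ L (y + 1) + s) (hN : N < X) :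
    (#(Pairs s X y N) : ℝ) ≤ #(Tot (N + 1)) + EE s X := by
  classical
  have h1 := collision (Pairs s X y N) (fun r => (r.2 - 1) * r.1) Prod.snd
    (fun r hr r' _ e1 e2 => by
      have := (mem_NP.1 (mem_Pairs.1 hr).2.1).2.1.two_le
      rw [← e2] at e1
      exact Prod.ext (Nat.eq_of_mul_eq_mul_left (by omega) e1) e2) (fun _ => 1)
    fun _ => zero_le_one
  simp only [sum_const, nsmul_eq_mul, mul_one] at h1
  refine h1.trans (add_le_add (Nat.cast_le.2 (card_le_card fun v hv => ?_))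
    (h.coll_card hy hN _ fun r hr => ?_))
  · obtain ⟨r, hr, rfl⟩ := mem_image.1 hv
    exact h.pairs_mem_Tot hy hr
  · rw [mem_filter, mem_product] at hr
    exact ⟨hr.1.1, hr.1.2, hr.2⟩

open Classical in
theorem Good.primes_split (h : Good s X) {y Y N m : ℕ} (hy : L X ≤ L (y + 1) + s)
    (hy1 : y ^ R s < X) (hy2 : 2 ≤ y) (hY : X ≤ Y ^ 8) (hN : N < X) (hm : m ∈ MM s X) :
    (Nat.primeCounting (N / m + 1) : ℝ) ≤ #((Pairs s X y N).filter fun r => r.1 = m) + (Y + 1) +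
      #((range (N / m + 2)).filter fun p => (p.Prime ∧ ¬ Normal s p) ∧ y < p) +
      X * Real.exp (-(s : ℝ) ^ 56 / 100) * (1 / (m : ℝ)) := by
  have hm0 := Nat.pos_of_ne_zero (ne_zero_of_mem_G hm)
  have hd := Nat.div_le_self N m
  have c1 : Bd (N / m + 1).primesLE (fun p => (m, p) ∈ Pairs s X y N)
      #((Pairs s X y N).filter fun r => r.1 = m) := fun V _ h' => by
    refine Nat.cast_le.2 (card_le_card_of_injOn (fun p => (m, p)) (fun p hp => ?_)
      fun p _ q _ e => (Prod.ext_iff.1 e).2)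
    exact mem_coe.2 (mem_filter.2 ⟨h' p hp, rfl⟩)
  have c2 : Bd (N / m + 1).primesLE (fun p => p ≤ Y) (Y + 1) := fun V _ h' => by
    have := card_le_card (t := range (Y + 1)) fun p hp => mem_range.2 (Nat.lt_succ_of_le (h' p hp))
    rw [card_range] at this
    exact_mod_cast this
  have c3 : Bd (N / m + 1).primesLE (fun p => (p.Prime ∧ ¬ Normal s p) ∧ y < p)
      #((range (N / m + 2)).filter fun p => (p.Prime ∧ ¬ Normal s p) ∧ y < p) := fun V hV h' =>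
    Nat.cast_le.2 (card_le_card fun p hp => mem_filter.2 ⟨mem_range.2
      (Nat.lt_succ_of_le (Nat.le_of_mem_primesLE (hV hp))), h' p hp⟩)
  have c4 : Bd (N / m + 1).primesLE (fun p => Y < p ∧ ∀ r, r.Prime → r ∣ p - 1 → r ≤ y)
      (X * Real.exp (-(s : ℝ) ^ 56 / 100) * (1 / (m : ℝ))) := fun V hV h' => by
    have h1 : ∀ p ∈ V, 2 ≤ p ∧ p ≤ N / m + 1 := fun p hp =>
      ⟨Nat.two_le_of_mem_primesLE (hV hp), Nat.le_of_mem_primesLE (hV hp)⟩
    rw [← card_image_of_injOn (f := (· - 1)) fun q hq q' hq' he => by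
      have := h1 q hq
      have := h1 q' hq'
      simp only at he
      omega, mul_right_comm, mul_one_div]
    refine (card_le_mul_mu (X := N / m) fun k hk => ?_).trans (mul_le_mul
      (Nat.cast_div_le.trans (div_le_div_of_nonneg_right (by exact_mod_cast hN.le)
        (Nat.cast_nonneg _))) (smooth_mass h.s_ge (h.L_le (t := X) (by omega)) hy2 _
        fun k hk => ?_) (mu_nonneg _) (by positivity))
    · obtain ⟨p, hp, rfl⟩ := mem_image.1 hk
      have := h1 p hp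
      omega
    · obtain ⟨p, hp, rfl⟩ := mem_image.1 hk
      have := h1 p hp
      have := (h' p hp).1
      exact ⟨by omega, by omega, (h' p hp).2, hy1.le.trans (hY.trans
        (Nat.pow_le_pow_left (by omega) 8))⟩
  have := (((c1.or c2).or c3).or c4) _ Subset.rfl fun p hp => by
    obtain ⟨h1, h2⟩ := Nat.mem_primesLE.1 hp
    by_cases h3 : p ≤ Y
    · exact Or.inl (Or.inl (Or.inr h3))
    by_cases h4 : ∀ r, r.Prime → r ∣ p - 1 → r ≤ y
    · exact Or.inr ⟨not_le.1 h3, h4⟩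
    push Not at h4
    obtain ⟨β, h4, ⟨a, h5⟩, h6⟩ := h4
    have h7 := h2.two_le
    have h8 : y < p := h6.trans_le ((Nat.le_of_dvd (by omega) ⟨a, h5⟩).trans (Nat.sub_le p 1))
    by_cases h9 : Normal s p
    · refine Or.inl (Or.inl (Or.inl (mem_Pairs.2 ⟨hm, mem_NP.2 ⟨by omega, h2, h9,
        h.W_lt_lev hy h8⟩, ?_, (a, β), h4, h6, by rw [mul_comm, ← h5]; omega⟩)))
      exact (Nat.le_div_iff_mul_le hm0).1 (by simp only; omega)
    · exact Or.inl (Or.inr ⟨⟨h2, h9⟩, h8⟩)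
  rwa [Nat.primesLE_card_eq_primeCounting] at this

theorem Good.lower (h : Good s X) {N : ℕ} (hN : N < X) :
    ∑ m ∈ MM s X, (Nat.primeCounting (N / m + 1) : ℝ) ≤ #(Tot (N + 1)) + 200 * EE s X := by
  classical
  have hs := h.s_ge
  have p0 := sge hs
  have p1 := pw1 hs 3 (by norm_num)
  have p4 := pw1 hs 55 (by norm_num)
  have p6 := pw hs 55 56 (by norm_num)
  have p7 := pw hs 56 58 (by norm_num)
  have hLX := h.L_le (t := X) (by omega)
  obtain ⟨y, hy1, hy2, hy3⟩ := exists_root_R hs (t := X)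
    (by linarith [h.lo, pw1 hs 54 (by norm_num)])
  have hy4 := two_le_of_exp hs hy3
  obtain ⟨Y, hY1, -, hY3⟩ := exists_root8 hs h.big
  have h1 := sum_le_sum fun m hm => h.primes_split hy2 hy1 hy4 hY1 hN hm
  simp only [sum_add_distrib, ← mul_sum] at h1
  have h2 : ∑ m ∈ MM s X, (#((Pairs s X y N).filter fun r => r.1 = m) : ℝ) =
      #(Pairs s X y N) := by
    exact_mod_cast (card_eq_sum_card_fiberwise (f := Prod.fst)
      fun r hr => (mem_Pairs.1 hr).1).symm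
  have h3 : ∑ m ∈ MM s X, (Y : ℝ) + ∑ m ∈ MM s X, (1 : ℝ) ≤ EE s X := by
    have h4 : #(MM s X) ≤ Y + 1 := by
      rw [← card_range (Y + 1)]
      exact card_le_card fun m hm => mem_range.2 (Nat.lt_succ_of_le (h.MM_le hY1 hm))
    have h5 : (#(MM s X) : ℝ) ≤ Y + 1 := by exact_mod_cast h4
    have h6 : (0 : ℝ) ≤ Y := Nat.cast_nonneg Y
    refine le_trans ?_ (hY3.trans (h.unit' (by linarith)))
    rw [← sum_add_distrib, sum_const, nsmul_eq_mul]
    refine (mul_le_mul_of_nonneg_right h5 (by linarith)).trans ?_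
    rw [← sq]
    exact pow_le_pow_right₀ (by linarith) (by norm_num)
  have h4 := (count_pairs (MM s X) (fun m hm => ne_zero_of_mem_G hm) _ (by omega) hN
    (Real.exp_pos _).le (h.abn_card' hy2)).trans (show _ ≤ 2 * EE s X by
      have := mul_le_mul_of_nonneg_right (h.unit (a := -L X - (s : ℝ) ^ 3) (by linarith))
        (mu_nonneg (MM s X))
      unfold EE; linarith)
  have h5 := mul_le_mul_of_nonneg_right (h.unit (a := -(s : ℝ) ^ 56 / 100) (by linarith))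
    (mu_nonneg (MM s X))
  have h6 := h.pairs_le hy2 hN
  have h7 := (show 0 ≤ X * Real.exp (-L X - s) by positivity).trans (h.unit' le_rfl)
  unfold EE mu at *
  linarith

end Vale.Agent.P031
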