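import Vale.Agent.P031.Add

/-! Crude Mertens-type estimates and Euler products. -/

open Finset

namespace Vale.Agent.P031

theorem L_nonneg (t : ℕ) : 0 ≤ L t := sum_nonneg fun _ _ => by positivity

theorem L_mono {a b : ℕ} (h : a ≤ b) : L a ≤ L b :=
  sum_le_sum_of_subset_of_nonneg (Nat.primesLE_mono h) fun _ _ _ => by positivity

theorem lev_mono {a b : ℕ} (h : a ≤ b) : lev a ≤ lev b := Nat.floor_mono (L_mono h)

theorem lev_le_L (t : ℕ) : (lev t : ℝ) ≤ L t := Nat.floor_le (L_nonneg t)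

theorem L_lt_lev (t : ℕ) : L t < lev t + 1 := Nat.lt_floor_add_one _

theorem lt_of_lev_lt {a b : ℕ} (h : lev a < lev b) : a < b :=
  lt_of_not_ge fun h' => absurd (lev_mono h') (not_le.2 h)

theorem L_two : L 2 = 1 / 2 := by
  have : Nat.primesLE 2 = {2} := by decide
  simp [L, this]

theorem lev_two : lev 2 = 0 := by
  rw [lev, L_two, Nat.floor_eq_zero]; norm_num

theorem sum_inv_sq_primes_le (t : ℕ) : ∑ p ∈ t.primesLE, 1 / (p : ℝ) ^ 2 ≤ 1 := by
  have h1 : t.primesLE ⊆ Ioo 1 (t + 1) := fun p hp => by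
    have := Nat.one_lt_of_mem_primesLE hp
    have := Nat.le_of_mem_primesLE hp
    rw [mem_Ioo]; omega
  have h2 := sum_Ioo_inv_sq_le (α := ℝ) 1 (t + 1)
  refine (sum_le_sum_of_subset_of_nonneg h1 fun _ _ _ => by positivity).trans ?_
  simp only [one_div]
  refine h2.trans (by norm_num)

theorem inv_one_sub_le {x : ℝ} (h0 : 0 ≤ x) (h1 : x ≤ 3 / 4) :
    (1 - x)⁻¹ ≤ Real.exp (x + 4 * x ^ 2) := by
  have h2 : 0 < 1 - x := by linarith
  refine le_trans ?_ (Real.add_one_le_exp _)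
  rw [inv_le_iff_one_le_mul₀ h2]
  nlinarith [mul_nonneg (mul_nonneg h0 h0) (sub_nonneg.2 h1)]

/-- The basic Euler product bound. -/
theorem euler_le (t : ℕ) {g : ℕ → ℝ} {M : ℝ} (h0 : ∀ p, 0 ≤ g p)
    (h1 : ∀ p, p.Prime → p ≤ t → g p ≤ 3 / 4 * p) (hM : ∀ p, g p ≤ M) (S : Finset ℕ)
    (hS : ∀ n ∈ S, n ≠ 0 ∧ ∀ p, p.Prime → p ∣ n → p ≤ t) :
    ∑ n ∈ S, mlt g n / n ≤ Real.exp (∑ p ∈ t.primesLE, g p / p + 4 * M ^ 2) := by
  set g' : ℕ → ℝ := fun p => if p ≤ t then g p else 0 with hg'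
  have h0' : ∀ p, 0 ≤ g' p := fun p => by simp only [hg']; split_ifs; exacts [h0 p, le_rfl]
  let f : ℕ →* ℝ := ⟨⟨fun n => mlt g' n / n, by simp [mlt_one]⟩, fun a b => by
    rcases eq_or_ne a 0 with rfl | ha
    · simp
    rcases eq_or_ne b 0 with rfl | hb
    · simp
    simp only
    rw [mlt_mul g' ha hb]; push_cast; rw [mul_div_mul_comm]⟩
  have hf : ∀ n, f n = mlt g' n / n := fun _ => rfl
  have hfp : ∀ p, p.Prime → 0 ≤ f p ∧ f p ≤ 3 / 4 := fun p hp => by
    have hp0 : (0 : ℝ) < p := by exact_mod_cast hp.pos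
    rw [hf, mlt_prime _ hp]
    refine ⟨div_nonneg (h0' p) hp0.le, ?_⟩
    rw [div_le_iff₀ hp0]
    simp only [hg']
    split_ifs with h
    · exact h1 p hp h
    · positivity
  have h := (EulerProduct.summable_and_hasSum_factoredNumbers_prod_filter_prime_geometric
    (f := f) (fun {p} hp => by
      rw [Real.norm_eq_abs, abs_of_nonneg (hfp p hp).1]; linarith [(hfp p hp).2]) t.primesLE).2
  have h2 := sum_le_hasSum (S.subtype (· ∈ Nat.factoredNumbers t.primesLE))
    (fun i _ => by rw [hf]; exact div_nonneg (mlt_nonneg h0' _) (by positivity)) h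
  rw [sum_subtype_of_mem (fun n => f n) fun n hn => Nat.mem_factoredNumbers'.2
    fun p hp hd => Nat.mem_primesLE.2 ⟨(hS n hn).2 p hp hd, hp⟩] at h2
  have h3 : ∑ n ∈ S, mlt g n / n = ∑ n ∈ S, f n := sum_congr rfl fun n hn => by
    rw [hf, mlt_congr (g := g') fun p hp hd => by simp [hg', (hS n hn).2 p hp hd]]
  rw [h3]
  refine h2.trans ?_
  rw [filter_true_of_mem fun p hp => Nat.prime_of_mem_primesLE hp]
  calc _ ≤ ∏ p ∈ t.primesLE, Real.exp (g p / p + 4 * M ^ 2 * (1 / (p : ℝ) ^ 2)) := by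
        refine prod_le_prod (fun p hp => ?_) fun p hp => ?_
        · have := hfp p (Nat.prime_of_mem_primesLE hp)
          exact inv_nonneg.2 (by linarith [this.2])
        · have hp' := Nat.prime_of_mem_primesLE hp
          have := hfp p hp'
          refine (inv_one_sub_le this.1 this.2).trans (Real.exp_le_exp.2 ?_)
          have e : f p = g p / p := by
            rw [hf, mlt_prime _ hp']; simp [hg', Nat.le_of_mem_primesLE hp]
          rw [e, div_pow, mul_one_div, mul_div_assoc]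
          have : g p ^ 2 / (p : ℝ) ^ 2 ≤ M ^ 2 / (p : ℝ) ^ 2 :=
            div_le_div_of_nonneg_right (pow_le_pow_left₀ (h0 p) (hM p) 2) (by positivity)
          linarith
    _ ≤ _ := by
        rw [← Real.exp_sum, sum_add_distrib, ← mul_sum]
        refine Real.exp_le_exp.2 ?_
        nlinarith [sum_inv_sq_primes_le t, sq_nonneg M]

theorem mlt_const_one (n : ℕ) : mlt (fun _ => 1) n = 1 := by simp [mlt]

theorem mu_le_exp {t : ℕ} {S : Finset ℕ} (hS : ∀ n ∈ S, n ≠ 0 ∧ n ≤ t) :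
    mu S ≤ Real.exp (L t + 4) := by
  have := euler_le t (g := fun _ => 1) (M := 1) (fun _ => zero_le_one) (fun p hp _ => by
    have : (2 : ℝ) ≤ p := by exact_mod_cast hp.two_le
    linarith) (fun _ => le_rfl) S fun n hn => ⟨(hS n hn).1, fun p _ hd =>
      (Nat.le_of_dvd (Nat.pos_of_ne_zero (hS n hn).1) hd).trans (hS n hn).2⟩
  simpa [mlt_const_one, mu, L] using this

theorem log_le_exp (t : ℕ) : Real.log (t + 1) ≤ Real.exp (L t + 4) := by
  refine le_trans ?_ (mu_le_exp (t := t) (S := Icc 1 t) fun n hn => by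
    rw [mem_Icc] at hn; omega)
  have := log_add_one_le_harmonic t
  simp only [harmonic_eq_sum_Icc, Rat.cast_sum, Rat.cast_inv, Rat.cast_natCast] at this
  simpa [mu] using this

theorem sum_prime_Ioc_add (f : ℕ → ℝ) {a b c : ℕ} (hab : a ≤ b) (hbc : b ≤ c) :
    ∑ p ∈ (Ioc a b).filter Nat.Prime, f p + ∑ p ∈ (Ioc b c).filter Nat.Prime, f p
      = ∑ p ∈ (Ioc a c).filter Nat.Prime, f p := by
  simp only [sum_filter]
  exact sum_Ioc_consecutive _ hab hbc

theorem theta_nat (n : ℕ) :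
    Chebyshev.theta n = ∑ p ∈ (Ioc 0 n).filter Nat.Prime, Real.log p := by
  simp [Chebyshev.theta]

theorem sum_log_Ioc {a b : ℕ} (hab : a ≤ b) :
    ∑ p ∈ (Ioc a b).filter Nat.Prime, Real.log p = Chebyshev.theta b - Chebyshev.theta a := by
  rw [theta_nat, theta_nat, ← sum_prime_Ioc_add _ (Nat.zero_le a) hab]; ring

theorem sum_inv_dyadic_le {j : ℕ} (hj : 1 ≤ j) :
    ∑ p ∈ (Ioc (2 ^ j) (2 ^ (j + 1))).filter Nat.Prime, 1 / (p : ℝ) ≤ 4 / j := by
  have hl2 : 0 < Real.log 2 := Real.log_pos (by norm_num)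
  have hjr : (0 : ℝ) < j := by exact_mod_cast hj
  calc _ ≤ ∑ p ∈ (Ioc (2 ^ j) (2 ^ (j + 1))).filter Nat.Prime,
        Real.log p / (2 ^ j * (j * Real.log 2)) := by
        refine sum_le_sum fun p hp => ?_
        have h1 : 2 ^ j < p := (mem_Ioc.1 (mem_filter.1 hp).1).1
        have h2 : (2 : ℝ) ^ j ≤ p := by exact_mod_cast h1.le
        have h3 : j * Real.log 2 ≤ Real.log p := by
          rw [← Real.log_pow]; exact Real.log_le_log (by positivity) h2
        have h4 : (0 : ℝ) < 2 ^ j := by positivity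
        rw [div_le_div_iff₀ (h4.trans_le h2) (by positivity), one_mul, mul_comm (Real.log p)]
        exact mul_le_mul h2 h3 (by positivity) (by positivity)
    _ ≤ (Real.log 4 * (2 ^ (j + 1) : ℕ)) / (2 ^ j * (j * Real.log 2)) := by
        rw [← sum_div, sum_log_Ioc (Nat.pow_le_pow_right (by norm_num) (Nat.le_succ j))]
        refine div_le_div_of_nonneg_right ?_ (by positivity)
        have := Chebyshev.theta_le_log4_mul_x (x := ((2 ^ (j + 1) : ℕ) : ℝ)) (by positivity)
        linarith [Chebyshev.theta_nonneg ((2 ^ j : ℕ) : ℝ)]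
    _ = _ := by
        rw [show (4 : ℝ) = 2 ^ 2 by norm_num, Real.log_pow]
        push_cast
        field_simp
        ring

theorem sum_inv_pow_le {a : ℕ} (ha : 1 ≤ a) (r : ℕ) :
    ∑ p ∈ (Ioc (2 ^ a) (2 ^ (a + r))).filter Nat.Prime, 1 / (p : ℝ) ≤ 4 * r / a := by
  have har : (0 : ℝ) < a := by exact_mod_cast ha
  induction r with
  | zero => simp
  | succ r ih =>
    rw [← sum_prime_Ioc_add (fun p => 1 / (p : ℝ)) (b := 2 ^ (a + r))
      (Nat.pow_le_pow_right (by norm_num) (by omega))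
      (Nat.pow_le_pow_right (by norm_num) (by omega))]
    have h1 := sum_inv_dyadic_le (j := a + r) (by omega)
    have h2 : (4 : ℝ) / ((a + r : ℕ) : ℝ) ≤ 4 / a :=
      div_le_div_of_nonneg_left (by norm_num) har (by exact_mod_cast Nat.le_add_right a r)
    have h3 : (4 : ℝ) * ((r + 1 : ℕ) : ℝ) / a = 4 * r / a + 4 / a := by push_cast; ring
    rw [h3, ← add_assoc]
    linarith

theorem L_two_pow_double {a : ℕ} (ha : 1 ≤ a) : L (2 ^ (a + a)) ≤ L (2 ^ a) + 4 := by
  have h1 := sum_inv_pow_le ha a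
  have har : (0 : ℝ) < a := by exact_mod_cast ha
  rw [mul_div_assoc, div_self har.ne', mul_one] at h1
  have h2 := sum_prime_Ioc_add (fun p => 1 / (p : ℝ)) (Nat.zero_le (2 ^ a))
    (Nat.pow_le_pow_right (by norm_num : 0 < 2) (Nat.le_add_right a a))
  simp only [L, Nat.primesLE_eq_filter_Ioc_zero]
  linarith

theorem L_two_pow_iter {a : ℕ} (ha : 1 ≤ a) (m : ℕ) :
    L (2 ^ (a * 2 ^ m)) ≤ L (2 ^ a) + 4 * m := by
  induction m with
  | zero => simp
  | succ m ih =>
    have h1 := L_two_pow_double (a := a * 2 ^ m) (Nat.mul_pos ha (by positivity))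
    rw [show a * 2 ^ (m + 1) = a * 2 ^ m + a * 2 ^ m by ring]
    push_cast
    linarith

/-- Upper Mertens-type bound. -/
theorem L_le_of_pow {t X k : ℕ} (ht : 2 ≤ t) (h : X ≤ t ^ k) :
    L X ≤ L t + 4 * (Nat.log 2 k + 2) := by
  set j := Nat.log 2 t with hj
  have hj1 : 1 ≤ j := Nat.log_pos (by norm_num) ht
  have h1 : 2 ^ j ≤ t := Nat.pow_log_le_self 2 (by omega)
  have h2 : t ≤ 2 ^ (j * 2) := (Nat.lt_pow_succ_log_self (by norm_num) t).le.trans
    (Nat.pow_le_pow_right (by norm_num) (by omega))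
  have h3 : k ≤ 2 ^ (Nat.log 2 k + 1) := (Nat.lt_pow_succ_log_self (by norm_num) k).le
  have h4 : X ≤ 2 ^ (j * 2 ^ (Nat.log 2 k + 2)) := by
    refine h.trans ((Nat.pow_le_pow_left h2 k).trans ?_)
    rw [← pow_mul]
    refine Nat.pow_le_pow_right (by norm_num) ?_
    rw [mul_assoc, pow_succ 2 (Nat.log 2 k + 1)]
    exact Nat.mul_le_mul_left _ (by omega)
  have h5 := L_two_pow_iter hj1 (Nat.log 2 k + 2)
  push_cast at h5
  linarith [L_mono h4, L_mono h1]

/-- The mass of the primes of level at most `w`. -/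
noncomputable def mass (t w : ℕ) : ℝ := ∑ p ∈ t.primesLE with lev p ≤ w, 1 / (p : ℝ)

theorem mass_le (t w : ℕ) : mass t w ≤ w + 1 := by
  rcases (t.primesLE.filter fun p => lev p ≤ w).eq_empty_or_nonempty with h | h
  · rw [mass, h, sum_empty]; positivity
  · set q := (t.primesLE.filter fun p => lev p ≤ w).max' h
    have hq : lev q ≤ w := (mem_filter.1 (max'_mem _ h)).2
    have h1 : mass t w ≤ L q := by
      refine sum_le_sum_of_subset_of_nonneg (fun p hp => ?_) fun _ _ _ => by positivity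
      exact Nat.mem_primesLE.2 ⟨le_max' _ _ hp, Nat.prime_of_mem_primesLE (mem_filter.1 hp).1⟩
    have h2 : (lev q : ℝ) ≤ w := by exact_mod_cast hq
    linarith [L_lt_lev q]

theorem le_mass {t w : ℕ} (hw : w ≤ lev t) : w ≤ mass t w := by
  rcases (t.primesLE.filter fun p => ¬ lev p ≤ w).eq_empty_or_nonempty with h | h
  · have h1 : mass t w = L t := by
      rw [mass, filter_true_of_mem, L]
      intro p hp
      by_contra h'
      exact absurd (mem_filter.2 ⟨hp, h'⟩) (by rw [h]; exact notMem_empty p)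
    have h2 : (w : ℝ) ≤ lev t := by exact_mod_cast hw
    linarith [lev_le_L t]
  · set q := (t.primesLE.filter fun p => ¬ lev p ≤ w).min' h
    have hq := mem_filter.1 (min'_mem _ h)
    have hq1 : (w + 1 : ℝ) ≤ lev q := by exact_mod_cast not_le.1 hq.2
    have hq2 : (2 : ℝ) ≤ q := by exact_mod_cast Nat.two_le_of_mem_primesLE hq.1
    have h1 : q.primesLE ⊆ insert q (t.primesLE.filter fun p => lev p ≤ w) := fun p hp => by
      rw [mem_insert]
      by_contra h'
      push Not at h'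
      have hp' := Nat.mem_primesLE.1 hp
      have hpt : p ∈ t.primesLE :=
        Nat.mem_primesLE.2 ⟨hp'.1.trans (Nat.le_of_mem_primesLE hq.1), hp'.2⟩
      have : q ≤ p := min'_le _ _ (mem_filter.2 ⟨hpt, fun h'' => h'.2 (mem_filter.2 ⟨hpt, h''⟩)⟩)
      exact h'.1 (le_antisymm hp'.1 this)
    have h2 : L q ≤ 1 / q + mass t w := by
      refine (sum_le_sum_of_subset_of_nonneg h1 fun _ _ _ => by positivity).trans ?_
      have h4 : q ∉ t.primesLE.filter fun p => lev p ≤ w := fun h' => hq.2 (mem_filter.1 h').2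
      rw [sum_insert h4, mass]
    have h3 : 1 / (q : ℝ) ≤ 1 := by rw [div_le_one (by linarith)]; linarith
    linarith [lev_le_L q]

/-- The mass of the primes with level in an interval. -/
theorem mass_between (t : ℕ) {a b : ℕ} (hab : a ≤ b) :
    ∑ p ∈ t.primesLE with (a < lev p ∧ lev p ≤ b), 1 / (p : ℝ) = mass t b - mass t a := by
  rw [mass, mass, sum_filter, sum_filter, sum_filter, ← sum_sub_distrib]
  refine sum_congr rfl fun p _ => ?_
  by_cases h1 : lev p ≤ a
  · rw [if_neg (by omega), if_pos (by omega), if_pos h1, sub_self]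
  · by_cases h2 : lev p ≤ b
    · rw [if_pos ⟨by omega, h2⟩, if_pos h2, if_neg h1, sub_zero]
    · rw [if_neg (by omega), if_neg h2, if_neg h1, sub_zero]

/-- Tail bound for the number of prime factors. -/
theorem omega_tail (t w : ℕ) (k : ℝ) (S : Finset ℕ)
    (hS : ∀ n ∈ S, n ≠ 0 ∧ (∀ p, p.Prime → p ∣ n → p ≤ t ∧ lev p ≤ w) ∧ k ≤ Om n) :
    mu S ≤ Real.exp (3 / 2 * w + 11 - 2 / 5 * k) := by
  have hl : (2 / 5 : ℝ) ≤ Real.log (3 / 2) := by
    rw [Real.le_log_iff_exp_le (by norm_num)]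
    have := Real.exp_bound' (x := 2 / 5) (by norm_num) (by norm_num) (n := 4) (by norm_num)
    refine this.trans ?_
    simp [sum_range_succ, Nat.factorial]; norm_num
  have h := euler_le t (g := fun p => if lev p ≤ w then 3 / 2 else 0) (M := 3 / 2)
    (fun p => by split_ifs <;> norm_num) (fun p hp _ => by
      have : (2 : ℝ) ≤ p := by exact_mod_cast hp.two_le
      split_ifs <;> linarith) (fun p => by split_ifs <;> norm_num) S
    fun n hn => ⟨(hS n hn).1, fun p hp hd => ((hS n hn).2.1 p hp hd).1⟩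
  have h1 : ∑ p ∈ t.primesLE, (if lev p ≤ w then 3 / 2 else 0 : ℝ) / p = 3 / 2 * mass t w := by
    rw [mass, sum_filter, mul_sum]
    refine sum_congr rfl fun p _ => ?_
    split_ifs <;> ring
  have h2 : Real.exp (2 / 5 * k) * mu S ≤
      ∑ n ∈ S, mlt (fun p => if lev p ≤ w then 3 / 2 else 0) n / n := by
    rw [mu, mul_sum]
    refine sum_le_sum fun n hn => ?_
    rw [mul_one_div]
    refine div_le_div_of_nonneg_right ?_ (by positivity)
    rw [mlt_congr (g := fun _ => Real.exp (Real.log (3 / 2) * 1)) fun p hp hd => by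
      rw [if_pos ((hS n hn).2.1 p hp hd).2, mul_one, Real.exp_log (by norm_num)],
      mlt_exp, ad_smul]
    refine Real.exp_le_exp.2 ?_
    have := (hS n hn).2.2
    have h3 := Om_nonneg n
    unfold Om at this h3
    nlinarith
  rw [h1] at h
  rw [Real.exp_sub, le_div_iff₀ (Real.exp_pos _), mul_comm]
  refine h2.trans (h.trans (Real.exp_le_exp.2 ?_))
  linarith [mass_le t w]

end Vale.Agent.P031
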