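import Vale.Agent.P031.Sieve

/-! Normal primes. -/

open Finset

namespace Vale.Agent.P031

variable {s X : ℕ}

theorem tilt (t w : ℕ) {θ c : ℝ} (hθ : θ ≤ 1 / 4) (S : Finset ℕ)
    (hS : ∀ a ∈ S, a ≠ 0 ∧ a ≤ t ∧ c ≤ θ * Ow w a) :
    mu S ≤ Real.exp (L t + (Real.exp θ - 1) * mass t w + 9 - c) := by
  have he : Real.exp θ ≤ 3 / 2 := by
    refine (Real.exp_le_exp.2 hθ).trans ?_
    have := Real.exp_bound_div_one_sub_of_interval (x := 1 / 4) (by norm_num) (by norm_num)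
    linarith
  have hg : ∀ p, Real.exp (θ * if lev p ≤ w then 1 else 0) ≤ 3 / 2 := fun p => by
    split_ifs
    · rwa [mul_one]
    · rw [mul_zero, Real.exp_zero]; norm_num
  have h := euler_le t (g := fun p => Real.exp (θ * if lev p ≤ w then 1 else 0)) (M := 3 / 2)
    (fun p => (Real.exp_pos _).le) (fun p hp _ => by
      have : (2 : ℝ) ≤ p := by exact_mod_cast hp.two_le
      linarith [hg p]) hg S fun n hn => ⟨(hS n hn).1, fun p _ hd =>
      (Nat.le_of_dvd (Nat.pos_of_ne_zero (hS n hn).1) hd).trans (hS n hn).2.1⟩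
  have h1 : ∑ p ∈ t.primesLE, Real.exp (θ * if lev p ≤ w then 1 else 0) / p =
      L t + (Real.exp θ - 1) * mass t w := by
    rw [mass, L, sum_filter, mul_sum, ← sum_add_distrib]
    refine sum_congr rfl fun p _ => ?_
    split_ifs
    · rw [mul_one]; ring
    · simp
  have h2 : Real.exp c * mu S ≤
      ∑ n ∈ S, mlt (fun p => Real.exp (θ * if lev p ≤ w then 1 else 0)) n / n := by
    rw [mu, mul_sum]
    refine sum_le_sum fun n hn => ?_
    rw [mul_one_div, mlt_exp, ad_smul]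
    exact div_le_div_of_nonneg_right (Real.exp_le_exp.2 (hS n hn).2.2) (by positivity)
  rw [h1] at h
  rw [Real.exp_sub, le_div_iff₀ (Real.exp_pos _), mul_comm]
  exact h2.trans (h.trans (Real.exp_le_exp.2 (by norm_num)))

theorem deviation (hs : 10 ^ 12 ≤ s) {t : ℕ} (ht : L t ≤ (s : ℝ) ^ 55) (S : Finset ℕ)
    (hS : ∀ a ∈ S, a ≠ 0 ∧ a ≤ t ∧ ∃ w ≤ lev t,
      w + (s : ℝ) ^ 30 - 1 ≤ Ow w a ∨ Ow w a ≤ w - (s : ℝ) ^ 30) :
    mu S ≤ Real.exp (L t - (s : ℝ) ^ 4 / 2) := by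
  classical
  have p0 := sge hs
  have p1 := pw hs 3 4 (by norm_num)
  have p2 := pw1 hs 3 (by norm_num)
  set ε : ℝ := ((s : ℝ) ^ 26)⁻¹ with hε
  have hε0 : 0 < ε := by positivity
  have hε1 : ε ≤ 1 / 4 := by
    rw [hε, inv_le_comm₀ (by positivity) (by norm_num)]
    linarith [pw hs 0 26 (by norm_num)]
  have hε2 : ε * (s : ℝ) ^ 30 = (s : ℝ) ^ 4 := by rw [hε]; field_simp
  have hε3 : ε ^ 2 * (s : ℝ) ^ 55 = (s : ℝ) ^ 3 := by rw [hε]; field_simp
  set E := Real.exp (L t - (s : ℝ) ^ 4 + 2 * (s : ℝ) ^ 3) with hE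
  have key : ∀ w ∈ range (lev t + 1), mu (S.filter (fun a => w + (s : ℝ) ^ 30 - 1 ≤ Ow w a) ∪
      S.filter fun a => Ow w a ≤ w - (s : ℝ) ^ 30) ≤ 2 * E := fun w hw => by
    have hw1 : w ≤ lev t := Nat.lt_succ_iff.1 (mem_range.1 hw)
    have hw2 : (w : ℝ) ≤ (s : ℝ) ^ 55 := (Nat.cast_le.2 hw1).trans ((lev_le_L t).trans ht)
    have hw3 : ε ^ 2 * w ≤ (s : ℝ) ^ 3 := hε3 ▸ mul_le_mul_of_nonneg_left hw2 (sq_nonneg ε)
    have m1 := mass_le t w
    have m2 := le_mass hw1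
    have h1 := tilt t w (θ := ε) (c := ε * (w + (s : ℝ) ^ 30 - 1)) hε1
      (S.filter fun a => w + (s : ℝ) ^ 30 - 1 ≤ Ow w a) fun a ha => by
        rw [mem_filter] at ha
        exact ⟨(hS a ha.1).1, (hS a ha.1).2.1, mul_le_mul_of_nonneg_left ha.2 hε0.le⟩
    have h2 := tilt t w (θ := -ε) (c := -ε * (w - (s : ℝ) ^ 30)) (by linarith)
      (S.filter fun a => Ow w a ≤ w - (s : ℝ) ^ 30) fun a ha => by
        rw [mem_filter] at ha
        exact ⟨(hS a ha.1).1, (hS a ha.1).2.1, mul_le_mul_of_nonpos_left ha.2 (by linarith)⟩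
    have e1 := (abs_le.1 (Real.abs_exp_sub_one_sub_id_le (x := ε)
      (by rw [abs_of_pos hε0]; linarith))).2
    have e2 := (abs_le.1 (Real.abs_exp_sub_one_sub_id_le (x := -ε)
      (by rw [abs_neg, abs_of_pos hε0]; linarith))).2
    have hm0 : 0 ≤ mass t w := (Nat.cast_nonneg w).trans m2
    have e3 : (Real.exp ε - 1) * mass t w ≤ (ε + ε ^ 2) * (w + 1) :=
      (mul_le_mul_of_nonneg_right (by linarith) hm0).trans
        (mul_le_mul_of_nonneg_left m1 (by positivity))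
    have e4 : (Real.exp (-ε) - 1) * mass t w ≤ (-ε + ε ^ 2) * w :=
      (mul_le_mul_of_nonneg_right (by linarith) hm0).trans
        (mul_le_mul_of_nonpos_left m2 (by nlinarith))
    have e5 : ε ^ 2 ≤ 1 := by nlinarith
    have h3 := h1.trans (Real.exp_le_exp.2 (show _ ≤ L t - (s : ℝ) ^ 4 + 2 * (s : ℝ) ^ 3 by
      nlinarith))
    have h4 := h2.trans (Real.exp_le_exp.2 (show _ ≤ L t - (s : ℝ) ^ 4 + 2 * (s : ℝ) ^ 3 by
      nlinarith))
    linarith [mu_union_le (S.filter (fun a => w + (s : ℝ) ^ 30 - 1 ≤ Ow w a))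
      (S.filter fun a => Ow w a ≤ w - (s : ℝ) ^ 30)]
  have h1 : S ⊆ (range (lev t + 1)).biUnion fun w =>
      (S.filter (fun a => w + (s : ℝ) ^ 30 - 1 ≤ Ow w a) ∪
        S.filter fun a => Ow w a ≤ w - (s : ℝ) ^ 30) := fun a ha => by
    obtain ⟨w, hw, h⟩ := (hS a ha).2.2
    refine mem_biUnion.2 ⟨w, mem_range.2 (Nat.lt_succ_of_le hw), ?_⟩
    rcases h with h | h
    · exact mem_union_left _ (mem_filter.2 ⟨ha, h⟩)
    · exact mem_union_right _ (mem_filter.2 ⟨ha, h⟩)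
  have h2 := (mu_mono h1).trans ((mu_biUnion_le _ _).trans (sum_le_card_nsmul _ _ _ key))
  rw [card_range, nsmul_eq_mul, ← mul_assoc] at h2
  have h3 : ((lev t + 1 : ℕ) : ℝ) * 2 ≤ Real.exp s := le_exp_of_le hs (by
    push_cast
    linarith [lev_le_L t, pw hs 55 60 (by norm_num), pw hs 0 55 (by norm_num)])
  refine h2.trans ((mul_le_mul_of_nonneg_right h3 (Real.exp_pos _).le).trans ?_)
  rw [← Real.exp_add]
  exact Real.exp_le_exp.2 (by linarith)

/-- Abnormal primes are rare. -/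
theorem Good.abn_card (h : Good s X) {t : ℕ} (ht : t ≤ 2 * X) (hL : 5 * (s : ℝ) ≤ L t)
    (V : Finset ℕ) (hV : ∀ q ∈ V, q ≤ t ∧ q.Prime ∧ ¬ Normal s q) :
    (#V : ℝ) ≤ t * Real.exp (-L t - 2 * (s : ℝ) ^ 3) := by
  classical
  have hs := h.s_ge
  have p0 := sge hs
  have hLt := h.L_le ht
  obtain ⟨y, hy1, hy2, hy3⟩ := exists_root_R hs (t := t) (by linarith)
  have hy4 : 2 ≤ y := by
    have : (2 : ℝ) ≤ y := by
      linarith [Real.add_one_le_exp ((s : ℝ) ^ 59), pw hs 0 59 (by norm_num)]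
    exact_mod_cast this
  obtain ⟨Y, hY1, -, hY3⟩ := exists_root8 hs (big_of_L hs (t := t) (by linarith))
  set V2 := V.filter fun q => Y < q ∧ ∀ p, p.Prime → p ∣ q - 1 → p ≤ y with hV2
  set V3 := V.filter fun q => ∃ p, p.Prime ∧ p ∣ q - 1 ∧ y < p with hV3
  have h1 : V ⊆ range (Y + 1) ∪ (V2 ∪ V3) := fun q hq => by
    simp only [hV2, hV3, mem_union, mem_range, mem_filter]
    by_cases h1 : q < Y + 1
    · exact Or.inl h1
    by_cases h2 : ∃ p, p.Prime ∧ p ∣ q - 1 ∧ y < p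
    · exact Or.inr (Or.inr ⟨hq, h2⟩)
    · push Not at h2
      exact Or.inr (Or.inl ⟨hq, by omega, h2⟩)
  have h2 : (#V : ℝ) ≤ (Y + 1 : ℝ) + (#V2 + #V3) := by
    have := (card_le_card h1).trans ((card_union_le _ _).trans
      (add_le_add_right (card_union_le _ _) _))
    rw [card_range] at this
    exact_mod_cast this
  have h3 : (Y + 1 : ℝ) ≤ t * Real.exp (-(s : ℝ) ^ 58) :=
    (le_self_pow₀ (by linarith [(Nat.cast_nonneg Y : (0 : ℝ) ≤ _)]) (by norm_num)).trans hY3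
  have h4 : (#V2 : ℝ) ≤ t * Real.exp (-(s : ℝ) ^ 56 / 100) := by
    have hm : ∀ k ∈ V2.image (· - 1), k ≠ 0 ∧ k ≤ t ∧ (∀ p, p.Prime → p ∣ k → p ≤ y) ∧
        y ^ R s ≤ k ^ 8 := fun k hk => by
      obtain ⟨q, hq, rfl⟩ := mem_image.1 hk
      rw [mem_filter] at hq
      have := hV q hq.1
      have := this.2.1.two_le
      exact ⟨by omega, by omega, hq.2.2, hy1.le.trans (hY1.trans
        (Nat.pow_le_pow_left (by omega) 8))⟩
    rw [← card_image_of_injOn (f := (· - 1)) fun q hq q' hq' he => by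
      have := (hV q (mem_filter.1 hq).1).2.1.two_le
      have := (hV q' (mem_filter.1 hq').1).2.1.two_le
      simp only at he
      omega]
    exact (card_le_mul_mu fun k hk => ⟨(hm k hk).1, (hm k hk).2.1⟩).trans
      (mul_le_mul_of_nonneg_left (smooth_mass hs hLt hy4 _ hm) (Nat.cast_nonneg t))
  have h5 : (#V3 : ℝ) ≤ t * Real.exp (-L t - (s : ℝ) ^ 4 / 4) := by
    have hβ : ∀ q ∈ V3, ∃ r : ℕ × ℕ, r.2.Prime ∧ y < r.2 ∧ q = r.1 * r.2 + 1 := fun q hq => by
      rw [mem_filter] at hq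
      obtain ⟨p, hp, ⟨a, ha⟩, hy⟩ := hq.2
      have := (hV q hq.1).2.1.two_le
      exact ⟨(a, p), hp, hy, by rw [mul_comm, ← ha]; omega⟩
    choose! r hr using hβ
    have hr0 : ∀ q ∈ V3, (r q).1 ≠ 0 := fun q hq h0 => by
      have := (hr q hq).2.2
      rw [h0] at this
      have := (hV q (mem_filter.1 hq).1).2.1.two_le
      omega
    set B := Real.exp (-2 * L t + 2 * s + (s : ℝ) ^ 2)
    have h6 := fiber_le V3 (fun q => (r q).1) (fun q => (r q).2)
      (fun q hq q' hq' e1 e2 => by rw [(hr q hq).2.2, (hr q' hq').2.2, e1, e2])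
      (fun _ => 1) (fun _ => 1) (fun _ => 1) (fun a => t * B * (1 / (a : ℝ)))
      (fun _ _ => by norm_num) fun a ha U hU => by
        obtain ⟨q0, hq0, rfl⟩ := mem_image.1 ha
        have hle : ∀ q ∈ V3, (r q).2 ≤ t / (r q).1 := fun q hq => by
          rw [Nat.le_div_iff_mul_le (Nat.pos_of_ne_zero (hr0 q hq)), mul_comm]
          have := (hr q hq).2.2
          have := (hV q (mem_filter.1 hq).1).1
          omega
        have hL1 : L (y + 1) ≤ L (t / (r q0).1) := L_mono ((hr q0 hq0).2.1.trans_le (hle q0 hq0))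
        have h7 := h.sieve {(r q0).1} (by simp) (fun α hα => by
          rw [mem_singleton.1 hα]
          have := (hr q0 hq0).2.2
          have := (hV q0 (mem_filter.1 hq0).1).1
          have := Nat.le_mul_of_pos_right (r q0).1 (hr q0 hq0).1.pos
          exact ⟨hr0 q0 hq0, by omega⟩) (N := t / (r q0).1)
          ((Nat.div_le_self _ _).trans ht) (by linarith) U fun β hβ => by
            obtain ⟨q, hq, e1, rfl⟩ := hU β hβ
            refine ⟨e1 ▸ hle q hq, (hr q hq).1, fun α hα => ?_⟩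
            rw [mem_singleton.1 hα, ← e1, ← (hr q hq).2.2]
            exact (hV q (mem_filter.1 hq).1).2.1
        rw [one_mul, sum_const, nsmul_eq_mul, mul_one, mul_right_comm, mul_one_div]
        refine h7.trans (mul_le_mul Nat.cast_div_le (Real.exp_le_exp.2 ?_) (by positivity)
          (by positivity))
        rw [card_singleton]; push_cast; linarith
    have h7 := deviation hs hLt (V3.image fun q => (r q).1) fun a ha => by
      obtain ⟨q, hq, rfl⟩ := mem_image.1 ha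
      obtain ⟨h8, h9, h10⟩ := hV q (mem_filter.1 hq).1
      have h11 := (hr q hq).2.2
      have := Nat.le_mul_of_pos_right (r q).1 (hr q hq).1.pos
      refine ⟨hr0 q hq, by omega, ?_⟩
      unfold Normal at h10
      push Not at h10
      obtain ⟨w, hw, h10⟩ := h10
      refine ⟨w, hw.trans (lev_mono h8), ?_⟩
      have h12 : q - 1 = (r q).1 * (r q).2 := by omega
      rw [h12, Ow, ad_mul _ (hr0 q hq) (hr q hq).1.ne_zero, ad_prime _ (hr q hq).1,
        ← Ow, lt_abs] at h10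
      split_ifs at h10 <;> rcases h10 with h10 | h10
      exacts [Or.inl (by linarith), Or.inr (by linarith), Or.inl (by linarith),
        Or.inr (by linarith)]
    rw [sum_const, nsmul_eq_mul, mul_one, ← mul_sum, mul_assoc] at h6
    refine h6.trans (mul_le_mul_of_nonneg_left ((mul_le_mul_of_nonneg_left h7
      (Real.exp_pos _).le).trans ?_) (Nat.cast_nonneg t))
    rw [← Real.exp_add]
    exact Real.exp_le_exp.2 (by linarith [pw hs 2 4 (by norm_num), pw1 hs 2 (by norm_num)])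
  have p1 := pw hs 3 4 (by norm_num)
  have p2 := pw hs 4 55 (by norm_num)
  have p3 := pw hs 55 56 (by norm_num)
  have p4 := pw hs 56 58 (by norm_num)
  have p5 := pw hs 0 3 (by norm_num)
  set E := Real.exp (-L t - 2 * (s : ℝ) ^ 3 - 2)
  have e1 : Real.exp (-(s : ℝ) ^ 58) ≤ E := Real.exp_le_exp.2 (by linarith)
  have e2 : Real.exp (-(s : ℝ) ^ 56 / 100) ≤ E := Real.exp_le_exp.2 (by linarith)
  have e3 : Real.exp (-L t - (s : ℝ) ^ 4 / 4) ≤ E := Real.exp_le_exp.2 (by linarith)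
  have e4 : Real.exp (-L t - 2 * (s : ℝ) ^ 3) = Real.exp 2 * E := by
    rw [← Real.exp_add]; congr 1; ring
  have e5 : 3 * E ≤ Real.exp 2 * E :=
    mul_le_mul_of_nonneg_right (by linarith [Real.add_one_le_exp 2]) (Real.exp_pos _).le
  have ht0 : (0 : ℝ) ≤ t := Nat.cast_nonneg t
  rw [e4]
  linarith [mul_le_mul_of_nonneg_left e1 ht0, mul_le_mul_of_nonneg_left e2 ht0,
    mul_le_mul_of_nonneg_left e3 ht0, mul_le_mul_of_nonneg_left e5 ht0]

/-- The mass of the large abnormal primes. -/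
theorem Good.abn_mass (h : Good s X) (V : Finset ℕ)
    (hV : ∀ q ∈ V, q ≤ X ∧ q.Prime ∧ ¬ Normal s q ∧ W s < lev q) :
    ∑ q ∈ V, 1 / ((q - 1 : ℕ) : ℝ) ≤ Real.exp (-(s : ℝ) ^ 3) := by
  have hs := h.s_ge
  have p0 := sge hs
  have h1 := dyadic V (fun n hn => (hV n hn).2.1.ne_zero)
    (fun k => 100 * Real.exp (-(2 * (s : ℝ) ^ 3)) * (1 / ((k + 1 : ℕ) : ℝ))) fun k hk => by
    obtain ⟨β, hβ, rfl⟩ := mem_image.1 hk
    obtain ⟨h1, h2, -, h4⟩ := hV β hβ
    have h5 : 2 ^ Nat.log 2 β ≤ β := Nat.pow_log_le_self 2 h2.ne_zero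
    have h6 : β ≤ 2 ^ (Nat.log 2 β + 1) := (Nat.lt_pow_succ_log_self (by norm_num) β).le
    have h7 : (s : ℝ) ^ 31 ≤ lev β := by rw [← cast_W]; exact_mod_cast h4.le
    have h8 := (lev_le_L β).trans (L_mono h6)
    have h9 := h.abn_card (t := 2 ^ (Nat.log 2 β + 1)) (by rw [pow_succ]; omega)
      (by linarith [pw1 hs 31 (by norm_num)]) (V.filter (· < 2 ^ (Nat.log 2 β + 1))) fun γ hγ => by
        rw [mem_filter] at hγ
        exact ⟨hγ.2.le, (hV γ hγ.1).2.1, (hV γ hγ.1).2.2.1⟩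
    rw [Nat.cast_pow, Nat.cast_ofNat] at h9
    refine h9.trans (mul_le_mul_of_nonneg_left ?_ (by positivity))
    have hj := Nat.succ_ne_zero (Nat.log 2 β)
    rw [Nat.succ_eq_add_one] at hj
    generalize Nat.log 2 β + 1 = j at hj ⊢
    have hj0 : (0 : ℝ) < j := by exact_mod_cast Nat.pos_of_ne_zero hj
    have h10 := (Real.log_le_log (by positivity)
      (le_add_of_nonneg_right zero_le_one)).trans (log_le_exp (2 ^ j))
    rw [Nat.cast_pow, Nat.cast_ofNat, Real.log_pow, Real.exp_add] at h10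
    have h11 : Real.exp 4 ≤ 60 := by
      have : Real.exp 4 = Real.exp 1 ^ 4 := by rw [← Real.exp_nat_mul]; norm_num
      rw [this]
      exact (pow_le_pow_left₀ (Real.exp_pos _).le Real.exp_one_lt_d9.le 4).trans (by norm_num)
    rw [sub_eq_add_neg, Real.exp_add, mul_right_comm]
    refine mul_le_mul_of_nonneg_right ?_ (Real.exp_pos _).le
    rw [Real.exp_neg, mul_one_div, inv_eq_one_div, div_le_div_iff₀ (Real.exp_pos _) hj0]
    nlinarith [Real.log_two_gt_d9, Real.exp_pos (L (2 ^ j))]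
  have hX : X ≠ 0 := fun h0 => by
    have := h.big
    rw [h0, Nat.cast_zero] at this
    exact absurd this (not_le.2 (Real.exp_pos _))
  have h2 : ∑ k ∈ V.image (Nat.log 2), 1 / ((k + 1 : ℕ) : ℝ) ≤ Real.exp (s + 5) := by
    have h3 := mu_le_exp (t := Nat.log 2 (2 * X)) (S := (V.image (Nat.log 2)).image (· + 1))
      fun j hj => by
        obtain ⟨k, hk, rfl⟩ := mem_image.1 hj
        obtain ⟨β, hβ, rfl⟩ := mem_image.1 hk
        obtain ⟨h1, h2, -⟩ := hV β hβ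
        have h5 : 2 ^ Nat.log 2 β ≤ β := Nat.pow_log_le_self 2 h2.ne_zero
        exact ⟨Nat.succ_ne_zero _, Nat.le_log_of_pow_le (by norm_num) (by rw [pow_succ]; omega)⟩
    rw [mu, sum_image fun a _ b _ hab => by simpa using hab] at h3
    refine h3.trans (Real.exp_le_exp.2 ?_)
    linarith [h.L_log_le (Nat.pow_log_le_self 2 (show 2 * X ≠ 0 by omega))]
  have h3 : ∑ q ∈ V, 1 / ((q - 1 : ℕ) : ℝ) ≤ 2 * mu V := by
    rw [mu, mul_sum]
    exact sum_le_sum fun q hq => inv_pred_le (hV q hq).2.1.two_le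
  simp only [← mul_sum] at h1
  have h4 : (400 : ℝ) ≤ Real.exp s := by linarith [Real.add_one_le_exp (s : ℝ)]
  calc _ ≤ 400 * (Real.exp (-(2 * (s : ℝ) ^ 3)) * Real.exp (s + 5)) := by
        nlinarith [mul_le_mul_of_nonneg_left h2 (Real.exp_pos (-(2 * (s : ℝ) ^ 3))).le]
    _ ≤ Real.exp s * (Real.exp (-(2 * (s : ℝ) ^ 3)) * Real.exp (s + 5)) :=
        mul_le_mul_of_nonneg_right h4 (by positivity)
    _ ≤ _ := by
        rw [← Real.exp_add, ← Real.exp_add]
        exact Real.exp_le_exp.2 (by linarith [pw1 hs 3 (by norm_num)])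

theorem Normal.big (hs : 10 ^ 12 ≤ s) {q : ℕ} (hq : Normal s q) (hW : W s ≤ lev q) :
    ∃ β, β.Prime ∧ β ∣ q - 1 ∧ lev q ≤ lev β + 3 * D s := by
  by_contra hc
  push Not at hc
  have h1 : 3 * D s ≤ W s := by
    have : ((3 * D s : ℕ) : ℝ) ≤ W s := by
      push_cast
      rw [cast_D, cast_W]
      linarith [pw hs 30 31 (by norm_num), (by positivity : (0 : ℝ) ≤ (s : ℝ) ^ 30)]
    exact_mod_cast this
  have h2 := (abs_le.1 (hq _ le_rfl)).1
  have h3 := (abs_le.1 (hq (lev q - 3 * D s) (Nat.sub_le _ _))).2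
  have h4 : Ow (lev q) (q - 1) ≤ Ow (lev q - 3 * D s) (q - 1) := ad_mono fun p hp hd => by
    have := hc p hp hd
    rw [if_pos (by omega), if_pos (by omega)]
  rw [Nat.cast_sub (by omega)] at h3
  push_cast at h3
  rw [cast_D] at h3
  linarith [pw hs 0 30 (by norm_num)]

theorem mem_NP {q : ℕ} : q ∈ NP s X ↔ q ≤ X ∧ q.Prime ∧ Normal s q ∧ W s < lev q := by
  simp [NP, Nat.mem_primesLE, and_assoc]

/-- A weight depending on the level, restricted to the large levels. -/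
noncomputable def hat (s X : ℕ) (h : ℕ → ℝ) (p : ℕ) : ℝ :=
  if W s < lev p ∧ lev p ≤ lev X then h (lev p) else 0

theorem core_one {q : ℕ} (hq : q ∈ NP s X) {h : ℕ → ℝ} {Λ : ℝ} (hm : Antitone h)
    (h1 : ∀ w, h w ≤ Λ) (h0 : ∀ w, 0 ≤ h w) :
    |ad (hat s X h) (q - 1) - ∑ w ∈ Ioc (W s) (lev X), h w * if w ≤ lev q then 1 else 0| ≤
      Λ * (2 * (s : ℝ) ^ 30) := by
  obtain ⟨-, hp, hn, hW⟩ := mem_NP.1 hq
  have e1 : ad (hat s X h) (q - 1) = ∑ w ∈ Ioc (W s) (lev X),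
      h w * ad (fun p => if lev p = w then 1 else 0) (q - 1) := by
    simp only [← ad_smul]
    rw [← ad_sum]
    refine ad_congr fun p _ _ => ?_
    simp only [mul_ite, mul_one, mul_zero, sum_ite_eq, mem_Ioc, hat]
  rw [e1, ← sum_sub_distrib]
  simp only [← mul_sub]
  refine abel _ _ _ _ h Λ hm h1 (h0 _) fun w _ => ?_
  rcases le_or_gt w (W s) with hw | hw
  · rw [Ioc_eq_empty (by omega)]; simp
  have e2 : ∑ i ∈ Ioc (W s) w, ad (fun p => if lev p = i then 1 else 0) (q - 1) +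
      Ow (W s) (q - 1) = Ow (min w (lev q)) (q - 1) := by
    rw [← ad_sum, Ow, Ow, ← ad_add]
    refine ad_congr fun p _ hd => ?_
    have := hp.two_le
    have : lev p ≤ lev q := lev_mono ((Nat.le_of_dvd (by omega) hd).trans (Nat.sub_le _ _))
    simp only [sum_ite_eq, mem_Ioc]
    split_ifs <;> first | omega | norm_num
  have e3 : ∑ i ∈ Ioc (W s) w, (if i ≤ lev q then (1 : ℝ) else 0) + W s = (min w (lev q) : ℕ) := by
    rw [← sum_filter, sum_const, nsmul_eq_mul, mul_one]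
    have : (Ioc (W s) w).filter (· ≤ lev q) = Ioc (W s) (min w (lev q)) := by
      ext i; simp only [mem_filter, mem_Ioc]; omega
    rw [this, Nat.card_Ioc]
    exact_mod_cast Nat.sub_add_cancel (by omega)
  have e4 := abs_le.1 (hn _ (min_le_right w (lev q)))
  have e5 := abs_le.1 (hn _ hW.le)
  rw [sum_sub_distrib, abs_le]
  constructor <;> linarith [e4.1, e4.2, e5.1, e5.2]

theorem core {Q : Finset ℕ} (hQ : Q ⊆ NP s X) {h : ℕ → ℝ} {Λ : ℝ} (hm : Antitone h)
    (h1 : ∀ w, h w ≤ Λ) (h0 : ∀ w, 0 ≤ h w) :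
    |ad (hat s X h) (∏ q ∈ Q, (q - 1)) - ∑ w ∈ Ioc (W s) (lev X), h w * II Q w| ≤
      #Q * (Λ * (2 * (s : ℝ) ^ 30)) := by
  rw [ad_prod _ _ _ fun q hq => by
    have := (mem_NP.1 (hQ hq)).2.1.two_le
    omega]
  simp only [II, card_filter, Nat.cast_sum, mul_sum]
  rw [sum_comm, ← sum_sub_distrib]
  refine (abs_sum_le_sum_abs _ _).trans ?_
  rw [← nsmul_eq_mul]
  refine sum_le_card_nsmul _ _ _ fun q hq => ?_
  have := core_one (hQ hq) hm h1 h0
  push_cast
  exact this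

end Vale.Agent.P031
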