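import Vale.Agent.P031.Mert
import Vale.Agent.P031.Comb

/-! Consequences of the parameter regime. -/

open Finset

namespace Vale.Agent.P031

variable {s X : ℕ}

theorem pw (hs : 10 ^ 12 ≤ s) (a b : ℕ) (hab : a < b) :
    10 ^ 12 * (s : ℝ) ^ a ≤ (s : ℝ) ^ b := by
  have h : (10 : ℝ) ^ 12 ≤ s := by exact_mod_cast hs
  calc _ ≤ (s : ℝ) * (s : ℝ) ^ a := mul_le_mul_of_nonneg_right h (by positivity)
    _ = (s : ℝ) ^ (a + 1) := by ring
    _ ≤ _ := pow_le_pow_right₀ (by linarith) hab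

theorem sge (hs : 10 ^ 12 ≤ s) : (10 : ℝ) ^ 12 ≤ s := by exact_mod_cast hs

theorem pw1 (hs : 10 ^ 12 ≤ s) (b : ℕ) (hb : 1 < b) : 10 ^ 12 * (s : ℝ) ≤ (s : ℝ) ^ b := by
  simpa using pw hs 1 b hb

theorem pow_le_exp (hs : 10 ^ 12 ≤ s) : (s : ℝ) ^ 60 ≤ Real.exp (s / 1000) := by
  have h := sge hs
  have h1 : (s : ℝ) / 120000 ≤ Real.exp (s / 120000) := by
    linarith [Real.add_one_le_exp ((s : ℝ) / 120000)]
  have h2 : (s : ℝ) ≤ ((s : ℝ) / 120000) ^ 2 := by nlinarith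
  calc (s : ℝ) ^ 60 ≤ (((s : ℝ) / 120000) ^ 2) ^ 60 := pow_le_pow_left₀ (by positivity) h2 _
    _ = ((s : ℝ) / 120000) ^ 120 := by rw [← pow_mul]
    _ ≤ Real.exp (s / 120000) ^ 120 := pow_le_pow_left₀ (by positivity) h1 _
    _ = _ := by rw [← Real.exp_nat_mul]; congr 1; push_cast; ring

theorem le_exp_of_le (hs : 10 ^ 12 ≤ s) {x : ℝ} (hx : x ≤ (s : ℝ) ^ 60) : x ≤ Real.exp s :=
  hx.trans ((pow_le_exp hs).trans (Real.exp_le_exp.2 (by linarith [sge hs])))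

theorem log2_le (hs : 10 ^ 12 ≤ s) {k : ℕ} (hk : (k : ℝ) ≤ (s : ℝ) ^ 60) :
    (Nat.log 2 k : ℝ) ≤ s / 500 := by
  rcases eq_or_ne k 0 with rfl | h0
  · simp; positivity
  have h1 : (2 : ℝ) ^ Nat.log 2 k ≤ k := by exact_mod_cast Nat.pow_log_le_self 2 h0
  have h2 := h1.trans (hk.trans (pow_le_exp hs))
  have h3 := Real.log_le_log (by positivity) h2
  rw [Real.log_pow, Real.log_exp] at h3
  nlinarith [Real.log_two_gt_d9, (Nat.cast_nonneg (Nat.log 2 k) : (0 : ℝ) ≤ _)]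

theorem L_pow (hs : 10 ^ 12 ≤ s) {t Y k : ℕ} (ht : 2 ≤ t) (h : Y ≤ t ^ k)
    (hk : (k : ℝ) ≤ (s : ℝ) ^ 60) : L Y ≤ L t + s := by
  linarith [L_le_of_pow ht h, log2_le hs hk, sge hs]

theorem L_le_of_le_exp (hs : 10 ^ 12 ≤ s) {t : ℕ} (h : (t : ℝ) ≤ Real.exp ((s : ℝ) ^ 59)) :
    L t ≤ s + 1 := by
  obtain ⟨k, hk⟩ : ∃ k : ℕ, (k : ℝ) = (s : ℝ) ^ 60 := ⟨s ^ 60, by push_cast; rfl⟩
  have h1 : t ≤ 2 ^ k := by
    have : (t : ℝ) ≤ 2 ^ k := by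
      refine h.trans ?_
      rw [← Real.exp_log (show (0 : ℝ) < 2 by norm_num), ← Real.exp_nat_mul, hk]
      refine Real.exp_le_exp.2 ?_
      nlinarith [pw hs 59 60 (by norm_num), Real.log_two_gt_d9,
        (by positivity : (0 : ℝ) ≤ (s : ℝ) ^ 59)]
    exact_mod_cast this
  linarith [L_pow hs le_rfl h1 hk.le, L_two]

theorem big_of_L (hs : 10 ^ 12 ≤ s) {t : ℕ} (h : 2 * (s : ℝ) ≤ L t) :
    Real.exp ((s : ℝ) ^ 59) ≤ t := by
  by_contra h'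
  linarith [L_le_of_le_exp hs (not_le.1 h').le, sge hs]

theorem pow_le_of_L (hs : 10 ^ 12 ≤ s) {t : ℕ} (h : 2 * (s : ℝ) ≤ L t) :
    (s : ℝ) ^ 59 ≤ t := by
  linarith [big_of_L hs h, Real.add_one_le_exp ((s : ℝ) ^ 59)]

theorem sq_small {a t B : ℝ} (ha : 0 ≤ a) (h : a ^ 2 ≤ t) (hB : Real.exp (2 * B) ≤ t) :
    a ≤ t * Real.exp (-B) := by
  have ht : 0 ≤ t := (sq_nonneg a).trans h
  rw [Real.exp_neg, ← div_eq_mul_inv, le_div_iff₀ (Real.exp_pos _)]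
  refine (pow_le_pow_iff_left₀ (by positivity) ht two_ne_zero).1 ?_
  rw [mul_pow, ← Real.exp_nat_mul, sq t]
  exact mul_le_mul h (by exact_mod_cast hB) (Real.exp_pos _).le ht

theorem Good.L_le (h : Good s X) {t : ℕ} (ht : t ≤ 2 * X) : L t ≤ (s : ℝ) ^ 55 :=
  (L_mono ht).trans h.hi

theorem Good.lev_le (h : Good s X) {t : ℕ} (ht : t ≤ 2 * X) : (lev t : ℝ) ≤ (s : ℝ) ^ 55 :=
  (lev_le_L t).trans (h.L_le ht)

theorem Good.le_lev (h : Good s X) : (s : ℝ) ^ 54 - 1 ≤ lev X := by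
  linarith [h.lo, L_lt_lev X]

theorem Good.W_le (h : Good s X) : W s ≤ lev X := by
  have : (W s : ℝ) ≤ lev X := by
    rw [cast_W]
    have := pw h.s_ge 31 54 (by norm_num)
    have := pw h.s_ge 0 31 (by norm_num)
    linarith [h.le_lev]
  exact_mod_cast this

theorem Good.big (h : Good s X) : Real.exp ((s : ℝ) ^ 59) ≤ X :=
  big_of_L h.s_ge (by linarith [h.lo, pw1 h.s_ge 54 (by norm_num), sge h.s_ge])

theorem Good.L_log_le (h : Good s X) {k : ℕ} (hk : 2 ^ k ≤ 2 * X) : L k ≤ s + 1 := by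
  refine L_le_of_le_exp h.s_ge ?_
  have h3 : (2 : ℝ) ^ k ≤ ((2 * X : ℕ) : ℝ) + 1 := by
    have : 2 ^ k ≤ 2 * X + 1 := by omega
    exact_mod_cast this
  have h4 := (Real.log_le_log (by positivity) h3).trans (log_le_exp (2 * X))
  rw [Real.log_pow] at h4
  have h5 : Real.exp (L (2 * X) + 4) * Real.exp 1 ≤ Real.exp ((s : ℝ) ^ 59) := by
    rw [← Real.exp_add]
    refine Real.exp_le_exp.2 ?_
    linarith [h.hi, pw h.s_ge 55 59 (by norm_num), pw h.s_ge 0 55 (by norm_num)]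
  nlinarith [Real.log_two_gt_d9, (Nat.cast_nonneg k : (0 : ℝ) ≤ _), Real.add_one_le_exp 1,
    Real.exp_pos (L (2 * X) + 4)]

theorem Good.badmass (h : Good s X) {a : ℕ} (ha : a ≠ 0) (haX : a ≤ 2 * X) :
    ∑ p ∈ a.primeFactors, 1 / (p : ℝ) ≤ s + 2 := by
  set ω := #a.primeFactors with hω
  have h1 : 2 ^ ω ≤ a := by
    refine le_trans ?_ (Nat.le_of_dvd (Nat.pos_of_ne_zero ha) (Nat.prod_primeFactors_dvd a))
    exact pow_card_le_prod _ _ _ fun p hp => (Nat.prime_of_mem_primeFactors hp).two_le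
  have h3 := h.L_log_le (h1.trans haX)
  rw [← sum_filter_add_sum_filter_not _ fun p => p ≤ ω]
  have h4 : ∑ p ∈ a.primeFactors with p ≤ ω, 1 / (p : ℝ) ≤ L ω :=
    sum_le_sum_of_subset_of_nonneg (fun p hp => Nat.mem_primesLE.2 ⟨(mem_filter.1 hp).2,
      Nat.prime_of_mem_primeFactors (mem_filter.1 hp).1⟩) fun _ _ _ => by positivity
  have h5 : ∑ p ∈ a.primeFactors with ¬ p ≤ ω, 1 / (p : ℝ) ≤ 1 := by
    calc _ ≤ ∑ p ∈ a.primeFactors with ¬ p ≤ ω, 1 / ((ω : ℝ) + 1) := by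
          refine sum_le_sum fun p hp => one_div_le_one_div_of_le (by positivity) ?_
          exact_mod_cast not_le.1 (mem_filter.1 hp).2
      _ ≤ ∑ p ∈ a.primeFactors, 1 / ((ω : ℝ) + 1) :=
          sum_le_sum_of_subset_of_nonneg (filter_subset _ _) fun _ _ _ => by positivity
      _ ≤ 1 := by
          rw [sum_const, nsmul_eq_mul, mul_one_div, div_le_one (by positivity)]
          linarith
  linarith

theorem smooth_mass (hs : 10 ^ 12 ≤ s) {t y : ℕ} (ht : L t ≤ (s : ℝ) ^ 55) (hy : 2 ≤ y)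
    (S : Finset ℕ) (hS : ∀ k ∈ S, k ≠ 0 ∧ k ≤ t ∧ (∀ p, p.Prime → p ∣ k → p ≤ y) ∧
      y ^ R s ≤ k ^ 8) : mu S ≤ Real.exp (-(s : ℝ) ^ 56 / 100) := by
  refine (omega_tail t (lev t) ((s : ℝ) ^ 56 / 8) S fun k hk => ?_).trans (Real.exp_le_exp.2 ?_)
  · obtain ⟨h0, h1, h2, h3⟩ := hS k hk
    refine ⟨h0, fun p _ hd => ?_, ?_⟩
    · have := (Nat.le_of_dvd (Nat.pos_of_ne_zero h0) hd).trans h1
      exact ⟨this, lev_mono this⟩
    · have h4 := h3.trans (Nat.pow_le_pow_left (le_pow_length h0 h2) 8)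
      rw [← pow_mul] at h4
      have h5 : (R s : ℝ) ≤ (k.primeFactorsList.length * 8 : ℕ) := by
        exact_mod_cast (Nat.pow_le_pow_iff_right hy).1 h4
      rw [cast_R] at h5
      push_cast at h5
      rw [Om_eq_length]; linarith
  · linarith [lev_le_L t, pw hs 55 56 (by norm_num), pw hs 0 55 (by norm_num)]

theorem R_pos (hs : 10 ^ 12 ≤ s) : 1 ≤ R s := by
  have : (1 : ℝ) ≤ R s := by rw [cast_R]; linarith [pw hs 0 56 (by norm_num)]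
  exact_mod_cast this

theorem R_le (hs : 10 ^ 12 ≤ s) : (R s : ℝ) ≤ (s : ℝ) ^ 60 := by
  rw [cast_R]; linarith [pw hs 56 60 (by norm_num), (by positivity : (0 : ℝ) ≤ (s : ℝ) ^ 56)]

/-- The smoothness bound attached to a large number `t`. -/
theorem exists_root_R (hs : 10 ^ 12 ≤ s) {t : ℕ} (ht : 4 * (s : ℝ) ≤ L t) :
    ∃ y, y ^ R s < t ∧ L t ≤ L (y + 1) + s ∧ Real.exp ((s : ℝ) ^ 59) ≤ y + 1 := by
  have h1 := big_of_L hs (t := t) (by linarith [sge hs])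
  have h2 : (2 : ℝ) ≤ t := by
    linarith [Real.add_one_le_exp ((s : ℝ) ^ 59), pw hs 0 59 (by norm_num)]
  have h3 : 2 ≤ t := by exact_mod_cast h2
  obtain ⟨y, hy1, hy2⟩ := exists_root (t := t) (by omega) (R_pos hs)
  have h4 : 2 ≤ y + 1 := by
    by_contra h
    obtain rfl : y = 0 := by omega
    simp at hy1; omega
  have h5 := L_pow hs h4 hy1 (R_le hs)
  refine ⟨y, hy2, h5, ?_⟩
  exact_mod_cast big_of_L hs (t := y + 1) (by linarith [sge hs])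

theorem exists_root8 (hs : 10 ^ 12 ≤ s) {t : ℕ} (ht : Real.exp ((s : ℝ) ^ 59) ≤ t) :
    ∃ Y, t ≤ Y ^ 8 ∧ (Y + 1) ^ 6 ≤ t ∧
      ((Y : ℝ) + 1) ^ 3 ≤ t * Real.exp (-(s : ℝ) ^ 58) := by
  have h2 : (65537 : ℝ) ≤ t := by
    linarith [Real.add_one_le_exp ((s : ℝ) ^ 59), pw hs 0 59 (by norm_num)]
  have h3 : 65537 ≤ t := by exact_mod_cast h2
  obtain ⟨r, hr1, hr2⟩ := exists_root (t := t) (R := 8) (by omega) (by norm_num)
  have h4 : 4 ≤ r := by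
    by_contra h
    have := Nat.pow_le_pow_left (show r + 1 ≤ 4 by omega) 8
    omega
  have h5 : (r + 1 + 1) ^ 3 ≤ r ^ 4 := by
    obtain ⟨j, rfl⟩ := Nat.exists_eq_add_of_le h4
    ring_nf
    omega
  have h6 : (r + 1 + 1) ^ 6 ≤ t := by
    calc (r + 1 + 1) ^ 6 = ((r + 1 + 1) ^ 3) ^ 2 := by rw [← pow_mul]
      _ ≤ (r ^ 4) ^ 2 := Nat.pow_le_pow_left h5 2
      _ = r ^ 8 := by rw [← pow_mul]
      _ ≤ t := hr2.le
  refine ⟨r + 1, hr1, h6, sq_small (by positivity) ?_ (le_trans (Real.exp_le_exp.2 ?_) ht)⟩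
  · rw [← pow_mul]; exact_mod_cast h6
  · linarith [pw hs 58 59 (by norm_num), (by positivity : (0 : ℝ) ≤ (s : ℝ) ^ 58)]

theorem inv_pred_le {q : ℕ} (hq : 2 ≤ q) : 1 / ((q - 1 : ℕ) : ℝ) ≤ 2 * (1 / (q : ℝ)) := by
  have h : (2 : ℝ) ≤ q := by exact_mod_cast hq
  rw [Nat.cast_sub (by omega), mul_one_div, div_le_div_iff₀ (by push_cast; linarith) (by linarith)]
  push_cast; linarith

end Vale.Agent.P031
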