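import Vale.Agent.P031.Brun
import Vale.Agent.P031.Param

/-! Sieve bounds for primes `β` with `α β + 1` prime. -/

open Finset

namespace Vale.Agent.P031

variable {s X : ℕ}

theorem L_succ_le (y : ℕ) : L (y + 1) ≤ L y + 1 := by
  have h1 : (y + 1).primesLE ⊆ insert (y + 1) y.primesLE := fun p hp => by
    rw [Nat.mem_primesLE] at hp
    rw [mem_insert, Nat.mem_primesLE]
    rcases hp.1.eq_or_lt with h | h
    · exact Or.inl h
    · exact Or.inr ⟨by omega, hp.2⟩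
  refine (sum_le_sum_of_subset_of_nonneg h1 fun _ _ _ => by positivity).trans ?_
  rw [sum_insert (Nat.notMem_primesLE y), L, add_comm]
  refine add_le_add_right ?_ _
  rw [div_le_one (by positivity)]
  push_cast; linarith [(Nat.cast_nonneg y : (0 : ℝ) ≤ _)]

theorem exists_residues (A : Finset ℕ) : ∃ Rs : ℕ → Finset ℕ, ∀ p, p.Prime →
    (∀ a ∈ A ∪ A.offDiag.image (fun r => Nat.dist r.1 r.2), ¬ p ∣ a) →
    (Rs p ⊆ range p ∧ #(Rs p) = #A + 1) ∧
      ∀ n, n % p ∈ Rs p → p ∣ n ∨ ∃ α ∈ A, p ∣ α * n + 1 := by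
  have h : ∀ p α : ℕ, p.Prime → ¬ p ∣ α → ∃ m < p, p ∣ α * m + 1 := fun p α hp h => by
    obtain ⟨m, hm, h1⟩ := Nat.exists_mul_mod_eq_of_coprime (p - 1)
      ((Nat.Prime.coprime_iff_not_dvd hp).2 h).symm hp.ne_zero
    refine ⟨m, hm, (Nat.modEq_zero_iff_dvd).1 ?_⟩
    have h2 : α * m + 1 ≡ p - 1 + 1 [MOD p] := Nat.ModEq.add_right 1 h1
    rw [Nat.sub_add_cancel hp.one_le] at h2
    exact h2.trans (Nat.modEq_zero_iff_dvd.2 dvd_rfl)
  choose! r hr using h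
  refine ⟨fun p => insert 0 (A.image (r p)), fun p hp hg => ⟨⟨?_, ?_⟩, fun n hn => ?_⟩⟩
  · intro x hx
    rcases mem_insert.1 hx with rfl | hx
    · exact mem_range.2 hp.pos
    · obtain ⟨α, hα, rfl⟩ := mem_image.1 hx
      exact mem_range.2 (hr p α hp (hg α (mem_union_left _ hα))).1
  · have h0 : ∀ α ∈ A, r p α ≠ 0 := fun α hα h0 => by
      have := (hr p α hp (hg α (mem_union_left _ hα))).2
      rw [h0, mul_zero, zero_add] at this
      exact hp.one_lt.ne' (Nat.dvd_one.1 this)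
    rw [card_insert_of_notMem, card_image_of_injOn]
    · intro α hα α' hα' he
      by_contra hne
      refine hg (Nat.dist α α') (mem_union_right _ (mem_image.2
        ⟨(α, α'), mem_offDiag.2 ⟨hα, hα', hne⟩, rfl⟩)) ?_
      have h1 := hr p α hp (hg α (mem_union_left _ hα))
      have h2 := hr p α' hp (hg α' (mem_union_left _ hα'))
      rw [← he] at h2
      have h3 : α * r p α + 1 ≡ α' * r p α + 1 [MOD p] :=
        (Nat.modEq_zero_iff_dvd.2 h1.2).trans (Nat.modEq_zero_iff_dvd.2 h2.2).symm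
      have h4 : α ≡ α' [MOD p] := Nat.ModEq.cancel_right_of_coprime
        ((Nat.Prime.coprime_iff_not_dvd hp).2
          (Nat.not_dvd_of_pos_of_lt (Nat.pos_of_ne_zero (h0 α hα)) h1.1))
        (Nat.ModEq.add_right_cancel' 1 h3)
      rcases le_total α α' with h5 | h5
      · rw [Nat.dist_eq_sub_of_le h5]; exact (Nat.modEq_iff_dvd' h5).1 h4
      · rw [Nat.dist_eq_sub_of_le_right h5]; exact (Nat.modEq_iff_dvd' h5).1 h4.symm
    · intro h
      obtain ⟨α, hα, h⟩ := mem_image.1 h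
      exact h0 α hα h
  · rcases mem_insert.1 hn with h | h
    · exact Or.inl (Nat.dvd_of_mod_eq_zero h)
    · obtain ⟨α, hα, h⟩ := mem_image.1 h
      refine Or.inr ⟨α, hα, Nat.modEq_zero_iff_dvd.1 ?_⟩
      have h1 : n ≡ r p α [MOD p] := by rw [h]; exact (Nat.mod_modEq n p).symm
      exact ((h1.mul_left α).add_right 1).trans
        (Nat.modEq_zero_iff_dvd.2 (hr p α hp (hg α (mem_union_left _ hα))).2)

theorem Good.good_mass (h : Good s X) (B : Finset ℕ) (hB : #B ≤ 6)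
    (hB' : ∀ a ∈ B, a ≠ 0 ∧ a ≤ 2 * X) (y : ℕ) :
    L y - 6 * (s + 2) ≤ ∑ p ∈ y.primesLE with (∀ a ∈ B, ¬ p ∣ a), 1 / (p : ℝ) := by
  rw [L, ← sum_filter_add_sum_filter_not _ fun p => ∀ a ∈ B, ¬ p ∣ a]
  have h1 : (y.primesLE.filter fun p => ¬ ∀ a ∈ B, ¬ p ∣ a) ⊆ B.biUnion Nat.primeFactors := by
    intro p hp
    rw [mem_filter] at hp
    have := hp.2
    push Not at this
    obtain ⟨a, ha, hd⟩ := this
    exact mem_biUnion.2 ⟨a, ha, Nat.mem_primeFactors.2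
      ⟨Nat.prime_of_mem_primesLE hp.1, hd, (hB' a ha).1⟩⟩
  have h2 := (mu_mono h1).trans (mu_biUnion_le _ _)
  have h3 : ∑ a ∈ B, mu a.primeFactors ≤ #B • ((s : ℝ) + 2) :=
    sum_le_card_nsmul _ _ _ fun a ha => h.badmass (hB' a ha).1 (hB' a ha).2
  have h4 : (#B : ℝ) ≤ 6 := by exact_mod_cast hB
  rw [nsmul_eq_mul] at h3
  unfold mu at h2 h3
  nlinarith [sge h.s_ge]

theorem sieve_err (hs : 10 ^ 12 ≤ s) {y N k : ℕ} (hk : (k : ℝ) = 6 * (s : ℝ) ^ 55)
    (hy : y ^ R s < N) (hy2 : 2 ≤ y) (hN : Real.exp ((s : ℝ) ^ 59) ≤ N) :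
    (y + 1 : ℝ) + 3 * (((y : ℝ) + 1) ^ 2) ^ (2 * k) ≤ N * Real.exp (-(3 * (s : ℝ) ^ 55)) := by
  have hy' : (2 : ℝ) ≤ y := by exact_mod_cast hy2
  have hk1 : 1 ≤ k := by
    have : (1 : ℝ) ≤ k := by rw [hk]; linarith [pw hs 0 55 (by norm_num)]
    exact_mod_cast this
  have hkR : 16 * k + 4 ≤ R s := by
    have : ((16 * k + 4 : ℕ) : ℝ) ≤ R s := by
      push_cast
      rw [hk, cast_R]; linarith [pw hs 0 55 (by norm_num), pw hs 55 56 (by norm_num)]
    exact_mod_cast this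
  refine sq_small (by positivity) ?_ (le_trans (Real.exp_le_exp.2 ?_) hN)
  · have h1 : (y + 1 : ℝ) ≤ (((y : ℝ) + 1) ^ 2) ^ (2 * k) := by
      rw [← pow_mul]; exact le_self_pow₀ (by linarith) (by omega)
    have h2 : (((y : ℝ) + 1) ^ 2) ^ (2 * k) ≤ (y : ℝ) ^ (8 * k) := by
      rw [show 8 * k = 2 * 2 * (2 * k) by ring, pow_mul (y : ℝ) (2 * 2), pow_mul (y : ℝ) 2 2]
      exact pow_le_pow_left₀ (by positivity) (pow_le_pow_left₀ (by positivity) (by nlinarith) 2) _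
    have h3 : (4 : ℝ) ≤ (y : ℝ) ^ 2 := by nlinarith
    calc _ ≤ ((y : ℝ) ^ 2 * (y : ℝ) ^ (8 * k)) ^ 2 := by
          refine pow_le_pow_left₀ (by positivity) ?_ 2
          nlinarith [mul_le_mul_of_nonneg_right h3 (by positivity : (0 : ℝ) ≤ (y : ℝ) ^ (8 * k))]
      _ = (y : ℝ) ^ (16 * k + 4) := by ring
      _ ≤ (y : ℝ) ^ R s := pow_le_pow_right₀ (by linarith) hkR
      _ ≤ N := by exact_mod_cast hy.le
  · linarith [pw hs 55 59 (by norm_num), (by positivity : (0 : ℝ) ≤ (s : ℝ) ^ 55)]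

/-- The sieve bound. -/
theorem Good.sieve (h : Good s X) (A : Finset ℕ) (hA : #A ≤ 2)
    (hA' : ∀ α ∈ A, α ≠ 0 ∧ α ≤ 2 * X) {N : ℕ} (hN : N ≤ 2 * X) (hL : 4 * (s : ℝ) ≤ L N)
    (V : Finset ℕ) (hV : ∀ β ∈ V, β ≤ N ∧ β.Prime ∧ ∀ α ∈ A, (α * β + 1).Prime) :
    (#V : ℝ) ≤ N * Real.exp (-((#A + 1) * L N) + (s : ℝ) ^ 2) := by
  have hs := h.s_ge
  have hs' := sge hs
  obtain ⟨y, hy1, hy2, hy3⟩ := exists_root_R hs hL
  have hy4 : 2 ≤ y := by
    have : (2 : ℝ) ≤ y := by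
      linarith [Real.add_one_le_exp ((s : ℝ) ^ 59), pw hs 0 59 (by norm_num)]
    exact_mod_cast this
  have hyN : y ≤ N := (Nat.le_self_pow (by have := R_pos hs; omega) y).trans hy1.le
  have hNb := big_of_L hs (t := N) (by linarith)
  obtain ⟨Rs, hRs⟩ := exists_residues A
  set B := A ∪ A.offDiag.image (fun r => Nat.dist r.1 r.2) with hB
  have hB1 : #B ≤ 6 := by
    have h1 : #A.offDiag ≤ #A * #A := by rw [offDiag_card]; omega
    have h2 : #B ≤ #A + #A * #A :=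
      (card_union_le _ _).trans (add_le_add_right (card_image_le.trans h1) #A)
    nlinarith
  have hB2 : ∀ a ∈ B, a ≠ 0 ∧ a ≤ 2 * X := fun a ha => by
    rcases mem_union.1 ha with ha | ha
    · exact hA' a ha
    · obtain ⟨r, hr, rfl⟩ := mem_image.1 ha
      rw [mem_offDiag] at hr
      have := hA' _ hr.1
      have := hA' _ hr.2.1
      have := hr.2.2
      unfold Nat.dist; omega
  set P := y.primesLE.filter fun p => ∀ a ∈ B, ¬ p ∣ a with hP
  have hPp : ∀ p ∈ P, p.Prime := fun p hp => Nat.prime_of_mem_primesLE (mem_filter.1 hp).1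
  have hPy : ∀ p ∈ P, p ≤ y := fun p hp => Nat.le_of_mem_primesLE (mem_filter.1 hp).1
  obtain ⟨k, hk⟩ : ∃ k : ℕ, (k : ℝ) = 6 * (s : ℝ) ^ 55 := ⟨6 * s ^ 55, by push_cast; rfl⟩
  have h1 := brun P hPp Rs (#A + 1) (fun p hp => (hRs p (hPp p hp) (mem_filter.1 hp).2).1) k (N + 1)
  have h2 : V ⊆ range (y + 1) ∪ (range (N + 1)).filter fun n => ∀ p ∈ P, n % p ∉ Rs p := by
    intro β hβ
    obtain ⟨h3, h4, h5⟩ := hV β hβ
    rw [mem_union, mem_filter, mem_range, mem_range]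
    by_cases h6 : β < y + 1
    · exact Or.inl h6
    refine Or.inr ⟨by omega, fun p hp hm => ?_⟩
    have h7 := hPy p hp
    rcases (hRs p (hPp p hp) (mem_filter.1 hp).2).2 β hm with h8 | ⟨α, hα, h8⟩
    · have := (Nat.prime_dvd_prime_iff_eq (hPp p hp) h4).1 h8
      omega
    · have := (Nat.prime_dvd_prime_iff_eq (hPp p hp) (h5 α hα)).1 h8
      have := Nat.le_mul_of_pos_left β (Nat.pos_of_ne_zero (hA' α hα).1)
      omega
  have h3 : (#V : ℝ) ≤ (y + 1 : ℝ) +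
      #((range (N + 1)).filter fun n => ∀ p ∈ P, n % p ∉ Rs p) := by
    have := (card_le_card h2).trans (card_union_le _ _)
    rw [card_range] at this
    exact_mod_cast this
  have h4 := submass P (a := fun p => (p : ℝ)) (fun _ _ => Nat.cast_nonneg _)
    (T := ((y : ℝ) + 1) ^ 2) (one_le_pow₀ (by linarith [(Nat.cast_nonneg y : (0 : ℝ) ≤ _)])) (by
      have h5 : #P ≤ y + 1 := by
        rw [← card_range (y + 1)]
        exact card_le_card fun p hp => mem_range.2 (Nat.lt_succ_of_le (hPy p hp))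
      have h6 : (#P : ℝ) ≤ y + 1 := by exact_mod_cast h5
      have h7 := sum_le_card_nsmul P (fun p => (p : ℝ)) (y + 1) fun p hp => by
        exact_mod_cast (hPy p hp).trans (Nat.le_succ y)
      rw [nsmul_eq_mul] at h7
      nlinarith [(Nat.cast_nonneg y : (0 : ℝ) ≤ _)]) (2 * k)
  have h5 := sieve_err hs hk hy1 hy4 hNb
  have h6 := h.good_mass B hB1 hB2 y
  have h7 : ∑ p ∈ P, 1 / (p : ℝ) ≤ L N :=
    (sum_le_sum_of_subset_of_nonneg (filter_subset _ _) fun _ _ _ => by positivity).trans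
      (L_mono hyN)
  have h8 := h.L_le hN
  have h9 := L_succ_le y
  rw [← hP] at h6
  push_cast at h1
  set S := ∑ p ∈ P, 1 / (p : ℝ)
  set ρ : ℝ := #A + 1
  have hρ : ρ ≤ 3 := by
    have : (#A : ℝ) ≤ 2 := by exact_mod_cast hA
    linarith
  have hρ0 : 0 ≤ ρ := by positivity
  have hL0 := L_nonneg N
  set E := Real.exp (-(ρ * L N) + 30 * s)
  have e1 : Real.exp (-(ρ * S)) ≤ E := Real.exp_le_exp.2 (by nlinarith)
  have e2 : Real.exp (3 * (ρ * S) - (2 * k + 1)) ≤ E := Real.exp_le_exp.2 (by nlinarith)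
  have e3 : Real.exp (-(3 * (s : ℝ) ^ 55)) ≤ E := Real.exp_le_exp.2 (by nlinarith)
  have e4 : 5 * E ≤ Real.exp (-(ρ * L N) + (s : ℝ) ^ 2) := by
    have : Real.exp (-(ρ * L N) + (s : ℝ) ^ 2) = Real.exp ((s : ℝ) ^ 2 - 30 * s) * E := by
      rw [← Real.exp_add]; congr 1; ring
    rw [this]
    refine mul_le_mul_of_nonneg_right ?_ (Real.exp_pos _).le
    nlinarith [Real.add_one_le_exp ((s : ℝ) ^ 2 - 30 * s)]
  have hN1 : (1 : ℝ) ≤ N := by
    linarith [Real.add_one_le_exp ((s : ℝ) ^ 59), pw hs 0 59 (by norm_num)]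
  have hE : 0 ≤ E := (Real.exp_pos _).le
  have e5 := mul_le_mul_of_nonneg_left (add_le_add e1 e2) (by linarith : (0 : ℝ) ≤ N + 1)
  have e6 := mul_le_mul_of_nonneg_left e3 (by linarith : (0 : ℝ) ≤ N)
  have e7 := mul_le_mul_of_nonneg_left e4 (by linarith : (0 : ℝ) ≤ N)
  nlinarith

/-- The sieve bound in the form used for removing a big prime. -/
theorem Good.sieve_mass (h : Good s X) (A : Finset ℕ) (hA : #A ≤ 2)
    (hA' : ∀ α ∈ A, α ≠ 0 ∧ α ≤ 2 * X) {l : ℕ} (hl : W s ≤ l) (V : Finset ℕ)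
    (hV : ∀ β ∈ V, β ≤ X ∧ β.Prime ∧ lev β ≤ l ∧ l ≤ lev β + 3 * D s ∧
      ∀ α ∈ A, (α * β + 1).Prime) :
    mu V ≤ Real.exp (-(#A * l) + 10 * (s : ℝ) ^ 30) := by
  have hs := h.s_ge
  have hA2 : (#A : ℝ) ≤ 2 := by exact_mod_cast hA
  have hl' : (s : ℝ) ^ 31 ≤ l := by rw [← cast_W]; exact_mod_cast hl
  have p1 := pw hs 30 31 (by norm_num)
  have p2 := pw hs 2 30 (by norm_num)
  have p3 := pw1 hs 2 (by norm_num)
  have p4 := sge hs
  set F := Real.exp (-((#A + 1) * (l - 3 * (s : ℝ) ^ 30)) + (s : ℝ) ^ 2) with hF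
  have h1 := dyadic V (fun n hn => (hV n hn).2.1.ne_zero) (fun _ => F) fun k hk => by
    obtain ⟨β, hβ, rfl⟩ := mem_image.1 hk
    obtain ⟨h1, h2, -, h4, -⟩ := hV β hβ
    have h5 : 2 ^ Nat.log 2 β ≤ β := Nat.pow_log_le_self 2 h2.ne_zero
    have h6 : β ≤ 2 ^ (Nat.log 2 β + 1) := (Nat.lt_pow_succ_log_self (by norm_num) β).le
    have h7 : (l : ℝ) ≤ lev β + 3 * (s : ℝ) ^ 30 := by rw [← cast_D]; exact_mod_cast h4
    have h8 := (lev_le_L β).trans (L_mono h6)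
    have h9 := h.sieve A hA hA' (N := 2 ^ (Nat.log 2 β + 1)) (by rw [pow_succ]; omega)
      (by linarith) (V.filter (· < 2 ^ (Nat.log 2 β + 1))) fun γ hγ => by
        rw [mem_filter] at hγ
        exact ⟨hγ.2.le, (hV γ hγ.1).2.1, (hV γ hγ.1).2.2.2.2⟩
    push_cast at h9
    refine h9.trans (mul_le_mul_of_nonneg_left (Real.exp_le_exp.2 ?_) (by positivity))
    nlinarith [(Nat.cast_nonneg #A : (0 : ℝ) ≤ _)]
  have h2 : (#(V.image (Nat.log 2)) : ℝ) ≤ Real.exp (l + 7) := by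
    have h3 : V.image (Nat.log 2) ⊆ range (⌊2 * Real.exp (l + 5)⌋₊ + 1) := fun k hk => by
      obtain ⟨β, hβ, rfl⟩ := mem_image.1 hk
      obtain ⟨-, h2, h3, -, -⟩ := hV β hβ
      rw [mem_range, Nat.lt_succ_iff]
      refine Nat.le_floor ?_
      have h5 : (2 : ℝ) ^ Nat.log 2 β ≤ β + 1 := by
        exact_mod_cast (Nat.pow_log_le_self 2 h2.ne_zero).trans (Nat.le_succ β)
      have h6 := (Real.log_le_log (by positivity) h5).trans (log_le_exp β)
      rw [Real.log_pow] at h6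
      have h7 : Real.exp (L β + 4) ≤ Real.exp (l + 5) := by
        have : (lev β : ℝ) ≤ l := by exact_mod_cast h3
        exact Real.exp_le_exp.2 (by linarith [L_lt_lev β])
      nlinarith [Real.log_two_gt_d9, (Nat.cast_nonneg (Nat.log 2 β) : (0 : ℝ) ≤ _)]
    have h4 := card_le_card h3
    rw [card_range] at h4
    have h5 : (#(V.image (Nat.log 2)) : ℝ) ≤ ⌊2 * Real.exp (l + 5)⌋₊ + 1 := by exact_mod_cast h4
    have h6 := Nat.floor_le (show 0 ≤ 2 * Real.exp (l + 5) by positivity)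
    have h7 : Real.exp (l + 7) = Real.exp 2 * Real.exp (l + 5) := by
      rw [← Real.exp_add]; congr 1; ring
    have h8 := Real.add_one_le_exp ((l : ℝ) + 5)
    nlinarith [Real.add_one_le_exp 2, (Nat.cast_nonneg l : (0 : ℝ) ≤ _)]
  rw [sum_const, nsmul_eq_mul] at h1
  calc mu V ≤ Real.exp (l + 7) * (Real.exp 1 * F) := h1.trans (mul_le_mul h2
        (mul_le_mul_of_nonneg_right (by linarith [Real.add_one_le_exp 1]) (by positivity))
        (by positivity) (by positivity))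
    _ ≤ _ := by
        rw [hF, ← Real.exp_add, ← Real.exp_add]
        refine Real.exp_le_exp.2 ?_
        nlinarith [(by positivity : (0 : ℝ) ≤ (s : ℝ) ^ 30)]

end Vale.Agent.P031
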