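import Vale.Agent.P031.Ent

/-! Properties of the iterated thresholds. -/

open Finset

namespace Vale.Agent.P031

/-- Comparison of states up to an error. -/
def SLe (n : ℕ) (σ σ' : St) (e : ℝ) : Prop :=
  σ.1 ≤ σ'.1 + e ∧ ∀ g, 1 ≤ g → g ≤ n → σ.2 g ≤ σ'.2 g + e

theorem SLe.th_le {n : ℕ} {σ σ' : St} {e : ℝ} (h : SLe (n + 1) σ σ' e) : th σ ≤ th σ' + e :=
  max_le (h.1.trans (add_le_add_left (le_max_left _ _) _))
    ((h.2 1 le_rfl (by omega)).trans (add_le_add_left (le_max_right _ _) _))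

theorem SLe.push {n : ℕ} (hn : n ≤ 4) {σ σ' : St} {e x x' : ℝ} (he : 0 ≤ e)
    (h : SLe (n + 1) σ σ' e) (hx : x ≤ x' + e) : SLe n (push x σ) (push x' σ') (3 * e) := by
  refine ⟨by simp only [P031.push]; linarith, fun g h1 h2 => ?_⟩
  simp only [P031.push]
  have h3 := h.2 (g + 1) (by omega) (by omega)
  have h4 := aa_ge h1
  have h5 := aa_le_two (h2.trans hn)
  nlinarith [mul_le_mul_of_nonneg_left hx (by linarith : 0 ≤ aa g)]

theorem lip_pos (n : ℕ) (hn : n ≤ 4) : ∀ {σ σ' : St} {e : ℝ}, 0 ≤ e → SLe (n + 1) σ σ' e →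
    Z n σ ≤ Z n σ' + 3 ^ n * e := by
  induction n with
  | zero => intro σ σ' e _ h; simpa [Z] using h.th_le
  | succ n ih =>
    intro σ σ' e he h
    have := ih (by omega) (by positivity) (h.push hn he h.th_le)
    simp only [Z]
    rw [pow_succ, mul_assoc]
    exact this

theorem lip_neg (n : ℕ) : ∀ {σ σ' : St} {e : ℝ}, e ≤ 0 → SLe (n + 1) σ σ' e →
    Z n σ ≤ Z n σ' + e := by
  induction n with
  | zero => intro σ σ' e _ h; simpa [Z] using h.th_le
  | succ n ih =>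
    intro σ σ' e he h
    refine ih he ⟨h.th_le, fun g h1 h2 => ?_⟩
    simp only [push]
    have h3 := h.2 (g + 1) (by omega) (by omega)
    have h4 := aa_ge h1
    nlinarith [mul_le_mul_of_nonneg_left h.th_le (by linarith : 0 ≤ aa g)]

theorem Z_push_le {n : ℕ} (hn : n ≤ 3) {σ σ' : St} {e x x' : ℝ} (he : 0 ≤ e)
    (h : SLe (n + 2) σ σ' e) (hx : x ≤ x' + e) :
    Z n (push x σ) ≤ Z n (push x' σ') + 81 * e := by
  have h1 := lip_pos n (by omega) (by positivity) (h.push (by omega) he hx)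
  have h2 : (3 : ℝ) ^ n ≤ 3 ^ 3 := pow_le_pow_right₀ (by norm_num) hn
  nlinarith

theorem SLe.refl (n : ℕ) (σ : St) {e : ℝ} (he : 0 ≤ e) : SLe n σ σ e :=
  ⟨by linarith, fun _ _ _ => by linarith⟩

theorem Z_push_slope (n : ℕ) (σ : St) {x x' : ℝ} (hx : x ≤ x') :
    Z n (push x σ) + (x' - x) / 3 ≤ Z n (push x' σ) := by
  have := lip_neg n (σ := push x σ) (σ' := push x' σ) (e := -((x' - x) / 3)) (by linarith)
    ⟨by simp only [push]; linarith, fun g h1 _ => by
      simp only [push]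
      nlinarith [aa_ge h1]⟩
  linarith

theorem th_le_Z (n : ℕ) : ∀ σ : St, th σ ≤ Z n σ := by
  induction n with
  | zero => intro σ; exact le_rfl
  | succ n ih => intro σ; exact (le_max_left _ _).trans (ih (push (th σ) σ))

theorem Z_zero (n : ℕ) : Z n (0, fun _ => 0) = 0 := by
  induction n with
  | zero => simp [Z, th]
  | succ n ih => simpa [Z, th, push] using ih

theorem rel_mul {ρ : ℝ} (hρ : 0 ≤ ρ) (n : ℕ) : ∀ {σ σ' : St}, ρ * th σ ≤ th σ' →
    (∀ g, 2 ≤ g → g ≤ n + 1 → ρ * σ.2 g ≤ σ'.2 g) → ρ * Z n σ ≤ Z n σ' := by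
  induction n with
  | zero => intro σ σ' h _; exact h
  | succ n ih =>
    intro σ σ' h1 h2
    have key : ∀ g, 1 ≤ g → g ≤ n + 1 →
        ρ * (push (th σ) σ).2 g ≤ (push (th σ') σ').2 g := fun g h3 h4 => by
      simp only [push]
      have h5 := h2 (g + 1) (by omega) (by omega)
      nlinarith [mul_le_mul_of_nonneg_left h1 (by linarith [aa_ge h3] : 0 ≤ aa g)]
    refine ih ?_ fun g h3 h4 => key g (by omega) h4
    rw [th, mul_max_of_nonneg _ _ hρ]
    exact max_le_max h1 (key 1 le_rfl (by omega))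

theorem growth {σ : St} (h0 : 0 ≤ σ.1) (h1 : 0 ≤ σ.2 1) (h2 : ∀ g, σ.2 g ≤ σ.2 (g + 1))
    (h3 : 2 / 3 * σ.1 ≤ σ.2 2) (h4 : σ.2 3 ≤ 8 * σ.2 1) : 25 / 24 * Z 2 σ ≤ Z 3 σ := by
  have h5 : σ.2 1 ≤ th σ := le_max_right _ _
  refine rel_mul (by norm_num) 2 (le_trans ?_ (le_max_right _ _)) fun g h6 h7 => ?_
  · simp only [push]
    have h6 := mul_le_mul_of_nonneg_right aa_one (h1.trans h5)
    rcases max_cases σ.1 (σ.2 1) with h7 | h7
    · have : th σ = σ.1 := h7.1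
      linarith
    · have : th σ = σ.2 1 := h7.1
      linarith [h2 1]
  · simp only [push]
    have h8 := mul_le_mul_of_nonneg_right (aa_ge (g := g) (by omega)) (h1.trans h5)
    have h9 := h2 g
    have h10 : σ.2 g ≤ σ.2 3 := by
      obtain rfl | rfl : g = 2 ∨ g = 3 := by omega
      exacts [h2 2, le_rfl]
    linarith

theorem aa_le_eight (i : ℕ) : aa (3 + i) ≤ 8 * aa (1 + i) := by
  have h1 := aa_le_log (3 + i)
  have h2 := log_le_aa (g := 1 + i) (by omega)
  have h3 := aa_ge (g := 1 + i) (by omega)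
  have h4 : Real.log (((3 + i : ℕ) : ℝ) + 1) ≤ Real.log (2 ^ 2 * ((1 + i : ℕ) : ℝ)) :=
    Real.log_le_log (by positivity) (by push_cast; linarith [(Nat.cast_nonneg i : (0 : ℝ) ≤ _)])
  rw [Real.log_mul (by norm_num) (by positivity), Real.log_pow] at h4
  push_cast at h1 h2 h4
  linarith [Real.log_two_lt_d9]

end Vale.Agent.P031
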