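import Vale.Agent.P031.Layer

/-! The upper bound for the number of totient values. -/

open Finset

namespace Vale.Agent.P031

variable {s X : ℕ}

/-- The main set of cofactors. -/
noncomputable def MM (s X : ℕ) : Finset ℕ := G s X 0 (U s X - (s : ℝ) ^ 34)

theorem Good.U_ge (h : Good s X) : 10 ^ 6 * (s : ℝ) ^ 34 ≤ U s X := by
  unfold U
  linarith [h.le_lev, pw h.s_ge 0 31 (by norm_num), pw h.s_ge 31 34 (by norm_num),
    pw h.s_ge 34 54 (by norm_num)]

theorem lev_le_top (Q : Finset ℕ) {q : ℕ} (hq : q ∈ Q) :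
    (lev q : ℝ) - (s : ℝ) ^ 31 ≤ (st s X Q).1 := by
  have h8 : lev q ≤ W s + (Q.sup lev - W s) := by
    have := le_sup (f := lev) hq
    omega
  have h9 : (lev q : ℝ) ≤ W s + ((Q.sup lev - W s : ℕ) : ℝ) := by exact_mod_cast h8
  simp only [st]
  linarith [cast_W s]

theorem Good.low_of (h : Good s X) {Q : Finset ℕ} (hQ : (st s X Q).1 ≤ U s X - (s : ℝ) ^ 34)
    {p : ℕ} (hp : lev p ≤ W s ∨ ∃ q ∈ Q, p ≤ q) : L p + s < L X := by
  have p1 := pw h.s_ge 0 34 (by norm_num)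
  have p2 := pw1 h.s_ge 34 (by norm_num)
  have h1 : (lev p : ℝ) - (s : ℝ) ^ 31 ≤ (st s X Q).1 := by
    rcases hp with hp | ⟨q, hq, hp⟩
    · have : (lev p : ℝ) ≤ W s := by exact_mod_cast hp
      have h2 : 0 ≤ (st s X Q).1 := Nat.cast_nonneg _
      linarith [cast_W s]
    · have : (lev p : ℝ) ≤ lev q := by exact_mod_cast lev_mono hp
      linarith [lev_le_top (s := s) (X := X) Q hq]
  unfold U at hQ
  linarith [L_lt_lev p, lev_le_L X]

theorem Good.val_le (h : Good s X) {Q : Finset ℕ} {τ Y : ℕ} (hQ : Q ⊆ NP s X) (hc : #Q ≤ s + 4)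
    (hτ : τ ∈ Tail s X) (ht : (st s X Q).1 ≤ U s X - (s : ℝ) ^ 34) (hY : X ≤ Y ^ 8) :
    val Q τ ≤ Y := by
  classical
  have hs := h.s_ge
  obtain ⟨h1, h2, h3, h4⟩ := tail_facts hτ
  have h5 : 2 ≤ X := by
    have : (2 : ℝ) ≤ X := by
      linarith [h.big, Real.add_one_le_exp ((s : ℝ) ^ 59), pw hs 0 59 (by norm_num)]
    exact_mod_cast this
  have h6 : L 2 + s < L X := h.low_of ht (Or.inl (by rw [lev_two]; exact Nat.zero_le _))
  set t := Nat.findGreatest (fun t => L t + s < L X) X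
  have h7 : L t + s < L X := Nat.findGreatest_spec (P := fun t => L t + s < L X) h5 h6
  have h8 : ∀ p ≤ X, (lev p ≤ W s ∨ ∃ q ∈ Q, p ≤ q) → p ≤ t := fun p hp h' =>
    Nat.le_findGreatest hp (h.low_of ht h')
  have h9 : 2 ≤ t := Nat.le_findGreatest h5 h6
  have h10 : val Q τ ≤ t ^ (τ.primeFactorsList.length + #Q) := by
    rw [val, pow_add]
    refine Nat.mul_le_mul (le_pow_length h1 fun p hp hd => h8 p
      ((Nat.le_of_dvd (Nat.pos_of_ne_zero h1) hd).trans h2) (Or.inl (h3 p hp hd)))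
      (prod_le_pow_card _ _ _ fun q hq => (Nat.sub_le _ _).trans
        (h8 q (mem_NP.1 (hQ hq)).1 (Or.inr ⟨q, hq, le_rfl⟩)))
  by_contra h11
  have h12 := hY.trans (Nat.pow_le_pow_left ((not_le.1 h11).le.trans h10) 8)
  rw [← pow_mul] at h12
  have h13 : (#Q : ℝ) ≤ s + 4 := by exact_mod_cast hc
  rw [Om_eq_length] at h4
  linarith [L_pow hs h9 h12 (by
    push_cast
    linarith [pw1 hs 32 (by norm_num), pw hs 32 60 (by norm_num), sge hs])]

theorem count_pairs (S : Finset ℕ) (hS : ∀ m ∈ S, m ≠ 0) (P : ℕ → Prop) [DecidablePred P]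
    {y N : ℕ} {B : ℝ} (hy : 1 ≤ y) (hN : N < X) (hB0 : 0 ≤ B)
    (hB : ∀ t, y < t → t ≤ X → ∀ V : Finset ℕ, (∀ p ∈ V, p ≤ t ∧ P p) → (#V : ℝ) ≤ t * B) :
    ∑ m ∈ S, (#((range (N / m + 2)).filter fun p => P p ∧ y < p) : ℝ) ≤ 2 * X * B * mu S := by
  rw [mu, mul_sum]
  refine sum_le_sum fun m hm => ?_
  rcases ((range (N / m + 2)).filter fun p => P p ∧ y < p).eq_empty_or_nonempty with h | ⟨p, hp⟩
  · rw [h, card_empty, Nat.cast_zero]; positivity
  rw [mem_filter, mem_range] at hp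
  have h1 := Nat.div_le_self N m
  refine (hB (N / m + 1) (by omega) (by omega) _ fun q hq => ?_).trans ?_
  · rw [mem_filter, mem_range] at hq
    exact ⟨by omega, hq.2.1⟩
  · rw [mul_right_comm]
    refine mul_le_mul_of_nonneg_right ?_ hB0
    have h2 : ((N / m + 1 : ℕ) : ℝ) ≤ 2 * (N / m : ℕ) := by exact_mod_cast (by omega)
    have h3 : ((N / m : ℕ) : ℝ) ≤ X / m := Nat.cast_div_le.trans
      (div_le_div_of_nonneg_right (by exact_mod_cast hN.le) (Nat.cast_nonneg m))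
    rw [mul_assoc, mul_one_div]
    linarith

theorem count_vals (S : Finset ℕ) (hS : ∀ m ∈ S, m ≠ 0) (P : ℕ → Prop) [DecidablePred P]
    (g : ℕ → ℕ) (hg : ∀ p, p ≤ g p + 1) {N : ℕ} (V : Finset ℕ)
    (hV : ∀ v ∈ V, v ≤ N ∧ ∃ m ∈ S, ∃ p, P p ∧ v = g p * m) :
    (#V : ℝ) ≤ ∑ m ∈ S, (#((range (N / m + 2)).filter P) : ℝ) := by
  have h1 : V ⊆ S.biUnion fun m => ((range (N / m + 2)).filter P).image fun p => g p * m :=
    fun v hv => by
      obtain ⟨h1, m, hm, p, hp, rfl⟩ := hV v hv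
      refine mem_biUnion.2 ⟨m, hm, mem_image.2 ⟨p, mem_filter.2 ⟨mem_range.2 ?_, hp⟩, rfl⟩⟩
      have := (Nat.le_div_iff_mul_le (Nat.pos_of_ne_zero (hS m hm))).2 h1
      have := hg p
      omega
  exact_mod_cast (card_le_card h1).trans (card_biUnion_le.trans (sum_le_sum fun _ _ =>
    card_image_le))

theorem Good.W_lt_lev (h : Good s X) {y p : ℕ} (hy : L X ≤ L (y + 1) + s) (hp : y < p) :
    W s < lev p := by
  have : (W s : ℝ) < lev p := by
    linarith [cast_W s, L_mono (Nat.succ_le_of_lt hp), L_lt_lev p, h.lo,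
      pw h.s_ge 31 54 (by norm_num), pw1 h.s_ge 31 (by norm_num), sge h.s_ge]
  exact_mod_cast this

open Classical in
theorem Good.classify (h : Good s X) {y Y : ℕ} (hy : L X ≤ L (y + 1) + s)
    (hy' : Real.exp ((s : ℝ) ^ 59) ≤ y + 1) (hY : X ≤ Y ^ 8) {v : ℕ} (hv : v ∈ Tot X) :
    v ≤ Y ^ 3 ∨ (Y ≤ v ∧ ∀ p, p.Prime → p ∣ v → p ≤ y) ∨
    (∃ q : ℕ, Real.exp ((s : ℝ) ^ 59) ≤ q ∧ q * (q - 1) ∣ v) ∨
    (∃ m ∈ Tot X, ∃ p, ((p.Prime ∧ ¬ Normal s p) ∧ y < p) ∧ v = (p - 1) * m) ∨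
    (∃ m ∈ Bad s X, ∃ p, (p.Prime ∧ y < p) ∧ v = (p - 1) * m) ∨
    (∃ m ∈ (range X).filter (IsNeg s X), ∃ p, (p.Prime ∧ y < p) ∧ v = p * m) ∨
    (∃ m ∈ G s X 0 (U s X + (s : ℝ) ^ 34) \ MM s X, ∃ p, (p.Prime ∧ Y < p) ∧ v = (p - 1) * m) ∨
    ∃ m ∈ MM s X, ∃ p, p.Prime ∧ v = (p - 1) * m := by
  have hs := h.s_ge
  obtain ⟨hX, n, hn, rfl⟩ := mem_Tot.1 hv
  have h0 := Nat.totient_pos.2 hn
  by_cases h1 : ∀ p, p.Prime → p ∣ n.totient → p ≤ y
  · rcases le_total Y n.totient with h2 | h2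
    · exact Or.inr (Or.inl ⟨h2, h1⟩)
    · exact Or.inl (h2.trans (Nat.le_self_pow (by norm_num) Y))
  push Not at h1
  obtain ⟨β, hβ, hβd, hβy⟩ := h1
  obtain ⟨q, hq, hqn, hβq⟩ := prime_dvd_totient hβ hn hβd
  have hne : n.primeFactors.Nonempty := ⟨q, Nat.mem_primeFactors.2 ⟨hq, hqn, by omega⟩⟩
  obtain ⟨p, hp, hpn, hmax⟩ : ∃ p, p.Prime ∧ p ∣ n ∧ ∀ r, r.Prime → r ∣ n → r ≤ p :=
    ⟨_, Nat.prime_of_mem_primeFactors (max'_mem _ hne), Nat.dvd_of_mem_primeFactors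
      (max'_mem _ hne), fun r hr hd => le_max' _ _ (Nat.mem_primeFactors.2 ⟨hr, hd, by omega⟩)⟩
  have hyp : y < p := hβy.trans_le (hβq.trans (hmax q hq hqn))
  by_cases h2 : p * p ∣ n
  · refine Or.inr (Or.inr (Or.inl ⟨p, hy'.trans (by exact_mod_cast hyp), ?_⟩))
    have := Nat.totient_dvd_of_dvd h2
    rwa [← sq, Nat.totient_prime_pow hp (by norm_num), show 2 - 1 = 1 from rfl, pow_one] at this
  obtain ⟨n', h3, h4, h5, h6⟩ := peel hn {p} fun r hr => by
    rw [mem_singleton.1 hr]; exact ⟨hp, hpn, h2⟩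
  rw [prod_singleton, mul_comm] at h5
  have h7 : n'.totient < X := (Nat.le_of_dvd h0 (Nat.totient_dvd_of_dvd h4)).trans_lt hX
  by_cases h8 : Normal s p
  swap
  · exact Or.inr (Or.inr (Or.inr (Or.inl ⟨_, mem_Tot.2 ⟨h7, n', h3, rfl⟩, p, ⟨⟨hp, h8⟩, hyp⟩, h5⟩)))
  have hpX := le_of_dvd_totient hn hp hpn hX
  have hpN : p ∈ NP s X := mem_NP.2 ⟨hpX, hp, h8, h.W_lt_lev hy hyp⟩
  rcases h.structure h3 h7 with ⟨Q, hQ, hQn, hc, hF, τ, hτ, h9⟩ | h9
  swap
  · exact Or.inr (Or.inr (Or.inr (Or.inr (Or.inl ⟨_, h9, p, ⟨hp, hyp⟩, h5⟩))))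
  have hQp : ∀ r ∈ Q, r < p := fun r hr => by
    have h10 := (h6 r (mem_NP.1 (hQ hr)).2.1).1 (hQn r hr)
    exact lt_of_le_of_ne (hmax r (mem_NP.1 (hQ hr)).2.1 h10.1) (by simpa using h10.2)
  have hU := h.U_ge
  have p1 := pw hs 0 34 (by norm_num)
  by_cases h10 : th (st s X Q) ≤ U s X + (s : ℝ) ^ 34
  · by_cases h11 : n'.totient ∈ MM s X
    · exact Or.inr (Or.inr (Or.inr (Or.inr (Or.inr (Or.inr (Or.inr ⟨_, h11, p, hp, h5⟩))))))
    by_cases h12 : Y < p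
    · exact Or.inr (Or.inr (Or.inr (Or.inr (Or.inr (Or.inr (Or.inl ⟨_, mem_sdiff.2 ⟨mem_G.2
        ⟨Q, τ, hQ, hτ, hF, by omega, h10, h9.symm⟩, h11⟩, p, ⟨hp, h12⟩, h5⟩))))))
    left
    rw [h5, h9]
    rcases Q.eq_empty_or_nonempty with rfl | hne
    · have := h.val_le hQ (by simp) hτ (by rw [st_empty]; simp only; linarith) hY
      calc _ ≤ Y * Y := Nat.mul_le_mul (by omega) this
        _ = Y ^ 2 := (sq Y).symm
        _ ≤ _ := Nat.pow_le_pow_right (by have := hp.two_le; omega) (by norm_num)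
    obtain ⟨r, Q', rfl, h13, h14⟩ := exists_top hne
    have hr := hQ (mem_insert_self _ _)
    have hQ' := (subset_insert _ _).trans hQ
    have h15 : gam s X (insert r Q') 1 ≤ th (st s X (insert r Q')) := le_max_right _ _
    rw [gam_insert hr h13] at h15
    have h16 : (st s X Q').1 ≤ (lev r : ℝ) - (s : ℝ) ^ 31 := by
      have h17 : Q'.sup lev - W s ≤ lev r - W s := Nat.sub_le_sub_right
        (Finset.sup_le fun q' hq' => lev_mono (h13 q' hq').le) _
      have h18 : ((Q'.sup lev - W s : ℕ) : ℝ) ≤ (lev r - W s : ℕ) := by exact_mod_cast h17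
      rwa [Nat.cast_sub (mem_NP.1 hr).2.2.2.le, cast_W] at h18
    have h17 : 0 ≤ (st s X Q').1 := Nat.cast_nonneg _
    have h18 := mul_le_mul aa_one h16 h17 (by linarith [aa_one])
    have h19 := h.val_le hQ' (by omega) hτ (by linarith [gam_two hQ']) hY
    have h20 := hQp r (mem_insert_self _ _)
    rw [val_insert fun h => lt_irrefl _ (h13 r h), pow_three]
    exact Nat.mul_le_mul (by omega) (Nat.mul_le_mul (by omega) h19)
  · obtain ⟨k, hk⟩ := hβd
    have hk0 : k ≠ 0 := by rintro rfl; omega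
    refine Or.inr (Or.inr (Or.inr (Or.inr (Or.inr (Or.inl ⟨k, mem_filter.2 ⟨mem_range.2
      ((Nat.le_of_dvd h0 ⟨β, by rw [hk, mul_comm]⟩).trans_lt hX), hk0, Or.inr ⟨insert p Q,
        insert_subset hpN hQ, (card_insert_le _ _).trans (by omega), ?_, fun r hr hd => ?_, β,
        Or.inr hβ, τ, ?_⟩⟩, β, ⟨hβ, hβy⟩, hk⟩)))))
    · rw [gam_insert hpN hQp, aa_zero]
      have h11 : (st s X Q).1 ≤ U s X := by
        have h12 : Q.sup lev - W s ≤ lev X - W s := Nat.sub_le_sub_right (sup_lev_le hQ) _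
        have h13 : ((Q.sup lev - W s : ℕ) : ℝ) ≤ (lev X - W s : ℕ) := by exact_mod_cast h12
        rwa [Nat.cast_sub h.W_le, cast_W] at h13
      have h12 : U s X + (s : ℝ) ^ 34 < gam s X Q 1 :=
        (lt_max_iff.1 (not_le.1 h10)).resolve_left (by linarith)
      have h13 : (lev p : ℝ) ≤ lev X := by exact_mod_cast lev_mono hpX
      unfold U at h12
      linarith
    · obtain ⟨r', h11, h12, h13⟩ := prime_dvd_totient hr hn (hk ▸ hd.mul_left β)
      have h14 := h13.trans (hmax r' h11 h12)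
      exact ⟨h14.trans hpX, (lev_mono h14).trans (le_sup (f := lev) (mem_insert_self _ _))⟩
    · rw [mul_comm k, ← hk, h5, h9, ← val_insert fun h => lt_irrefl _ (hQp p h), val, mul_comm]

theorem pi_le {t Y : ℕ} (hY : X ≤ Y ^ 8) (hX : 2 ≤ X) (ht : Y < t) (V : Finset ℕ)
    (hV : ∀ p ∈ V, p ≤ t ∧ p.Prime) : (#V : ℝ) ≤ t * (40 / Real.log X) := by
  have hY1 : 2 ≤ Y := by
    by_contra h
    have := Nat.pow_le_pow_left (show Y ≤ 1 by omega) 8
    omega
  have ht1 : (1 : ℝ) < t := by exact_mod_cast (by omega)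
  have h1 := Chebyshev.pi_le_log4_mul_div ht1
  rw [Nat.floor_natCast, ← Nat.primesLE_card_eq_primeCounting] at h1
  have h2 : (#V : ℝ) ≤ #t.primesLE := by
    exact_mod_cast card_le_card fun p hp => Nat.mem_primesLE.2 (hV p hp)
  have hX0 : 0 < Real.log X := Real.log_pos (by exact_mod_cast hX)
  have h3 : Real.log X ≤ 16 * Real.log √t := by
    rw [Real.log_sqrt (by linarith)]
    have : (X : ℝ) ≤ (t : ℝ) ^ 8 := by exact_mod_cast hY.trans (Nat.pow_le_pow_left ht.le 8)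
    have := Real.log_le_log (by exact_mod_cast (by omega)) this
    rw [Real.log_pow] at this
    push_cast at this
    linarith
  have h4 : 0 < Real.log √t := by linarith
  have h5 : √t ≤ t / Real.log √t := by
    rw [le_div_iff₀ h4]
    have h6 := Real.log_le_sub_one_of_pos (Real.sqrt_pos.2 (by linarith : (0 : ℝ) < t))
    have h7 := Real.mul_self_sqrt (by linarith : (0 : ℝ) ≤ t)
    nlinarith [Real.sqrt_nonneg (t : ℝ)]
  have h6 : Real.log 4 ≤ 3 / 2 := by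
    rw [show (4 : ℝ) = 2 ^ 2 by norm_num, Real.log_pow]
    push_cast; linarith [Real.log_two_lt_d9]
  have h7 : (t : ℝ) / Real.log √t ≤ t * (16 / Real.log X) := by
    rw [← mul_div_assoc, div_le_div_iff₀ h4 hX0, mul_assoc]
    exact mul_le_mul_of_nonneg_left h3 (by linarith)
  have h8 : 0 ≤ (t : ℝ) / Real.log √t := by positivity
  rw [mul_div_assoc] at h1
  have h9 : (t : ℝ) * (40 / Real.log X) = 5 / 2 * (t * (16 / Real.log X)) := by ring
  nlinarith

theorem Good.two_le (h : Good s X) : 2 ≤ X := by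
  have : (2 : ℝ) ≤ X := by
    linarith [h.big, Real.add_one_le_exp ((s : ℝ) ^ 59), pw h.s_ge 0 59 (by norm_num)]
  exact_mod_cast this

/-- The unit for negligible terms. -/
theorem Good.unit (h : Good s X) {a : ℝ} (ha : a ≤ -L X - s) :
    X * Real.exp a ≤ 1 / s * (X / Real.log X) := by
  have hX : (2 : ℝ) ≤ X := by exact_mod_cast h.two_le
  have p0 := sge h.s_ge
  have h0 : 0 < Real.log X := Real.log_pos (by linarith)
  have h1 := (Real.log_le_log (by linarith) (le_add_of_nonneg_right zero_le_one)).trans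
    (log_le_exp X)
  have h2 : (s : ℝ) ≤ Real.exp (s - 4) :=
    (le_trans (by linarith [pw1 h.s_ge 60 (by norm_num)]) (pow_le_exp h.s_ge)).trans
      (Real.exp_le_exp.2 (by linarith))
  have h3 := mul_le_mul h2 h1 h0.le (Real.exp_pos _).le
  rw [← Real.exp_add] at h3
  rw [div_mul_div_comm, one_mul, div_eq_mul_inv]
  refine mul_le_mul_of_nonneg_left ((Real.exp_le_exp.2 ha).trans ?_) (by linarith)
  rw [show -L X - s = -(s - 4 + (L X + 4)) by ring, Real.exp_neg]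
  exact inv_anti₀ (by positivity) h3

theorem Good.tail_le_MM (h : Good s X) : mu (Tail s X) ≤ mu (MM s X) :=
  mu_mono (tail_subset_G h.s_ge (by norm_num) (by
    linarith [h.U_ge, pw h.s_ge 0 34 (by norm_num)]))

theorem ne_zero_of_mem_G {n m : ℕ} {A : ℝ} (hm : m ∈ G s X n A) : m ≠ 0 := by
  obtain ⟨Q, τ, h1, h2, -, -, -, rfl⟩ := mem_G.1 hm
  exact val_ne h1 h2

theorem card_primes_range (t : ℕ) :
    #((range (t + 2)).filter Nat.Prime) = Nat.primeCounting (t + 1) :=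
  Nat.primesLE_card_eq_primeCounting (t + 1)

/-- A bound for the number of elements of `T` with property `P`. -/
def Bd {α : Type} (T : Finset α) (P : α → Prop) (c : ℝ) : Prop :=
  ∀ V ⊆ T, (∀ v ∈ V, P v) → (#V : ℝ) ≤ c

theorem Bd.or {α : Type} {T : Finset α} {P Q : α → Prop} {c d : ℝ} (hP : Bd T P c)
    (hQ : Bd T Q d) : Bd T (fun v => P v ∨ Q v) (c + d) := fun V hV h => by
  classical
  have h1 := hP (V.filter P) ((filter_subset _ _).trans hV) fun v hv => (mem_filter.1 hv).2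
  have h2 := hQ (V.filter fun v => ¬ P v) ((filter_subset _ _).trans hV) fun v hv =>
    (h v (mem_filter.1 hv).1).resolve_left (mem_filter.1 hv).2
  have h3 : (#V : ℝ) = #(V.filter P) + #(V.filter fun v => ¬ P v) := by
    exact_mod_cast (card_filter_add_card_filter_not P).symm
  linarith

theorem Bd.mono {α : Type} {T : Finset α} {P : α → Prop} {c d : ℝ} (hP : Bd T P c) (h : c ≤ d) :
    Bd T P d := fun V hV h' => (hP V hV h').trans h

theorem tot_facts {N v : ℕ} (hN : N < X) (hv : v ∈ Tot (N + 1)) : v ≠ 0 ∧ v ≤ N ∧ v ∈ Tot X := by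
  obtain ⟨h1, n, hn, rfl⟩ := mem_Tot.1 hv
  exact ⟨(Nat.totient_pos.2 hn).ne', by omega, mem_Tot.2 ⟨by omega, n, hn, rfl⟩⟩

theorem bd_count {N : ℕ} (hN : N < X) (S : Finset ℕ) (hS : ∀ m ∈ S, m ≠ 0) (P : ℕ → Prop)
    (g : ℕ → ℕ) (hg : ∀ p, p ≤ g p + 1) {z : ℕ} {B : ℝ} (hz : 1 ≤ z) (hB0 : 0 ≤ B)
    (hB : ∀ t, z < t → t ≤ X → ∀ V : Finset ℕ, (∀ p ∈ V, p ≤ t ∧ P p) → (#V : ℝ) ≤ t * B) :
    Bd (Tot (N + 1)) (fun v => ∃ m ∈ S, ∃ p, (P p ∧ z < p) ∧ v = g p * m)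
      (2 * X * B * mu S) := fun V hV h => by
  classical
  exact (count_vals S hS (fun p => P p ∧ z < p) g hg V fun v hv =>
    ⟨(tot_facts hN (hV hv)).2.1, h v hv⟩).trans (count_pairs S hS P hz hN hB0 hB)

theorem Good.prime_card (h : Good s X) {y : ℕ} (hy : L X ≤ L (y + 1) + s) (t : ℕ) (h1 : y < t)
    (h2 : t ≤ X) (V : Finset ℕ) (hV : ∀ p ∈ V, p ≤ t ∧ p.Prime) :
    (#V : ℝ) ≤ t * Real.exp (-L X + 2 * (s : ℝ) ^ 2) := by
  have p0 := sge h.s_ge
  have p1 := pw1 h.s_ge 2 (by norm_num)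
  have p2 := pw1 h.s_ge 54 (by norm_num)
  have h3 := L_mono (Nat.succ_le_of_lt h1)
  refine (h.sieve ∅ (by simp) (by simp) (N := t) (by omega) (by linarith [h.lo]) V fun β hβ =>
    ⟨(hV β hβ).1, (hV β hβ).2, by simp⟩).trans (mul_le_mul_of_nonneg_left
      (Real.exp_le_exp.2 ?_) (Nat.cast_nonneg t))
  simp only [card_empty, Nat.cast_zero, zero_add, one_mul]
  linarith

theorem Good.abn_card' (h : Good s X) {y : ℕ} (hy : L X ≤ L (y + 1) + s) (t : ℕ) (h1 : y < t)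
    (h2 : t ≤ X) (V : Finset ℕ) (hV : ∀ p ∈ V, p ≤ t ∧ p.Prime ∧ ¬ Normal s p) :
    (#V : ℝ) ≤ t * Real.exp (-L X - (s : ℝ) ^ 3) := by
  have p0 := sge h.s_ge
  have p1 := pw1 h.s_ge 3 (by norm_num)
  have p2 := pw1 h.s_ge 54 (by norm_num)
  have h3 := L_mono (Nat.succ_le_of_lt h1)
  exact (h.abn_card (t := t) (by omega) (by linarith [h.lo]) V hV).trans
    (mul_le_mul_of_nonneg_left (Real.exp_le_exp.2 (by linarith)) (Nat.cast_nonneg t))

/-- The error unit. -/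
noncomputable def EE (s X : ℕ) : ℝ := 1 / s * (X / Real.log X) * mu (MM s X)

theorem Good.unit' (h : Good s X) {a : ℝ} (ha : a ≤ -L X - s) : X * Real.exp a ≤ EE s X :=
  (h.unit ha).trans (le_mul_of_one_le_right (by have := Real.log_natCast_nonneg X; positivity)
    (h.one_le_mu_Tail.trans h.tail_le_MM))

theorem Good.red (h : Good s X) {a b c : ℝ} (h1 : c ≤ Real.exp b * mu (Tail s X))
    (h2 : a + b ≤ -L X - s) : 2 * X * Real.exp a * c ≤ 2 * EE s X := by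
  have h3 := mul_le_mul (h.unit h2) h.tail_le_MM (mu_nonneg _)
    (by have := Real.log_natCast_nonneg X; positivity)
  have h4 := mul_le_mul_of_nonneg_left h1 (show 0 ≤ 2 * X * Real.exp a by positivity)
  rw [Real.exp_add] at h3
  unfold EE
  linarith

theorem two_le_of_exp (hs : 10 ^ 12 ≤ s) {y : ℕ} (hy : Real.exp ((s : ℝ) ^ 59) ≤ y + 1) :
    2 ≤ y := by
  have : (2 : ℝ) ≤ y := by
    linarith [Real.add_one_le_exp ((s : ℝ) ^ 59), pw hs 0 59 (by norm_num)]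
  exact_mod_cast this

theorem Good.upper (h : Good s X) {N : ℕ} (hN : N < X) :
    (#(Tot (N + 1)) : ℝ) ≤ ∑ m ∈ MM s X, (Nat.primeCounting (N / m + 1) : ℝ) + 200 * EE s X := by
  classical
  have hs := h.s_ge
  have p0 := sge hs
  have p1 := pw1 hs 2 (by norm_num)
  have p2 := pw hs 2 3 (by norm_num)
  have p3 := pw hs 3 30 (by norm_num)
  have p4 := pw1 hs 55 (by norm_num)
  have p6 := pw hs 55 56 (by norm_num)
  have p7 := pw hs 56 58 (by norm_num)
  have hLX := h.L_le (t := X) (by omega)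
  obtain ⟨y, hy1, hy2, hy3⟩ := exists_root_R hs (t := X)
    (by linarith [h.lo, pw1 hs 54 (by norm_num)])
  have hy4 := two_le_of_exp hs hy3
  obtain ⟨Y, hY1, -, hY3⟩ := exists_root8 hs h.big
  have hY4 : 1 ≤ Y := by
    by_contra h'
    obtain rfl : Y = 0 := by omega
    have := h.two_le
    omega
  have hX0 : (0 : ℝ) ≤ X := Nat.cast_nonneg X
  have hl0 := Real.log_natCast_nonneg X
  have c1 : Bd (Tot (N + 1)) (fun v => v ≤ Y ^ 3) (EE s X) := fun V hV h' => by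
    have h1 : #V ≤ (Y + 1) ^ 3 := by
      refine (card_le_card (t := Ioc 0 (Y ^ 3)) fun v hv => ?_).trans ?_
      · exact mem_Ioc.2 ⟨Nat.pos_of_ne_zero (tot_facts hN (hV hv)).1, h' v hv⟩
      · simpa using Nat.pow_le_pow_left (Nat.le_succ Y) 3
    have h2 : (#V : ℝ) ≤ ((Y : ℝ) + 1) ^ 3 := by exact_mod_cast h1
    exact h2.trans (hY3.trans (h.unit' (by linarith)))
  have c0 : ∀ V ⊆ Tot (N + 1), ∀ v ∈ V, v ≠ 0 ∧ v ≤ X := fun V hV v hv =>
    ⟨(tot_facts hN (hV hv)).1, (tot_facts hN (hV hv)).2.1.trans hN.le⟩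
  have c2 : Bd (Tot (N + 1)) (fun v => Y ≤ v ∧ ∀ p, p.Prime → p ∣ v → p ≤ y) (EE s X) :=
    fun V hV h' => (card_le_mul_mu (c0 V hV)).trans ((mul_le_mul_of_nonneg_left
      (smooth_mass hs hLX hy4 _ fun v hv => ⟨(c0 V hV v hv).1, (c0 V hV v hv).2, (h' v hv).2,
        hy1.le.trans (hY1.trans (Nat.pow_le_pow_left (h' v hv).1 8))⟩) hX0).trans
      (h.unit' (by linarith)))
  have c3 : Bd (Tot (N + 1)) (fun v => ∃ q : ℕ, Real.exp ((s : ℝ) ^ 59) ≤ q ∧ q * (q - 1) ∣ v)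
      (EE s X) := fun V hV h' => (card_le_mul_mu (c0 V hV)).trans ((mul_le_mul_of_nonneg_left
      (h.sq_mass _ fun v hv => ⟨(c0 V hV v hv).1, (c0 V hV v hv).2, h' v hv⟩) hX0).trans
      (h.unit' (by linarith)))
  have c4 := (bd_count hN (Tot X) (fun m hm => (tot_facts (Nat.lt_succ_self X)
    (mem_Tot.2 ⟨(mem_Tot.1 hm).1.trans (Nat.lt_succ_self X), (mem_Tot.1 hm).2⟩)).1) _ (· - 1)
    (fun p => by omega) (by omega) (Real.exp_pos _).le (h.abn_card' hy2)).mono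
    (h.red h.tot_mass (by linarith))
  have c5 := (bd_count hN (Bad s X) (fun m hm => by
    rw [Bad, mem_filter] at hm
    exact hm.2.1) _ (· - 1) (fun p => by omega) (by omega) (Real.exp_pos _).le
    (h.prime_card hy2)).mono (h.red h.bad_mass (by linarith))
  have c6 := (bd_count hN ((range X).filter (IsNeg s X)) (fun m hm => (mem_filter.1 hm).2.1) _
    (fun p => p) (fun p => by omega) (by omega) (Real.exp_pos _).le (h.prime_card hy2)).mono
    (h.red ((h.neg_mass _ fun k hk => (mem_filter.1 hk).2).trans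
      (le_mul_of_one_le_right (Real.exp_pos _).le h.one_le_mu_Tail)) (by linarith))
  have c7 := (bd_count hN (G s X 0 (U s X + (s : ℝ) ^ 34) \ MM s X)
    (fun m hm => ne_zero_of_mem_G (mem_sdiff.1 hm).1) Nat.Prime (· - 1) (fun p => by omega) hY4
    (by positivity) fun t h1 _ V hV => pi_le hY1 h.two_le h1 V hV).mono
    ((mul_le_mul_of_nonneg_left h.thin_layer (by positivity)).trans
      (show _ ≤ 160 * EE s X from le_of_eq (by rw [EE, MM]; ring)))
  have c8 : Bd (Tot (N + 1)) (fun v => ∃ m ∈ MM s X, ∃ p, p.Prime ∧ v = (p - 1) * m)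
      (∑ m ∈ MM s X, (Nat.primeCounting (N / m + 1) : ℝ)) := fun V hV h' => by
    simpa only [card_primes_range] using count_vals (MM s X) (fun m hm => ne_zero_of_mem_G hm)
      Nat.Prime (· - 1) (fun p => by omega) V fun v hv => ⟨(tot_facts hN (hV hv)).2.1, h' v hv⟩
  have c9 := (c1.or (c2.or (c3.or (c4.or (c5.or (c6.or (c7.or c8))))))) _ Subset.rfl
    fun v hv => h.classify hy2 hy3 hY1 (tot_facts hN hv).2.2
  have := (show 0 ≤ X * Real.exp (-L X - s) by positivity).trans (h.unit' le_rfl)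
  linarith

end Vale.Agent.P031
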